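import Vale.Agent.P159.H145.Dz5
import Vale.Agent.P159.TM.H60.Arm

/-!
P159, helper474, module CB, part 4: the swap identity with arbitrary local functionals.

`swapF` : `F`, `F'` functions of the configuration on `R`, `R'`. Replacing `F' x` by `F' (swap x)`
costs at most the weight of the open sets which join `R` and `R'`.
`swapQ` : the same with the joining event covered by arm events, in the form of local functionals of
the configuration (the conditional probabilities `qa` of the arms).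
-/

set_option linter.unusedSectionVars false
set_option linter.unusedDecidableInType false

namespace Vale.Agent.P159.H474.Cb

open scoped ENNReal
open Finset Vale.Agent.P159.TM.H60 Vale.Agent.P159.TM.H576 Vale.Agent.P159.H145.Dz

variable {V E S : Type*} [Fintype V] [DecidableEq V] [Fintype E] [DecidableEq E]
variable (σ : Sys V E S)

/-- the global swap -/
def sws (x : V → S) : V → S := fun v => σ.sw (x v)

lemma sws_sws (x : V → S) : sws σ (sws σ x) = x := by
  funext v
  exact σ.sw_sw _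

/-- **the swap identity, one direction** -/
theorem swapF {R R' : Finset V} {F F' : (V → S) → ℝ≥0∞}
    (hF : ∀ x x' : V → S, (∀ v ∈ R, x v = x' v) → F x = F x')
    (hF' : ∀ x x' : V → S, (∀ v ∈ R', x v = x' v) → F' x = F' x') :
    I0 σ (fun x => F x * F' x) ≤ I0 σ (fun x => F x * F' (sws σ x)) +
      Ex σ fun x om => F x * F' x * ind (Joins σ.s σ.t om R R') := by
  classical
  rw [I0_eq, I0_eq, Ex_om, ← Finset.sum_add_distrib]
  refine Finset.sum_le_sum fun om _ => ?_
  by_cases hj : Joins σ.s σ.t om R R'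
  · refine le_add_left ?_
    refine ENNReal.tsum_le_tsum fun x => ?_
    rw [ind_true hj, mul_one]
  · refine le_add_right ?_
    set A : Finset V := cls σ.s σ.t om R' with hA
    have hAd : Disjoint om (bdE σ.s σ.t A) := cls_no_bd rfl
    have hR : Disjoint R A := by
      rw [Finset.disjoint_left]
      intro u hu hu'
      obtain ⟨v, hv, hc⟩ := mem_cls.1 hu'
      exact hj ⟨u, hu, v, hv, mem_clus.2 hc.symm⟩
    have hR' : R' ⊆ A := sub_cls σ.s σ.t om R'
    rw [← TM.H352.enn_flip σ hAd fun x => F x * F' x]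
    refine le_of_eq (tsum_congr fun x => ?_)
    have h1 : F (σ.flip A x) = F x :=
      hF _ _ fun v hv => σ.flip_not_mem (Finset.disjoint_left.1 hR hv)
    have h2 : F' (σ.flip A x) = F' (sws σ x) := hF' _ _ fun v hv => σ.flip_mem (hR' hv)
    rw [h1, h2]

/-- discrete intermediate values along open paths -/
lemma conn_level {om : Finset E} {δ : V → ℕ} (hδ : ∀ e, δ (σ.s e) ≤ δ (σ.t e) + 1 ∧
    δ (σ.t e) ≤ δ (σ.s e) + 1) {u v : V} (h : Conn σ.s σ.t om u v) {k : ℕ} (h1 : δ u ≤ k)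
    (h2 : k ≤ δ v) : ∃ z, Conn σ.s σ.t om u z ∧ δ z = k := by
  induction h with
  | refl => exact ⟨u, Conn.refl u, by omega⟩
  | @tail y z h3 h4 ih =>
    by_cases hy : k ≤ δ y
    · exact ih hy
    · refine ⟨z, h3.tail h4, ?_⟩
      obtain ⟨e, _, h5⟩ := h4
      have h6 := hδ e
      rcases h5 with ⟨h5, h7⟩ | ⟨h5, h7⟩
      · rw [h5, h7] at h6
        omega
      · rw [h5, h7] at h6
        omega

/-- the joining event is covered by arm events -/
lemma joins_arm {ι : Type*} (I : Finset ι) (B Λ : ι → Finset V) {R R' : Finset V} {δ : V → ℕ}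
    (hδ : ∀ e, δ (σ.s e) ≤ δ (σ.t e) + 1 ∧ δ (σ.t e) ≤ δ (σ.s e) + 1) {k : ℕ}
    (hR : ∀ v ∈ R, δ v < k) (hR' : ∀ v ∈ R', k ≤ δ v)
    (hB : ∀ z, δ z = k → ∃ i ∈ I, z ∈ B i) (hΛ : ∀ i ∈ I, ∀ v ∈ R, v ∉ Λ i)
    {om : Finset E} {x : V → S} (hw : σ.wt om x ≠ 0) :
    ind (Joins σ.s σ.t om R R') ≤ ∑ i ∈ I, ind (Arm σ (B i) (Λ i) x om) := by
  by_cases hj : Joins σ.s σ.t om R R'
  · obtain ⟨u, hu, v, hv, hc⟩ := hj
    obtain ⟨z, hz, hzk⟩ := conn_level σ hδ (mem_clus.1 hc) (hR u hu).le (hR' v hv)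
    obtain ⟨i, hi, hzB⟩ := hB z hzk
    have hne : u ≠ z := by
      rintro rfl
      have := hR u hu
      omega
    have hd : σ.d (x z) ≠ 0 := by
      rcases σ.sign_conn hw hz with h | h
      · exact absurd h hne
      · intro h0
        rw [h0, mul_zero] at h
        exact lt_irrefl _ h
    have hA : Arm σ (B i) (Λ i) x om := ⟨z, hzB, hd, u, mem_clus.2 hz.symm, hΛ i hi u hu⟩
    calc ind (Joins σ.s σ.t om R R') ≤ 1 := ind_le_one _
      _ = ind (Arm σ (B i) (Λ i) x om) := (ind_true hA).symm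
      _ ≤ _ := Finset.single_le_sum (f := fun i => ind (Arm σ (B i) (Λ i) x om))
        (fun _ _ => bot_le) hi
  · rw [ind_false hj]
    exact bot_le

/-- conditional probability of an arm, a local function of the configuration -/
noncomputable def qa (B Λ : Finset V) (x : V → S) : ℝ≥0∞ :=
  Vale.Agent.P159.H145.Dz.cp σ (touch σ Λ) (fun T => ind (Arm σ B Λ x T)) x

lemma qa_le_one (hfl : ∀ e x y, 0 < σ.fl e x y) (B Λ : Finset V) (x : V → S) : qa σ B Λ x ≤ 1 :=
  cp_le_one σ hfl (fun _ => ind_le_one _) x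

/-- an expectation of an arm against a function of the configuration -/
lemma Ex_arm_mul (hfl : ∀ e x y, 0 < σ.fl e x y) (B Λ : Finset V) (F : (V → S) → ℝ≥0∞) :
    Ex σ (fun x om => F x * ind (Arm σ B Λ x om)) = I0 σ fun x => F x * qa σ B Λ x := by
  have h1 : Ex σ (fun x om => F x * ind (Arm σ B Λ x om)) =
      Ex σ (fun x om => (fun x T => F x * ind (Arm σ B Λ x T)) x (om ∩ touch σ Λ)) := by
    refine Ex_congr fun x om _ => ?_
    show F x * _ = F x * _
    congr 1
    refine ind_congr ?_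
    constructor
    · rintro ⟨u, hu, hd, z, hz, hzΛ⟩
      obtain ⟨z', h1, h2⟩ := exit σ (mem_clus.1 hz) hzΛ
      exact ⟨u, hu, hd, z', mem_clus.2 h2, h1⟩
    · rintro ⟨u, hu, hd, z, hz, hzΛ⟩
      exact ⟨u, hu, hd, z, mem_clus.2 ((mem_clus.1 hz).mono Finset.inter_subset_left), hzΛ⟩
  rw [h1, Ex_cp σ hfl (touch σ Λ) fun x T => F x * ind (Arm σ B Λ x T)]
  unfold I0
  refine tsum_congr fun x => ?_
  congr 1
  unfold qa Vale.Agent.P159.H145.Dz.cp
  dsimp only
  rw [Finset.mul_sum]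
  refine Finset.sum_congr rfl fun T _ => ?_
  ring

/-- **the swap identity with local arm functionals** -/
theorem swapQ (hfl : ∀ e x y, 0 < σ.fl e x y) {ι : Type*} (I : Finset ι) (B Λ : ι → Finset V)
    {R R' : Finset V} {δ : V → ℕ}
    (hδ : ∀ e, δ (σ.s e) ≤ δ (σ.t e) + 1 ∧ δ (σ.t e) ≤ δ (σ.s e) + 1) {k : ℕ}
    (hR : ∀ v ∈ R, δ v < k) (hR' : ∀ v ∈ R', k ≤ δ v)
    (hB : ∀ z, δ z = k → ∃ i ∈ I, z ∈ B i) (hΛ : ∀ i ∈ I, ∀ v ∈ R, v ∉ Λ i)
    {F F' : (V → S) → ℝ≥0∞}
    (hF : ∀ x x' : V → S, (∀ v ∈ R, x v = x' v) → F x = F x')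
    (hF' : ∀ x x' : V → S, (∀ v ∈ R', x v = x' v) → F' x = F' x') :
    I0 σ (fun x => F x * F' x) ≤ I0 σ (fun x => F x * F' (sws σ x)) +
      ∑ i ∈ I, I0 σ fun x => F x * F' x * qa σ (B i) (Λ i) x := by
  refine (swapF σ hF hF').trans (add_le_add_right ?_ _)
  calc Ex σ (fun x om => F x * F' x * ind (Joins σ.s σ.t om R R'))
      ≤ Ex σ (fun x om => ∑ i ∈ I, F x * F' x * ind (Arm σ (B i) (Λ i) x om)) := by
        refine Ex_mono fun x om hw => ?_
        rw [← Finset.mul_sum]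
        exact mul_le_mul' le_rfl (joins_arm σ I B Λ hδ hR hR' hB hΛ hw)
    _ = ∑ i ∈ I, Ex σ fun x om => F x * F' x * ind (Arm σ (B i) (Λ i) x om) := by
        rw [Ex_sum]
    _ = _ := Finset.sum_congr rfl fun i _ => Ex_arm_mul σ hfl (B i) (Λ i) fun x => F x * F' x

end Vale.Agent.P159.H474.Cb
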