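import Vale.Agent.P159.H474.Cb7
import Vale.Agent.P159.H764.Sw2

/-!
P159, helper474, module CB, part 9: swap and chessboard together, one torus.

`QB X s Q` : the blocks other than `(0, 0)` of the grid with origin `s` cost together at most `Q`.
`AB_le` : the block arm integral of helper764 in numbers.
`two_le`, `two_ge` : `Z(A1) Z(A2)` against `Z(B1) Z(B2)`.
-/

set_option linter.unusedSectionVars false

namespace Vale.Agent.P159.H474.Cb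

open scoped ENNReal
open Finset
open Vale.Agent.P159.H37
open Vale.Agent.P159.H770 (Ed eS eT wTD wTD_eq wTD_zero wTD_le wTD_pos eWF edW_wI)
open Vale.Agent.P159.TM.SpecC (Tor wT)
open Vale.Agent.P159.H353 (wI wI_neg wI_nonneg)
open Vale.Agent.P159.H764 (SwD ZE AB sgF sw2_le sw2_ge)
open Vale.Agent.P159.T1.H897 (LogC logC_wI)

noncomputable section

/-- a group element: dislocation and real background -/
abbrev GE (N : ℕ) : Type := (Ed N → ℤ) × (Tor N → ℝ)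

/-- partition function of a group element -/
def ZG (N : ℕ) [NeZero N] (b t : ℝ) (X : GE N) : ℝ :=
  ZM (wTD N b X.1) (t • (1 : Matrix (Tor N) (Tor N) ℝ)) X.2

lemma ZG_zero (N : ℕ) [NeZero N] (b t : ℝ) : ZG N b t 0 = Z0 N b t := by
  unfold ZG Z0
  rw [Prod.fst_zero, Prod.snd_zero, wTD_zero]

lemma ZG_pos {N : ℕ} [NeZero N] {b t : ℝ} (hb : 0 < b) (ht : 0 < t) (X : GE N) :
    0 < ZG N b t X := by
  unfold ZG
  exact ZM_pos (by rw [Matrix.transpose_smul, Matrix.transpose_one])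
    (H770.em_wTD hb _ ht (H789.coer_smul t)) _

lemma ZG_le {N : ℕ} [NeZero N] {b t : ℝ} (hb : 0 < b) (ht : 0 < t) (X : GE N) :
    ZG N b t X ≤ Z0 N b t := by
  unfold ZG Z0
  exact ZM_wTD_le hb (by rw [Matrix.transpose_smul, Matrix.transpose_one]) ht
    (H789.coer_smul t) _ _

lemma ZE_eq {N : ℕ} [NeZero N] {b t : ℝ} (hb : 0 < b) (ht : 0 < t) (X : GE N) :
    ZE (eS N) (eT N) (fun _ => wI b) t X = ENNReal.ofReal (ZG N b t X) := by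
  unfold ZE ZG ZM
  exact (ENNReal.ofReal_tsum_of_nonneg (wDC_nonneg hb X.1 X.2)
    (summable_ZM hb ht (H789.coer_smul t) X.1 X.2)).symm

section main

variable {m n : ℕ} [NeZero ((m + 1) * (n + 2))] [NeZero ((m + 1) * 2)] {b t : ℝ}

/-- the blocks other than `(0, 0)` of the grid with origin `s` cost together at most `Q` -/
def QB (m n : ℕ) [NeZero ((m + 1) * (n + 2))] [NeZero ((m + 1) * 2)] (b t : ℝ)
    (X : GE ((m + 1) * (n + 2))) (s : Tor ((m + 1) * (n + 2))) (Q : ℝ) : Prop :=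
  ∃ q : Fin (n + 2) × Fin (n + 2) → ℝ, (∀ p, 0 ≤ q p) ∧
    (∀ p : Fin (n + 2) × Fin (n + 2), p ≠ (0, 0) →
      ZM (wTD ((m + 1) * 2) b (foE m (trD s X.1) p.1 p.2)) (t • (1 : Matrix _ _ ℝ))
        (foF m (trF s X.2) p.1 p.2) ≤ q p * Z0 ((m + 1) * 2) b t) ∧
    ∏ p ∈ univ.erase (0, 0), q p ^ (1 / 4 : ℝ) ≤ Q

lemma QB_one (hb : 0 < b) (ht : 0 < t) (X : GE ((m + 1) * (n + 2)))
    (s : Tor ((m + 1) * (n + 2))) : QB m n b t X s 1 := by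
  refine ⟨fun _ => 1, fun _ => zero_le_one, fun p _ => ?_, ?_⟩
  · rw [one_mul]
    exact ZM_wTD_le hb (by rw [Matrix.transpose_smul, Matrix.transpose_one]) ht
      (H789.coer_smul t) _ _
  · simp

lemma QB.mono {X : GE ((m + 1) * (n + 2))} {s : Tor ((m + 1) * (n + 2))} {Q Q' : ℝ}
    (h : QB m n b t X s Q) (hQ : Q ≤ Q') : QB m n b t X s Q' := by
  obtain ⟨q, h1, h2, h3⟩ := h
  exact ⟨q, h1, h2, h3.trans hQ⟩

lemma QB.nonneg {X : GE ((m + 1) * (n + 2))} {s : Tor ((m + 1) * (n + 2))} {Q : ℝ}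
    (h : QB m n b t X s Q) : 0 ≤ Q := by
  obtain ⟨q, h1, _, h3⟩ := h
  exact (Finset.prod_nonneg fun p _ => Real.rpow_nonneg (h1 p) _).trans h3

/-- functionals of two closed blocks -/
abbrev GF (m : ℕ) : Type :=
  (Fin (m + 2) → Fin (m + 2) → ℤ) → (Fin (m + 2) → Fin (m + 2) → ℤ) → ℝ≥0∞

/-- the event number: the folded data of the block `(0, 0)` at `s` with the functional `G` -/
def Evn (m n : ℕ) [NeZero ((m + 1) * (n + 2))] [NeZero ((m + 1) * 2)] (b t : ℝ)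
    (X1 X2 : GE ((m + 1) * (n + 2))) (s : Tor ((m + 1) * (n + 2))) (G : GF m) (ea : ℝ) : Prop :=
  ∑' τ : Tor ((m + 1) * 2) → ℤ, ∑' τ' : Tor ((m + 1) * 2) → ℤ,
    ENNReal.ofReal (wDC _ b t (foE m (trD s X1.1) 0 0) (foF m (trF s X1.2) 0 0) τ) *
      ENNReal.ofReal (wDC _ b t (foE m (trD s X2.1) 0 0) (foF m (trF s X2.2) 0 0) τ') *
      G (fun a c => τ (pt 0 a c)) (fun a c => τ' (pt 0 a c)) ≤
    ENNReal.ofReal (ea * Z0 ((m + 1) * 2) b t ^ 2)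

/-- the volume number -/
def Vol (m n : ℕ) [NeZero ((m + 1) * (n + 2))] [NeZero ((m + 1) * 2)] (b t δ : ℝ) : Prop :=
  ((n : ℝ) + 2) ^ 2 / 4 * Real.log (Z0 ((m + 1) * 2) b t) -
    Real.log (Z0 ((m + 1) * (n + 2)) b t) ≤ δ

/-- **the block arm integral in numbers** -/
theorem AB_le (hb : 0 < b) (ht : 0 < t) (hI : ∀ (_ : Ed ((m + 1) * (n + 2))) (k : ℤ), 0 < wI b k)
    (hL : ∀ _ : Ed ((m + 1) * (n + 2)), LogC (wI b)) {E0 : Finset (Ed ((m + 1) * (n + 2)))}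
    {η0 : Ed ((m + 1) * (n + 2)) → ℤ} {X1 X2 : GE ((m + 1) * (n + 2))}
    {B Λ : Finset (Tor ((m + 1) * (n + 2)))} {s : Tor ((m + 1) * (n + 2))} {G : GF m}
    (hG : ∀ x y, G x y ≤ 1)
    (hval : ∀ h h' : Tor ((m + 1) * (n + 2)) → ℤ,
      Cb.qa (sgF (eS _) (eT _) hI hL E0 η0) B Λ (fun v => (h v, h' v)) =
        G (fun a c => h (pt s a c)) (fun a c => h' (pt s a c)))
    {Q1 Q2 ea δ : ℝ} (hQ1 : QB m n b t X1 s Q1) (hQ2 : QB m n b t X2 s Q2) (hea : 0 ≤ ea)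
    (hev : Evn m n b t X1 X2 s G ea) (hδ : Vol m n b t δ) :
    AB (eS _) (eT _) hI hL E0 η0 t X1 X2 B Λ ≤
      ENNReal.ofReal (ea ^ (1 / 4 : ℝ) * (Q1 * Q2) * Real.exp (2 * δ) *
        Z0 ((m + 1) * (n + 2)) b t ^ 2) := by
  obtain ⟨q1, a1, a2, a3⟩ := hQ1
  obtain ⟨q2, c1, c2, c3⟩ := hQ2
  have h := arm_vol hb ht X1.1 X1.2 X2.1 X2.2 s s G hG q1 q2 a1 c1 a2 c2 hea hev hδ hδ
  have e1 : AB (eS _) (eT _) hI hL E0 η0 t X1 X2 B Λ =
      ∑' h1 : Tor ((m + 1) * (n + 2)) → ℤ, ∑' h2 : Tor ((m + 1) * (n + 2)) → ℤ,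
      ENNReal.ofReal (wDC _ b t X1.1 X1.2 h1) * ENNReal.ofReal (wDC _ b t X2.1 X2.2 h2) *
        G (fun a c => h1 (pt s a c)) (fun a c => h2 (pt s a c)) := by
    unfold AB
    refine tsum_congr fun h1 => tsum_congr fun h2 => ?_
    rw [← mul_assoc, hval]
    rfl
  rw [e1]
  refine h.trans (ENNReal.ofReal_le_ofReal ?_)
  have p1 : 0 ≤ ∏ p ∈ (univ : Finset (Fin (n + 2) × Fin (n + 2))).erase (0, 0),
      q1 p ^ (1 / 4 : ℝ) := Finset.prod_nonneg fun p _ => Real.rpow_nonneg (a1 p) _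
  have p2 : 0 ≤ ∏ p ∈ (univ : Finset (Fin (n + 2) × Fin (n + 2))).erase (0, 0),
      q2 p ^ (1 / 4 : ℝ) := Finset.prod_nonneg fun p _ => Real.rpow_nonneg (c1 p) _
  have hZ : 0 < Z0 ((m + 1) * (n + 2)) b t := Z0_pos hb ht
  have e2 : δ + δ = 2 * δ := by ring
  rw [e2, ← pow_two, mul_assoc (ea ^ (1 / 4 : ℝ))]
  have h3 := mul_le_mul a3 c3 p2 (p1.trans a3)
  have h4 : 0 ≤ ea ^ (1 / 4 : ℝ) := Real.rpow_nonneg hea _
  gcongr

variable {V1 : Type*}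

/-- **swap and chessboard, first direction** -/
theorem two_le (hb : 0 < b) (ht : 0 < t)
    (hI : ∀ (_ : Ed ((m + 1) * (n + 2))) (k : ℤ), 0 < wI b k)
    (hL : ∀ _ : Ed ((m + 1) * (n + 2)), LogC (wI b))
    {E0 : Finset (Ed ((m + 1) * (n + 2)))} {VP VW : Finset (Tor ((m + 1) * (n + 2)))}
    {A1 A2 B1 B2 : GE ((m + 1) * (n + 2))}
    (D : SwD (eS _) (eT _) E0 VP VW A1 A2 B1 B2) {ι : Type*} (J : Finset ι)
    (B Λ : ι → Finset (Tor ((m + 1) * (n + 2)))) {δ : Tor ((m + 1) * (n + 2)) → ℕ}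
    (hδ : ∀ e, δ (eS _ e) ≤ δ (eT _ e) + 1 ∧ δ (eT _ e) ≤ δ (eS _ e) + 1)
    {k : ℕ} (hP : ∀ v ∈ VP, δ v < k) (hW : ∀ v ∈ VW, k ≤ δ v)
    (hB : ∀ z, δ z = k → ∃ i ∈ J, z ∈ B i) (hΛ : ∀ i ∈ J, ∀ v ∈ VP, v ∉ Λ i)
    (s : ι → Tor ((m + 1) * (n + 2))) (G : ι → GF m) (hG : ∀ i ∈ J, ∀ x y, G i x y ≤ 1)
    (hval : ∀ i ∈ J, ∀ h h' : Tor ((m + 1) * (n + 2)) → ℤ,
      Cb.qa (sgF (eS _) (eT _) hI hL E0 A1.1) (B i) (Λ i) (fun v => (h v, h' v)) =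
        G i (fun a c => h (pt (s i) a c)) (fun a c => h' (pt (s i) a c)))
    {Q1 Q2 ea dl : ℝ} (hQ1 : ∀ i ∈ J, QB m n b t A1 (s i) Q1)
    (hQ2 : ∀ i ∈ J, QB m n b t A2 (s i) Q2) (hea : 0 ≤ ea)
    (hev : ∀ i ∈ J, Evn m n b t A1 A2 (s i) (G i) ea) (hV : Vol m n b t dl) :
    ZG _ b t A1 * ZG _ b t A2 ≤ ZG _ b t B1 * ZG _ b t B2 +
      J.card * (ea ^ (1 / 4 : ℝ) * (Q1 * Q2) * Real.exp (2 * dl) *
        Z0 ((m + 1) * (n + 2)) b t ^ 2) := by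
  rcases J.eq_empty_or_nonempty with hJ | hJ
  · subst hJ
    have h := sw2_le hI hL D t ∅ B Λ hδ hP hW hB hΛ
    rw [Finset.sum_empty, add_zero, ZE_eq hb ht, ZE_eq hb ht, ZE_eq hb ht, ZE_eq hb ht,
      ← ENNReal.ofReal_mul (ZG_pos hb ht _).le, ← ENNReal.ofReal_mul (ZG_pos hb ht _).le,
      ENNReal.ofReal_le_ofReal_iff
        (mul_nonneg (ZG_pos hb ht _).le (ZG_pos hb ht _).le)] at h
    simpa using h
  · obtain ⟨i0, hi0⟩ := hJ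
    have q1 := (hQ1 i0 hi0).nonneg
    have q2 := (hQ2 i0 hi0).nonneg
    set c : ℝ := ea ^ (1 / 4 : ℝ) * (Q1 * Q2) * Real.exp (2 * dl) *
        Z0 ((m + 1) * (n + 2)) b t ^ 2 with hc
    have hc0 : 0 ≤ c := by positivity
    have h := sw2_le hI hL D t J B Λ hδ hP hW hB hΛ
    have h2 : ∑ i ∈ J, AB (eS _) (eT _) hI hL E0 A1.1 t A1 A2 (B i) (Λ i) ≤
        ENNReal.ofReal (J.card * c) := by
      calc _ ≤ ∑ _i ∈ J, ENNReal.ofReal c := Finset.sum_le_sum fun i hi =>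
            AB_le hb ht hI hL (hG i hi) (hval i hi) (hQ1 i hi) (hQ2 i hi) hea (hev i hi) hV
        _ = _ := by
          rw [Finset.sum_const, nsmul_eq_mul, ENNReal.ofReal_mul (Nat.cast_nonneg _),
            ENNReal.ofReal_natCast]
    have h3 := h.trans (add_le_add_right h2 _)
    rw [ZE_eq hb ht, ZE_eq hb ht, ZE_eq hb ht, ZE_eq hb ht,
      ← ENNReal.ofReal_mul (ZG_pos hb ht _).le, ← ENNReal.ofReal_mul (ZG_pos hb ht _).le,
      ← ENNReal.ofReal_add (mul_nonneg (ZG_pos hb ht _).le (ZG_pos hb ht _).le) (by positivity),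
      ENNReal.ofReal_le_ofReal_iff (add_nonneg
        (mul_nonneg (ZG_pos hb ht _).le (ZG_pos hb ht _).le) (by positivity))] at h3
    exact h3

/-- **swap and chessboard, second direction** -/
theorem two_ge (hb : 0 < b) (ht : 0 < t)
    (hI : ∀ (_ : Ed ((m + 1) * (n + 2))) (k : ℤ), 0 < wI b k)
    (hL : ∀ _ : Ed ((m + 1) * (n + 2)), LogC (wI b))
    {E0 : Finset (Ed ((m + 1) * (n + 2)))} {VP VW : Finset (Tor ((m + 1) * (n + 2)))}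
    {A1 A2 B1 B2 : GE ((m + 1) * (n + 2))}
    (D : SwD (eS _) (eT _) E0 VP VW A1 A2 B1 B2) {ι : Type*} (J : Finset ι)
    (B Λ : ι → Finset (Tor ((m + 1) * (n + 2)))) {δ : Tor ((m + 1) * (n + 2)) → ℕ}
    (hδ : ∀ e, δ (eS _ e) ≤ δ (eT _ e) + 1 ∧ δ (eT _ e) ≤ δ (eS _ e) + 1)
    {k : ℕ} (hP : ∀ v ∈ VP, δ v < k) (hW : ∀ v ∈ VW, k ≤ δ v)
    (hB : ∀ z, δ z = k → ∃ i ∈ J, z ∈ B i) (hΛ : ∀ i ∈ J, ∀ v ∈ VP, v ∉ Λ i)
    (s : ι → Tor ((m + 1) * (n + 2))) (G : ι → GF m) (hG : ∀ i ∈ J, ∀ x y, G i x y ≤ 1)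
    (hval : ∀ i ∈ J, ∀ h h' : Tor ((m + 1) * (n + 2)) → ℤ,
      Cb.qa (sgF (eS _) (eT _) hI hL E0 A1.1) (B i) (Λ i) (fun v => (h v, h' v)) =
        G i (fun a c => h (pt (s i) a c)) (fun a c => h' (pt (s i) a c)))
    {Q1 Q2 ea dl : ℝ} (hQ1 : ∀ i ∈ J, QB m n b t B1 (s i) Q1)
    (hQ2 : ∀ i ∈ J, QB m n b t B2 (s i) Q2) (hea : 0 ≤ ea)
    (hev : ∀ i ∈ J, Evn m n b t B1 B2 (s i) (G i) ea) (hV : Vol m n b t dl) :
    ZG _ b t B1 * ZG _ b t B2 ≤ ZG _ b t A1 * ZG _ b t A2 +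
      J.card * (ea ^ (1 / 4 : ℝ) * (Q1 * Q2) * Real.exp (2 * dl) *
        Z0 ((m + 1) * (n + 2)) b t ^ 2) := by
  rcases J.eq_empty_or_nonempty with hJ | hJ
  · subst hJ
    have h := sw2_ge hI hL D t ∅ B Λ hδ hP hW hB hΛ
    rw [Finset.sum_empty, add_zero, ZE_eq hb ht, ZE_eq hb ht, ZE_eq hb ht, ZE_eq hb ht,
      ← ENNReal.ofReal_mul (ZG_pos hb ht _).le, ← ENNReal.ofReal_mul (ZG_pos hb ht _).le,
      ENNReal.ofReal_le_ofReal_iff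
        (mul_nonneg (ZG_pos hb ht _).le (ZG_pos hb ht _).le)] at h
    simpa using h
  · obtain ⟨i0, hi0⟩ := hJ
    have q1 := (hQ1 i0 hi0).nonneg
    have q2 := (hQ2 i0 hi0).nonneg
    set c : ℝ := ea ^ (1 / 4 : ℝ) * (Q1 * Q2) * Real.exp (2 * dl) *
        Z0 ((m + 1) * (n + 2)) b t ^ 2 with hc
    have hc0 : 0 ≤ c := by positivity
    have h := sw2_ge hI hL D t J B Λ hδ hP hW hB hΛ
    have h2 : ∑ i ∈ J, AB (eS _) (eT _) hI hL E0 A1.1 t B1 B2 (B i) (Λ i) ≤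
        ENNReal.ofReal (J.card * c) := by
      calc _ ≤ ∑ _i ∈ J, ENNReal.ofReal c := Finset.sum_le_sum fun i hi =>
            AB_le hb ht hI hL (hG i hi) (hval i hi) (hQ1 i hi) (hQ2 i hi) hea (hev i hi) hV
        _ = _ := by
          rw [Finset.sum_const, nsmul_eq_mul, ENNReal.ofReal_mul (Nat.cast_nonneg _),
            ENNReal.ofReal_natCast]
    have h3 := h.trans (add_le_add_right h2 _)
    rw [ZE_eq hb ht, ZE_eq hb ht, ZE_eq hb ht, ZE_eq hb ht,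
      ← ENNReal.ofReal_mul (ZG_pos hb ht _).le, ← ENNReal.ofReal_mul (ZG_pos hb ht _).le,
      ← ENNReal.ofReal_add (mul_nonneg (ZG_pos hb ht _).le (ZG_pos hb ht _).le) (by positivity),
      ENNReal.ofReal_le_ofReal_iff (add_nonneg
        (mul_nonneg (ZG_pos hb ht _).le (ZG_pos hb ht _).le) (by positivity))] at h3
    exact h3

end main

end

end Vale.Agent.P159.H474.Cb
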