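import Vale.Agent.P159.H474.Cb6

/-!
P159, helper474, module CB, part 7: the entangled chessboard for two copies with data
`(η₁, F₁)`, `(η₂, F₂)` on tori of sides `(m+1)(n₁+2)`, `(m+1)(n₂+2)`, grids starting at arbitrary
points `s₁`, `s₂`, a functional `G` of the closed blocks at `s₁`, `s₂`, with numbers.

`arm_num` : the result in terms of `Z` of the small torus; `arm_vol` : with the volume terms.
-/

set_option linter.unusedSectionVars false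

namespace Vale.Agent.P159.H474.Cb

open scoped ENNReal
open Finset
open Vale.Agent.P159.H37
open Vale.Agent.P159.H770 (Ed eS eT wTD wTD_eq wTD_zero wTD_le wTD_pos)
open Vale.Agent.P159.TM.SpecC (Tor wT)
open Vale.Agent.P159.H353 (wI wI_neg wI_nonneg)

noncomputable section

section trans

variable {N : ℕ} [NeZero N] {b t : ℝ}

/-- translated background -/
def trF (s : Tor N) (F : Tor N → ℝ) : Tor N → ℝ := fun x => F (x + s)

/-- translated dislocation -/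
def trD (s : Tor N) (η : Ed N → ℤ) : Ed N → ℤ := fun e => η (e.1 + s, e.2)

lemma wDC_tr (s : Tor N) (η : Ed N → ℤ) (F : Tor N → ℝ) (h : Tor N → ℤ) :
    wDC N b t (trD s η) (trF s F) (fun x => h (x + s)) = wDC N b t η F h := by
  unfold wDC
  congr 1
  · rw [wTD_eq, wTD_eq, ← Equiv.prod_comp (Equiv.addRight s) (fun x => wI b (h (x + (1, 0)) - h x +
      η (x, false)) * wI b (h (x + (0, 1)) - h x + η (x, true)))]
    refine Finset.prod_congr rfl fun x _ => ?_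
    rw [Equiv.coe_addRight, add_right_comm x (1, 0) s, add_right_comm x (0, 1) s]
    rfl
  · congr 2
    rw [qf_smul_one, qf_smul_one, ← Equiv.sum_comp (Equiv.addRight s) (fun x => (re h - F) x ^ 2)]
    rfl

lemma tsum_tr (s : Tor N) (g : (Tor N → ℤ) → ℝ≥0∞) :
    ∑' h : Tor N → ℤ, g (fun x => h (x + s)) = ∑' h, g h :=
  (Equiv.arrowCongr (Equiv.subRight s) (Equiv.refl ℤ)).tsum_eq g

/-- the partition function of translated data -/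
lemma ZM_tr (s : Tor N) (η : Ed N → ℤ) (F : Tor N → ℝ) :
    ZM (wTD N b (trD s η)) (t • (1 : Matrix (Tor N) (Tor N) ℝ)) (trF s F) =
      ZM (wTD N b η) (t • (1 : Matrix (Tor N) (Tor N) ℝ)) F := by
  unfold ZM
  rw [← (Equiv.arrowCongr (Equiv.subRight s) (Equiv.refl ℤ)).tsum_eq]
  exact tsum_congr fun h => wDC_tr (b := b) (t := t) s η F h

end trans

/-- the corner of the closed block seen from `s` -/
def pt {N : ℕ} (s : Tor N) (a c : ℕ) : Tor N := ((a : ZMod N), (c : ZMod N)) + s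

/-- partition function at zero data -/
def Z0 (N : ℕ) [NeZero N] (b t : ℝ) : ℝ := ZM (wT b N) (t • (1 : Matrix (Tor N) (Tor N) ℝ)) 0

lemma Z0_pos {N : ℕ} [NeZero N] {b t : ℝ} (hb : 0 < b) (ht : 0 < t) : 0 < Z0 N b t := by
  unfold Z0
  exact ZM_pos (by rw [Matrix.transpose_smul, Matrix.transpose_one])
    (H789.em_wM_wT hb.le ht (H789.coer_smul t)) 0

section main

variable {m n1 n2 : ℕ} [NeZero ((m + 1) * (n1 + 2))] [NeZero ((m + 1) * (n2 + 2))]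
  [NeZero ((m + 1) * 2)] {b t : ℝ}

/-- **the entangled chessboard with numbers** -/
theorem arm_num (hb : 0 < b) (ht : 0 < t)
    (η1 : Ed ((m + 1) * (n1 + 2)) → ℤ) (F1 : Tor ((m + 1) * (n1 + 2)) → ℝ)
    (η2 : Ed ((m + 1) * (n2 + 2)) → ℤ) (F2 : Tor ((m + 1) * (n2 + 2)) → ℝ)
    (s1 : Tor ((m + 1) * (n1 + 2))) (s2 : Tor ((m + 1) * (n2 + 2)))
    (G : (Fin (m + 2) → Fin (m + 2) → ℤ) → (Fin (m + 2) → Fin (m + 2) → ℤ) → ℝ≥0∞)
    (hG : ∀ x y, G x y ≤ 1)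
    (q1 : Fin (n1 + 2) × Fin (n1 + 2) → ℝ) (q2 : Fin (n2 + 2) × Fin (n2 + 2) → ℝ)
    (hq1 : ∀ p, 0 ≤ q1 p) (hq2 : ∀ p, 0 ≤ q2 p)
    (hZ1 : ∀ p : Fin (n1 + 2) × Fin (n1 + 2), p ≠ (0, 0) → ZM (wTD ((m + 1) * 2) b (foE m (trD s1 η1) p.1 p.2))
      (t • (1 : Matrix _ _ ℝ)) (foF m (trF s1 F1) p.1 p.2) ≤ q1 p * Z0 ((m + 1) * 2) b t)
    (hZ2 : ∀ p : Fin (n2 + 2) × Fin (n2 + 2), p ≠ (0, 0) → ZM (wTD ((m + 1) * 2) b (foE m (trD s2 η2) p.1 p.2))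
      (t • (1 : Matrix _ _ ℝ)) (foF m (trF s2 F2) p.1 p.2) ≤ q2 p * Z0 ((m + 1) * 2) b t)
    {ea : ℝ} (hea : 0 ≤ ea)
    (hev : ∑' τ : Tor ((m + 1) * 2) → ℤ, ∑' τ' : Tor ((m + 1) * 2) → ℤ,
      ENNReal.ofReal (wDC _ b t (foE m (trD s1 η1) 0 0) (foF m (trF s1 F1) 0 0) τ) *
        ENNReal.ofReal (wDC _ b t (foE m (trD s2 η2) 0 0) (foF m (trF s2 F2) 0 0) τ') *
        G (fun a c => τ (pt 0 a c)) (fun a c => τ' (pt 0 a c)) ≤
      ENNReal.ofReal (ea * Z0 ((m + 1) * 2) b t ^ 2)) :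
    ∑' h1 : Tor ((m + 1) * (n1 + 2)) → ℤ, ∑' h2 : Tor ((m + 1) * (n2 + 2)) → ℤ,
      ENNReal.ofReal (wDC _ b t η1 F1 h1) * ENNReal.ofReal (wDC _ b t η2 F2 h2) *
        G (fun a c => h1 (pt s1 a c)) (fun a c => h2 (pt s2 a c)) ≤
      ENNReal.ofReal (ea ^ (1 / 4 : ℝ) *
        (∏ p ∈ univ.erase (0, 0), q1 p ^ (1 / 4 : ℝ)) *
        (∏ p ∈ univ.erase (0, 0), q2 p ^ (1 / 4 : ℝ)) *
        Z0 ((m + 1) * 2) b t ^ ((((n1 : ℝ) + 2) ^ 2 + ((n2 : ℝ) + 2) ^ 2) / 4)) := by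
  set Z := Z0 ((m + 1) * 2) b t with hZ
  have hZp : 0 < Z := Z0_pos hb ht
  -- the left side
  have e1 : ∑' h1 : Tor ((m + 1) * (n1 + 2)) → ℤ, ∑' h2 : Tor ((m + 1) * (n2 + 2)) → ℤ,
      ENNReal.ofReal (wDC _ b t η1 F1 h1) * ENNReal.ofReal (wDC _ b t η2 F2 h2) *
        G (fun a c => h1 (pt s1 a c)) (fun a c => h2 (pt s2 a c)) =
      ∑' σ1, ∑' σ2, tot (DC _ b t (trD s1 η1) (trF s1 F1)) σ1 *
        tot (DC _ b t (trD s2 η2) (trF s2 F2)) σ2 *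
        G (blk m m σ1 (0 : Fin (n1 + 2)) (0 : Fin (n1 + 2)))
          (blk m m σ2 (0 : Fin (n2 + 2)) (0 : Fin (n2 + 2))) := by
    have e2 : ∀ (σ1 : ZMod ((m + 1) * (n1 + 2)) → ZMod ((m + 1) * (n1 + 2)) → ℤ),
        blk m m σ1 (0 : Fin (n1 + 2)) (0 : Fin (n1 + 2)) =
          fun (a c : Fin (m + 2)) => (fun x : Tor ((m + 1) * (n1 + 2)) => σ1 x.1 x.2) (pt 0 a c) := by
      intro σ1
      funext a c
      unfold blk pt
      simp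
    have e3 : ∀ (σ2 : ZMod ((m + 1) * (n2 + 2)) → ZMod ((m + 1) * (n2 + 2)) → ℤ),
        blk m m σ2 (0 : Fin (n2 + 2)) (0 : Fin (n2 + 2)) =
          fun (a c : Fin (m + 2)) => (fun x : Tor ((m + 1) * (n2 + 2)) => σ2 x.1 x.2) (pt 0 a c) := by
      intro σ2
      funext a c
      unfold blk pt
      simp
    simp only [tot_DC hb, e2, e3]
    rw [tsum_curry (N := (m + 1) * (n1 + 2)) fun h1 : Tor ((m + 1) * (n1 + 2)) → ℤ =>
      ∑' σ2 : ZMod ((m + 1) * (n2 + 2)) → ZMod ((m + 1) * (n2 + 2)) → ℤ,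
        ENNReal.ofReal (wDC _ b t (trD s1 η1) (trF s1 F1) h1) *
          ENNReal.ofReal (wDC _ b t (trD s2 η2) (trF s2 F2) fun x => σ2 x.1 x.2) *
          G (fun a c => h1 (pt 0 a c))
            (fun a c => (fun x : Tor ((m + 1) * (n2 + 2)) => σ2 x.1 x.2) (pt 0 a c))]
    refine Eq.trans ?_ (tsum_tr s1 _)
    refine tsum_congr fun h1 => ?_
    refine Eq.trans ?_ (tsum_curry (N := (m + 1) * (n2 + 2)) fun h2 : Tor ((m + 1) * (n2 + 2)) → ℤ =>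
        ENNReal.ofReal (wDC _ b t (trD s1 η1) (trF s1 F1) fun x => h1 (x + s1)) *
          ENNReal.ofReal (wDC _ b t (trD s2 η2) (trF s2 F2) h2) *
          G (fun a c => (fun x => h1 (x + s1)) (pt 0 a c)) (fun a c => h2 (pt 0 a c))).symm
    refine Eq.trans ?_ (tsum_tr s2 _)
    refine tsum_congr fun h2 => ?_
    rw [wDC_tr, wDC_tr]
    congr 2
    · funext a c
      simp [pt]
    · funext a c
      simp [pt]
  rw [e1]
  have h := H963.Cbx.chess_ent (m := m) (m' := m) (DC _ b t (trD s1 η1) (trF s1 F1))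
    (DC _ b t (trD s2 η2) (trF s2 F2)) 0 0 0 0 G hG
  refine h.trans ?_
  -- the event factor
  have e4 : ∑' τ, ∑' τ', tot (fold m m (DC _ b t (trD s1 η1) (trF s1 F1))
        ((0 : Fin (n1 + 2)) : ℕ) ((0 : Fin (n1 + 2)) : ℕ)) τ *
      tot (fold m m (DC _ b t (trD s2 η2) (trF s2 F2))
        ((0 : Fin (n2 + 2)) : ℕ) ((0 : Fin (n2 + 2)) : ℕ)) τ' *
      G (fun a b => τ ((a : ℕ) : ZMod ((m + 1) * 2)) ((b : ℕ) : ZMod ((m + 1) * 2)))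
        (fun a b => τ' ((a : ℕ) : ZMod ((m + 1) * 2)) ((b : ℕ) : ZMod ((m + 1) * 2))) ≤
      ENNReal.ofReal (ea * Z ^ 2) := by
    refine le_trans (le_of_eq ?_) hev
    simp only [fold_DC, tot_DC hb, Fin.val_zero]
    have e5 : ∀ σ : ZMod ((m + 1) * 2) → ZMod ((m + 1) * 2) → ℤ,
        (fun (a c : Fin (m + 2)) => σ ((a : ℕ) : ZMod ((m + 1) * 2))
          ((c : ℕ) : ZMod ((m + 1) * 2))) =
        fun (a c : Fin (m + 2)) => (fun x : Tor ((m + 1) * 2) => σ x.1 x.2) (pt 0 a c) := by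
      intro σ
      funext a c
      simp [pt]
    simp only [e5]
    rw [tsum_curry (N := (m + 1) * 2) fun h1 : Tor ((m + 1) * 2) → ℤ =>
      ∑' σ2 : ZMod ((m + 1) * 2) → ZMod ((m + 1) * 2) → ℤ,
        ENNReal.ofReal (wDC _ b t (foE m (trD s1 η1) 0 0) (foF m (trF s1 F1) 0 0) h1) *
          ENNReal.ofReal (wDC _ b t (foE m (trD s2 η2) 0 0) (foF m (trF s2 F2) 0 0)
            fun x => σ2 x.1 x.2) *
          G (fun a c => h1 (pt 0 a c))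
            (fun a c => (fun x : Tor ((m + 1) * 2) => σ2 x.1 x.2) (pt 0 a c))]
    refine tsum_congr fun h1 => ?_
    rw [tsum_curry (N := (m + 1) * 2) fun h2 : Tor ((m + 1) * 2) → ℤ =>
        ENNReal.ofReal (wDC _ b t (foE m (trD s1 η1) 0 0) (foF m (trF s1 F1) 0 0) h1) *
          ENNReal.ofReal (wDC _ b t (foE m (trD s2 η2) 0 0) (foF m (trF s2 F2) 0 0) h2) *
          G (fun a c => h1 (pt 0 a c)) (fun a c => h2 (pt 0 a c))]
  -- the other blocks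
  have hz : (0 : ℝ) ≤ 1 / 4 := by norm_num
  have hblk : ∀ {n : ℕ} [NeZero ((m + 1) * (n + 2))] (s : Tor ((m + 1) * (n + 2)))
      (η : Ed ((m + 1) * (n + 2)) → ℤ)
      (F : Tor ((m + 1) * (n + 2)) → ℝ) (q : Fin (n + 2) × Fin (n + 2) → ℝ),
      (∀ p, 0 ≤ q p) → (∀ p : Fin (n + 2) × Fin (n + 2), p ≠ (0, 0) → ZM (wTD ((m + 1) * 2) b (foE m (trD s η) p.1 p.2))
        (t • (1 : Matrix _ _ ℝ)) (foF m (trF s F) p.1 p.2) ≤ q p * Z) →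
      ∏ p ∈ (univ : Finset (Fin (n + 2) × Fin (n + 2))).erase (0, 0),
        ZD (fold m m (DC _ b t (trD s η) (trF s F)) p.1 p.2) ^ (1 / 4 : ℝ) ≤
      ENNReal.ofReal ((∏ p ∈ univ.erase (0, 0), q p ^ (1 / 4 : ℝ)) *
        Z ^ ((((n : ℝ) + 2) ^ 2 - 1) / 4)) := by
    intro n _ s η F q hq0 hqZ
    have hcard : ((univ : Finset (Fin (n + 2) × Fin (n + 2))).erase (0, 0)).card =
        (n + 2) * (n + 2) - 1 := by
      rw [Finset.card_erase_of_mem (Finset.mem_univ _), Finset.card_univ, Fintype.card_prod,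
        Fintype.card_fin]
    have e6 : Z ^ ((((n : ℝ) + 2) ^ 2 - 1) / 4) =
        ∏ _p ∈ (univ : Finset (Fin (n + 2) × Fin (n + 2))).erase (0, 0), Z ^ (1 / 4 : ℝ) := by
      rw [Finset.prod_const, hcard, ← Real.rpow_natCast (Z ^ (1 / 4 : ℝ)), ← Real.rpow_mul hZp.le]
      congr 1
      have : 1 ≤ (n + 2) * (n + 2) := Nat.one_le_iff_ne_zero.2 (by positivity)
      push_cast [this]
      ring
    rw [e6, ← Finset.prod_mul_distrib, ENNReal.ofReal_prod_of_nonneg fun p _ =>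
      mul_nonneg (Real.rpow_nonneg (hq0 p) _) (Real.rpow_nonneg hZp.le _)]
    refine Finset.prod_le_prod' fun p hp => ?_
    rw [fold_DC, ZD_DC hb ht, ENNReal.ofReal_rpow_of_nonneg (ZM_pos
      (by rw [Matrix.transpose_smul, Matrix.transpose_one])
      (H770.em_wTD hb _ ht (H789.coer_smul t)) _).le hz, ← Real.mul_rpow (hq0 p) hZp.le]
    refine ENNReal.ofReal_le_ofReal (Real.rpow_le_rpow (ZM_pos
      (by rw [Matrix.transpose_smul, Matrix.transpose_one])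
      (H770.em_wTD hb _ ht (H789.coer_smul t)) _).le ?_ hz)
    exact hqZ p (Finset.mem_erase.1 hp).1
  refine (mul_le_mul' (mul_le_mul' (ENNReal.rpow_le_rpow e4 hz) (hblk s1 η1 F1 q1 hq1 hZ1))
    (hblk s2 η2 F2 q2 hq2 hZ2)).trans (le_of_eq ?_)
  have p1 : 0 ≤ ∏ p ∈ (univ : Finset (Fin (n1 + 2) × Fin (n1 + 2))).erase (0, 0),
      q1 p ^ (1 / 4 : ℝ) := Finset.prod_nonneg fun p _ => Real.rpow_nonneg (hq1 p) _
  have p2 : 0 ≤ ∏ p ∈ (univ : Finset (Fin (n2 + 2) × Fin (n2 + 2))).erase (0, 0),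
      q2 p ^ (1 / 4 : ℝ) := Finset.prod_nonneg fun p _ => Real.rpow_nonneg (hq2 p) _
  have p3 : ∀ x : ℝ, 0 ≤ Z ^ x := fun x => Real.rpow_nonneg hZp.le _
  rw [ENNReal.ofReal_rpow_of_nonneg (by positivity) hz,
    ← ENNReal.ofReal_mul (Real.rpow_nonneg (by positivity) _),
    ← ENNReal.ofReal_mul (mul_nonneg (Real.rpow_nonneg (by positivity) _)
      (mul_nonneg p1 (p3 _)))]
  congr 1
  rw [Real.mul_rpow hea (by positivity)]
  have e7 : Z ^ ((((n1 : ℝ) + 2) ^ 2 + ((n2 : ℝ) + 2) ^ 2) / 4) =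
      (Z ^ 2) ^ (1 / 4 : ℝ) * Z ^ ((((n1 : ℝ) + 2) ^ 2 - 1) / 4) *
        Z ^ ((((n2 : ℝ) + 2) ^ 2 - 1) / 4) := by
    rw [← Real.rpow_natCast Z 2, ← Real.rpow_mul hZp.le, ← Real.rpow_add hZp,
      ← Real.rpow_add hZp]
    congr 1
    push_cast
    ring
  rw [e7]
  ring

/-- **the same with the volume terms** -/
theorem arm_vol (hb : 0 < b) (ht : 0 < t)
    (η1 : Ed ((m + 1) * (n1 + 2)) → ℤ) (F1 : Tor ((m + 1) * (n1 + 2)) → ℝ)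
    (η2 : Ed ((m + 1) * (n2 + 2)) → ℤ) (F2 : Tor ((m + 1) * (n2 + 2)) → ℝ)
    (s1 : Tor ((m + 1) * (n1 + 2))) (s2 : Tor ((m + 1) * (n2 + 2)))
    (G : (Fin (m + 2) → Fin (m + 2) → ℤ) → (Fin (m + 2) → Fin (m + 2) → ℤ) → ℝ≥0∞)
    (hG : ∀ x y, G x y ≤ 1)
    (q1 : Fin (n1 + 2) × Fin (n1 + 2) → ℝ) (q2 : Fin (n2 + 2) × Fin (n2 + 2) → ℝ)
    (hq1 : ∀ p, 0 ≤ q1 p) (hq2 : ∀ p, 0 ≤ q2 p)
    (hZ1 : ∀ p : Fin (n1 + 2) × Fin (n1 + 2), p ≠ (0, 0) → ZM (wTD ((m + 1) * 2) b (foE m (trD s1 η1) p.1 p.2))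
      (t • (1 : Matrix _ _ ℝ)) (foF m (trF s1 F1) p.1 p.2) ≤ q1 p * Z0 ((m + 1) * 2) b t)
    (hZ2 : ∀ p : Fin (n2 + 2) × Fin (n2 + 2), p ≠ (0, 0) → ZM (wTD ((m + 1) * 2) b (foE m (trD s2 η2) p.1 p.2))
      (t • (1 : Matrix _ _ ℝ)) (foF m (trF s2 F2) p.1 p.2) ≤ q2 p * Z0 ((m + 1) * 2) b t)
    {ea : ℝ} (hea : 0 ≤ ea)
    (hev : ∑' τ : Tor ((m + 1) * 2) → ℤ, ∑' τ' : Tor ((m + 1) * 2) → ℤ,
      ENNReal.ofReal (wDC _ b t (foE m (trD s1 η1) 0 0) (foF m (trF s1 F1) 0 0) τ) *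
        ENNReal.ofReal (wDC _ b t (foE m (trD s2 η2) 0 0) (foF m (trF s2 F2) 0 0) τ') *
        G (fun a c => τ (pt 0 a c)) (fun a c => τ' (pt 0 a c)) ≤
      ENNReal.ofReal (ea * Z0 ((m + 1) * 2) b t ^ 2))
    {δ1 δ2 : ℝ} (hδ1 : ((n1 : ℝ) + 2) ^ 2 / 4 * Real.log (Z0 ((m + 1) * 2) b t) -
      Real.log (Z0 ((m + 1) * (n1 + 2)) b t) ≤ δ1)
    (hδ2 : ((n2 : ℝ) + 2) ^ 2 / 4 * Real.log (Z0 ((m + 1) * 2) b t) -
      Real.log (Z0 ((m + 1) * (n2 + 2)) b t) ≤ δ2) :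
    ∑' h1 : Tor ((m + 1) * (n1 + 2)) → ℤ, ∑' h2 : Tor ((m + 1) * (n2 + 2)) → ℤ,
      ENNReal.ofReal (wDC _ b t η1 F1 h1) * ENNReal.ofReal (wDC _ b t η2 F2 h2) *
        G (fun a c => h1 (pt s1 a c)) (fun a c => h2 (pt s2 a c)) ≤
      ENNReal.ofReal (ea ^ (1 / 4 : ℝ) *
        (∏ p ∈ univ.erase (0, 0), q1 p ^ (1 / 4 : ℝ)) *
        (∏ p ∈ univ.erase (0, 0), q2 p ^ (1 / 4 : ℝ)) * Real.exp (δ1 + δ2) *
        (Z0 ((m + 1) * (n1 + 2)) b t * Z0 ((m + 1) * (n2 + 2)) b t)) := by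
  refine (arm_num hb ht η1 F1 η2 F2 s1 s2 G hG q1 q2 hq1 hq2 hZ1 hZ2 hea hev).trans
    (ENNReal.ofReal_le_ofReal ?_)
  rw [mul_assoc _ (Real.exp _)]
  have p1 : 0 ≤ ∏ p ∈ (univ : Finset (Fin (n1 + 2) × Fin (n1 + 2))).erase (0, 0),
      q1 p ^ (1 / 4 : ℝ) := Finset.prod_nonneg fun p _ => Real.rpow_nonneg (hq1 p) _
  have p2 : 0 ≤ ∏ p ∈ (univ : Finset (Fin (n2 + 2) × Fin (n2 + 2))).erase (0, 0),
      q2 p ^ (1 / 4 : ℝ) := Finset.prod_nonneg fun p _ => Real.rpow_nonneg (hq2 p) _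
  refine mul_le_mul_of_nonneg_left ?_ (by positivity)
  have hZp : 0 < Z0 ((m + 1) * 2) b t := Z0_pos hb ht
  have h1 : 0 < Z0 ((m + 1) * (n1 + 2)) b t := Z0_pos hb ht
  have h2 : 0 < Z0 ((m + 1) * (n2 + 2)) b t := Z0_pos hb ht
  rw [Real.rpow_def_of_pos hZp]
  have e8 : Real.exp (δ1 + δ2) * (Z0 ((m + 1) * (n1 + 2)) b t * Z0 ((m + 1) * (n2 + 2)) b t) =
      Real.exp (δ1 + δ2 + (Real.log (Z0 ((m + 1) * (n1 + 2)) b t) +
        Real.log (Z0 ((m + 1) * (n2 + 2)) b t))) := by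
    rw [Real.exp_add (δ1 + δ2), Real.exp_add (Real.log _), Real.exp_log h1, Real.exp_log h2]
  rw [e8]
  refine Real.exp_le_exp.2 ?_
  have e9 : Real.log (Z0 ((m + 1) * 2) b t) * ((((n1 : ℝ) + 2) ^ 2 + ((n2 : ℝ) + 2) ^ 2) / 4) =
      ((n1 : ℝ) + 2) ^ 2 / 4 * Real.log (Z0 ((m + 1) * 2) b t) +
        ((n2 : ℝ) + 2) ^ 2 / 4 * Real.log (Z0 ((m + 1) * 2) b t) := by ring
  rw [e9]
  linarith

end main

end

end Vale.Agent.P159.H474.Cb
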