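import Vale.Agent.P159.H474.Cb8
import Vale.Agent.P159.H474.Cb9
import Vale.Agent.P159.H764.Qt3

/-!
P159, helper474, module CB, part 10: **two group elements at distance `l`, one torus**.

`loc_two` : `P` lives in the ball of radius `R0` around `w`, `W` outside the ball of radius `R0 + l`,
the base `X` has no dislocation in between. Then
`|Z(X+P+W) Z(X) - Z(X+P) Z(X+W)| ≤ (N / ρ0 + 1)² ε^(1/4) Q e^(2 dl) Z(0)²`.
`bracket_le` : the zero background bracket of the Gram inequality.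
-/

set_option linter.unusedSectionVars false

namespace Vale.Agent.P159.H474.Cb

open scoped ENNReal
open Finset
open Vale.Agent.P159.H37
open Vale.Agent.P159.H770 (Ed eS eT wTD wTD_zero wTD_pos eWF wI_pos)
open Vale.Agent.P159.TM.SpecC (Tor wT)
open Vale.Agent.P159.H353 (wI wI_neg wI_nonneg)
open Vale.Agent.P159.H764 (SwD ZE AB sgF VB Dp Gb Gb_le_one qa_sgF ev_num ArmLe cs)
open Vale.Agent.P159.T1.H897 (LogC logC_wI)
open Vale.Agent.P159.TM.H459 (ball mem_ball ball_mono sd sn sd_self sd_symm sd_tri sn_neg)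

noncomputable section

section gen

variable {N : ℕ} [NeZero N]

/-- `X` lives on `S` -/
structure Sup (X : GE N) (S : Finset (Tor N)) : Prop where
  e : ∀ e : Ed N, (eS N e ∉ S ∨ eT N e ∉ S) → X.1 e = 0
  f : ∀ v, v ∉ S → X.2 v = 0

/-- the free edges -/
def Efr (VP VW : Finset (Tor N)) : Finset (Ed N) :=
  univ.filter fun e => ¬ (eS N e ∈ VP ∧ eT N e ∈ VP) ∧ ¬ (eS N e ∈ VW ∧ eT N e ∈ VW)

lemma swD_of {VP VW : Finset (Tor N)} (hd : Disjoint VP VW) {X P W : GE N} (hP : Sup P VP)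
    (hW : Sup W VW) :
    SwD (eS N) (eT N) (Efr VP VW) VP VW (X + P + W) X (X + P) (X + W) := by
  have hPW : ∀ v ∈ VP, v ∉ VW := fun v hv => Finset.disjoint_left.1 hd hv
  have hWP : ∀ v ∈ VW, v ∉ VP := fun v hv => Finset.disjoint_right.1 hd hv
  refine ⟨fun e he => ?_, fun e he => ?_, fun v => ?_⟩
  · unfold Efr at he
    rw [Finset.mem_filter] at he
    obtain ⟨_, h1, h2⟩ := he
    have p0 : P.1 e = 0 := hP.e e (by tauto)
    have w0 : W.1 e = 0 := hW.e e (by tauto)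
    simp [p0, w0]
  · unfold Efr at he
    rw [Finset.mem_filter] at he
    have he' : (eS N e ∈ VP ∧ eT N e ∈ VP) ∨ (eS N e ∈ VW ∧ eT N e ∈ VW) := by
      by_contra hcon
      push Not at hcon
      exact he ⟨Finset.mem_univ _, fun h => hcon.1 h.1 h.2, fun h => hcon.2 h.1 h.2⟩
    rcases he' with ⟨h1, h2⟩ | ⟨h1, h2⟩
    · left
      have w0 : W.1 e = 0 := hW.e e (Or.inl (hPW _ h1))
      exact ⟨h1, h2, by simp [w0], by simp [w0]⟩
    · right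
      have p0 : P.1 e = 0 := hP.e e (Or.inl (hWP _ h1))
      exact ⟨h1, h2, by simp [p0], by simp [p0]⟩
  · by_cases h1 : v ∈ VP
    · left
      have w0 := hW.f v (hPW v h1)
      exact ⟨h1, by simp [w0], by simp [w0]⟩
    · have p0 := hP.f v h1
      right
      by_cases h2 : v ∈ VW
      · left
        exact ⟨h2, by simp [p0], by simp [p0]⟩
      · right
        have w0 := hW.f v h2
        exact ⟨by simp [p0, w0], by simp [w0], by simp [p0, w0]⟩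

lemma sd_eS_eT (e : Ed N) : sd (eS N e) (eT N e) ≤ 1 := by
  have h := TM.H459.sd_edge (N := N) (e.1, !e.2)
  have e1 : TM.H459.tS (e.1, !e.2) = eS N e := rfl
  have e2 : TM.H459.tT (e.1, !e.2) = eT N e := by
    unfold TM.H459.tT TM.H459.dir eT
    cases e.2 <;> simp
  rwa [e1, e2] at h

/-- a net -/
lemma net (ρ : ℕ) (hρ : 1 ≤ ρ) : ∃ C : Finset (Tor N), C.card ≤ (N / ρ + 1) ^ 2 ∧
    ∀ z, ∃ c ∈ C, z ∈ ball c ρ := by
  classical
  refine ⟨(range (N / ρ + 1) ×ˢ range (N / ρ + 1)).image fun p =>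
    (((p.1 * ρ : ℕ) : ZMod N), ((p.2 * ρ : ℕ) : ZMod N)), ?_, fun z => ?_⟩
  · refine Finset.card_image_le.trans ?_
    rw [Finset.card_product, Finset.card_range, pow_two]
  · have hz1 : z.1.val / ρ < N / ρ + 1 :=
      Nat.lt_succ_of_le (Nat.div_le_div_right (ZMod.val_lt z.1).le)
    have hz2 : z.2.val / ρ < N / ρ + 1 :=
      Nat.lt_succ_of_le (Nat.div_le_div_right (ZMod.val_lt z.2).le)
    refine ⟨(((z.1.val / ρ * ρ : ℕ) : ZMod N), ((z.2.val / ρ * ρ : ℕ) : ZMod N)),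
      Finset.mem_image.2 ⟨(z.1.val / ρ, z.2.val / ρ), Finset.mem_product.2
        ⟨Finset.mem_range.2 hz1, Finset.mem_range.2 hz2⟩, rfl⟩, ?_⟩
    rw [mem_ball]
    have key : ∀ x : ZMod N, (x - ((x.val / ρ * ρ : ℕ) : ZMod N)).valMinAbs.natAbs ≤ ρ := by
      intro x
      have e1 : x - ((x.val / ρ * ρ : ℕ) : ZMod N) = (((x.val % ρ : ℕ) : ℤ) : ZMod N) := by
        have h1 := Nat.div_add_mod' x.val ρ
        have h2 : ((x.val / ρ * ρ : ℕ) : ZMod N) + ((x.val % ρ : ℕ) : ZMod N) = x := by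
          rw [← Nat.cast_add, h1, ZMod.natCast_zmod_val]
        rw [Int.cast_natCast]
        exact sub_eq_of_eq_add' h2.symm
      rw [e1]
      refine (H764.vma_le _).trans ?_
      have := Nat.mod_lt x.val hρ
      omega
    unfold sd sn
    exact max_le (key z.1) (key z.2)

lemma sd_pt (s : Tor N) (a c a' c' : ℕ) {r : ℕ} (h1 : a ≤ a' + r) (h2 : a' ≤ a + r)
    (h3 : c ≤ c' + r) (h4 : c' ≤ c + r) : sd (pt s a c) (pt s a' c') ≤ r := by
  unfold sd sn pt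
  have e1 : (((a' : ZMod N), (c' : ZMod N)) + s - (((a : ZMod N), (c : ZMod N)) + s)).1 =
      (((a' : ℤ) - (a : ℤ) : ℤ) : ZMod N) := by
    simp
  have e2 : (((a' : ZMod N), (c' : ZMod N)) + s - (((a : ZMod N), (c : ZMod N)) + s)).2 =
      (((c' : ℤ) - (c : ℤ) : ℤ) : ZMod N) := by
    simp
  rw [e1, e2]
  refine max_le ((H764.vma_le _).trans ?_) ((H764.vma_le _).trans ?_)
  · omega
  · omega

end gen

section fold

variable {m n : ℕ} [NeZero ((m + 1) * n)] [NeZero ((m + 1) * 2)]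

/-- the two data agree on the closed block at `s` -/
structure Agr (m : ℕ) {N : ℕ} (s : Tor N) (X Y : GE N) : Prop where
  f : ∀ a c : ℕ, a ≤ m + 1 → c ≤ m + 1 → X.2 (pt s a c) = Y.2 (pt s a c)
  h : ∀ a c : ℕ, a < m + 1 → c ≤ m + 1 → X.1 (pt s a c, false) = Y.1 (pt s a c, false)
  v : ∀ a c : ℕ, a ≤ m + 1 → c < m + 1 → X.1 (pt s a c, true) = Y.1 (pt s a c, true)

lemma trF_pt (s : Tor ((m + 1) * n)) (F : Tor ((m + 1) * n) → ℝ) (a c : ℕ) :
    trF s F ((((m + 1) * 0 + a : ℕ) : ZMod ((m + 1) * n)),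
      (((m + 1) * 0 + c : ℕ) : ZMod ((m + 1) * n))) = F (pt s a c) := by
  unfold trF pt
  simp

lemma trD_pt (s : Tor ((m + 1) * n)) (η : Ed ((m + 1) * n) → ℤ) (a c : ℕ) (o : Bool) :
    trD s η (((((m + 1) * 0 + a : ℕ) : ZMod ((m + 1) * n)),
      (((m + 1) * 0 + c : ℕ) : ZMod ((m + 1) * n))), o) = η (pt s a c, o) := by
  unfold trD pt
  simp

lemma Agr.foF {s : Tor ((m + 1) * n)} {X Y : GE ((m + 1) * n)} (h : Agr m s X Y) :
    Cb.foF m (trF s X.2) 0 0 = Cb.foF m (trF s Y.2) 0 0 := by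
  funext x
  unfold Cb.foF
  rw [trF_pt, trF_pt]
  exact h.f _ _ (by unfold fo; omega) (by unfold fo; omega)

lemma Agr.foE {s : Tor ((m + 1) * n)} {X Y : GE ((m + 1) * n)} (h : Agr m s X Y) :
    Cb.foE m (trD s X.1) 0 0 = Cb.foE m (trD s Y.1) 0 0 := by
  funext e
  unfold Cb.foE
  have q1 := ZMod.val_lt e.1.1
  have q2 := ZMod.val_lt e.1.2
  have r1 : fo m e.1.1 ≤ m + 1 := by unfold fo; omega
  have r2 : fo m e.1.2 ≤ m + 1 := by unfold fo; omega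
  simp only [trD_pt]
  split_ifs with c1 c2 c3
  · exact h.v _ _ r1 c2
  · rw [h.v _ _ r1 (by omega)]
  · exact h.h _ _ c3 r2
  · rw [h.h _ _ (by omega) r2]

end fold

section main

variable {m n : ℕ} [NeZero ((m + 1) * (n + 2))] [NeZero ((m + 1) * 2)] {b : ℝ}

/-- the grid with origin `s` has the faces `Pc` at distance at least `κ` from its lines and not in
the block `(0, 0)` -/
def GOK (m n κ : ℕ) (Pc : Finset (Tor ((m + 1) * (n + 2)))) (s : Tor ((m + 1) * (n + 2))) : Prop :=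
  ∀ p ∈ Pc, ((κ ≤ (p - s).1.val % (m + 1) ∧ (p - s).1.val % (m + 1) + κ + 1 ≤ m + 1) ∧
    (κ ≤ (p - s).2.val % (m + 1) ∧ (p - s).2.val % (m + 1) + κ + 1 ≤ m + 1)) ∧
    ¬ ((p - s).1.val < m + 1 ∧ (p - s).2.val < m + 1)

/-- event numbers for data which agree with `X` on the block -/
lemma ev_agr (hb : 0 < b) {ξ : ℕ} (hξ : 0 < ξ) {X A1 A2 : GE ((m + 1) * (n + 2))}
    {s : Tor ((m + 1) * (n + 2))} (hA1 : Agr m s A1 X) (hA2 : Agr m s A2 X)
    (hX0 : foE m (trD s X.1) 0 0 = 0) {p : VB m m} {ρ0 ρ : ℕ} (hr : ρ0 ≤ ρ) (hp : Dp p ρ)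
    {ε : ℝ} (hε : 0 ≤ ε)
    (h : ArmLe ((m + 1) * 2) b hb.le ξ (foF m (trF s X.2) 0 0) (pt 0 p.1 p.2) ρ0 ρ ε) :
    Evn m n b (1 / (ξ : ℝ) ^ 2) A1 A2 s (Gb m m (wI_pos hb) (logC_wI hb.le) p ρ0 ρ) ε := by
  have e1 : foE m (trD s A1.1) 0 0 = 0 := by rw [hA1.foE]; exact hX0
  have e2 : foE m (trD s A2.1) 0 0 = 0 := by rw [hA2.foE]; exact hX0
  exact ev_num (n1 := n) (n2 := n) hb hξ e1 e2 hA1.foF hA2.foF hr hp hε h

/-- the grid around a point of the net -/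
lemma grid_at {κ ρ : ℕ} (hκ : ρ + 1 ≤ κ) (Pc : Finset (Tor ((m + 1) * (n + 2))))
    (hPc : (Pc.card + 1) * (2 * κ) < m + 1) (c : Tor ((m + 1) * (n + 2)))
    (hc : ∀ p ∈ Pc, m + 1 < sd c p) :
    ∃ (s : Tor ((m + 1) * (n + 2))) (p : VB m m),
      pt s p.1 p.2 = c ∧ Dp p ρ ∧ GOK m n κ Pc s := by
  obtain ⟨s, v1, v2, e1, e2, e3, e4⟩ := grid_choice (M := m + 1) (n := n + 2) (κ := κ) c Pc hPc
  refine ⟨s, (⟨v1, by omega⟩, ⟨v2, by omega⟩), e1, ?_, ?_⟩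
  · exact ⟨by simp only; omega, by simp only; omega, by simp only; omega, by simp only; omega⟩
  · intro p hp
    refine ⟨e4 p hp, fun hcon => ?_⟩
    have e5 : p = pt s (p - s).1.val (p - s).2.val := by
      unfold pt
      rw [ZMod.natCast_zmod_val, ZMod.natCast_zmod_val]
      exact (sub_add_cancel p s).symm
    have e6 : sd c p ≤ m + 1 := by
      rw [← e1]
      conv_lhs => rw [e5]
      exact sd_pt s _ _ _ _ (by omega) (by omega) (by omega) (by omega)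
    have e7 := hc p hp
    omega

/-- the complement of a ball -/
def Far (w : Tor ((m + 1) * (n + 2))) (R : ℕ) : Finset (Tor ((m + 1) * (n + 2))) :=
  univ.filter fun v => R ≤ sd w v

lemma mem_Far {w v : Tor ((m + 1) * (n + 2))} {R : ℕ} : v ∈ Far w R ↔ R ≤ sd w v := by
  unfold Far
  simp

section place

variable {w : Tor ((m + 1) * (n + 2))} {R0 l : ℕ} {X P W : GE ((m + 1) * (n + 2))}

lemma P_e (hP : Sup P (ball w R0)) {e : Ed ((m + 1) * (n + 2))} (h : R0 < sd w (eS _ e)) :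
    P.1 e = 0 :=
  hP.e e (Or.inl fun hm => by rw [mem_ball] at hm; omega)

lemma P_f (hP : Sup P (ball w R0)) {v : Tor ((m + 1) * (n + 2))} (h : R0 < sd w v) :
    P.2 v = 0 :=
  hP.f v fun hm => by rw [mem_ball] at hm; omega

lemma W_e (hW : Sup W (Far w (R0 + l))) {e : Ed ((m + 1) * (n + 2))}
    (h : sd w (eS _ e) < R0 + l) : W.1 e = 0 :=
  hW.e e (Or.inl fun hm => by rw [mem_Far] at hm; omega)

lemma W_f (hW : Sup W (Far w (R0 + l))) {v : Tor ((m + 1) * (n + 2))} (h : sd w v < R0 + l) :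
    W.2 v = 0 :=
  hW.f v fun hm => by rw [mem_Far] at hm; omega

/-- the block at `s` is in the gap -/
def Gap (w : Tor ((m + 1) * (n + 2))) (R0 l : ℕ) (s : Tor ((m + 1) * (n + 2))) : Prop :=
  ∀ a c : ℕ, a ≤ m + 1 → c ≤ m + 1 → R0 < sd w (pt s a c) ∧ sd w (pt s a c) < R0 + l

lemma agr_P (hP : Sup P (ball w R0)) {s : Tor ((m + 1) * (n + 2))} (hs : Gap w R0 l s)
    (X : GE ((m + 1) * (n + 2))) : Agr m s (X + P) X := by
  refine ⟨fun a c ha hc => ?_, fun a c ha hc => ?_, fun a c ha hc => ?_⟩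
  · simp [P_f hP (hs a c ha hc).1]
  · simp [P_e hP (e := (pt s a c, false)) (hs a c ha.le hc).1]
  · simp [P_e hP (e := (pt s a c, true)) (hs a c ha hc.le).1]

lemma agr_W (hW : Sup W (Far w (R0 + l))) {s : Tor ((m + 1) * (n + 2))} (hs : Gap w R0 l s)
    (X : GE ((m + 1) * (n + 2))) : Agr m s (X + W) X := by
  refine ⟨fun a c ha hc => ?_, fun a c ha hc => ?_, fun a c ha hc => ?_⟩
  · simp [W_f hW (hs a c ha hc).2]
  · simp [W_e hW (e := (pt s a c, false)) (hs a c ha.le hc).2]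
  · simp [W_e hW (e := (pt s a c, true)) (hs a c ha hc.le).2]

lemma Agr.trans {s : Tor ((m + 1) * (n + 2))} {X Y Z : GE ((m + 1) * (n + 2))}
    (h : Agr m s X Y) (h' : Agr m s Y Z) : Agr m s X Z :=
  ⟨fun a c ha hc => (h.f a c ha hc).trans (h'.f a c ha hc),
    fun a c ha hc => (h.h a c ha hc).trans (h'.h a c ha hc),
    fun a c ha hc => (h.v a c ha hc).trans (h'.v a c ha hc)⟩

lemma foE_gap {s : Tor ((m + 1) * (n + 2))} (hs : Gap w R0 l s)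
    (hX : ∀ e : Ed ((m + 1) * (n + 2)), R0 < sd w (eS _ e) → sd w (eS _ e) < R0 + l → X.1 e = 0) :
    foE m (trD s X.1) 0 0 = 0 := by
  refine foE_zero m (fun a c ha hc => ?_) fun a c ha hc => ?_
  · rw [trD_pt]
    exact hX _ (hs a c ha.le hc).1 (hs a c ha.le hc).2
  · rw [trD_pt]
    exact hX _ (hs a c ha hc.le).1 (hs a c ha hc.le).2

/-- the value of the arm functional at a point of the gap -/
lemma val_gap (hb : 0 < b) {ρ0 ρ : ℕ} (h1 : ρ0 ≤ ρ)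
    (hP : Sup P (ball w R0)) (hW : Sup W (Far w (R0 + l)))
    (hX : ∀ e : Ed ((m + 1) * (n + 2)), R0 < sd w (eS _ e) → sd w (eS _ e) < R0 + l → X.1 e = 0)
    {s : Tor ((m + 1) * (n + 2))} {p : VB m m} (hp : Dp p ρ)
    (hreg : ∀ v, sd (pt s p.1 p.2) v ≤ ρ + 1 → R0 < sd w v ∧ sd w v < R0 + l)
    (h h' : Tor ((m + 1) * (n + 2)) → ℤ) :
    Cb.qa (sgF (eS _) (eT _) (I := fun _ => wI b) (fun _ => wI_pos hb)
        (fun _ => logC_wI hb.le) (Efr (ball w R0) (Far w (R0 + l)))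
        (X + P + W).1) (ball (pt s p.1 p.2) ρ0) (ball (pt s p.1 p.2) ρ) (fun v => (h v, h' v)) =
      Gb m m (wI_pos hb) (logC_wI hb.le) p ρ0 ρ (fun a c' => h (pt s a c'))
        (fun a c' => h' (pt s a c')) := by
  have hma : m + 2 ≤ (m + 1) * (n + 2) := by nlinarith [Nat.zero_le (m * n)]
  refine qa_sgF (N := (m + 1) * (n + 2)) hma hma hb s
      (E0 := Efr (ball w R0) (Far w (R0 + l))) (η0 := (X + P + W).1)
      h1 hp (fun e he => ?_) (fun v => (h v, h' v))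
  rw [mem_ball, mem_ball] at he
  have e1 : cs m m s p = pt s p.1 p.2 := rfl
  rw [e1] at he
  have t0 := sd_eS_eT e
  have t1 := sd_tri (pt s p.1 p.2) (eT _ e) (eS _ e)
  rw [sd_symm (eT _ e) (eS _ e)] at t1
  have hs : R0 < sd w (eS _ e) ∧ sd w (eS _ e) < R0 + l :=
    hreg _ (by rcases he with he | he <;> omega)
  refine ⟨?_, ?_⟩
  · unfold Efr
    rw [Finset.mem_filter]
    refine ⟨Finset.mem_univ _, fun h => ?_, fun h => ?_⟩
    · have := mem_ball.1 h.1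
      omega
    · have := mem_Far.1 h.1
      omega
  · simp [P_e hP hs.1, W_e hW hs.2, hX e hs.1 hs.2]

/-- **the arm at a point of the gap** -/
lemma arm_at (hb : 0 < b) {ξ : ℕ} (hξ : 0 < ξ) {ρ0 ρ κ : ℕ} (h1 : ρ0 ≤ ρ) (h2 : ρ + 1 ≤ κ)
    (hP : Sup P (ball w R0)) (hW : Sup W (Far w (R0 + l)))
    (hX : ∀ e : Ed ((m + 1) * (n + 2)), R0 < sd w (eS _ e) → sd w (eS _ e) < R0 + l → X.1 e = 0)
    (Pc : Finset (Tor ((m + 1) * (n + 2)))) (hPc : (Pc.card + 1) * (2 * κ) < m + 1)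
    (hPg : ∀ p ∈ Pc, sd w p ≤ R0 ∨ R0 + l ≤ sd w p)
    {ε : ℝ} (hε : 0 ≤ ε)
    (harm : ∀ (s : Tor ((m + 1) * (n + 2))) (p : VB m m), Dp p ρ → Gap w R0 l s →
      ArmLe ((m + 1) * 2) b hb.le ξ (foF m (trF s X.2) 0 0) (pt 0 p.1 p.2) ρ0 ρ ε)
    (c : Tor ((m + 1) * (n + 2)))
    (hreg : ∀ v, sd c v ≤ m + 1 → R0 < sd w v ∧ sd w v < R0 + l) :
    ∃ (s : Tor ((m + 1) * (n + 2))) (G : GF m), (∀ x y, G x y ≤ 1) ∧ GOK m n κ Pc s ∧
      (∀ h h' : Tor ((m + 1) * (n + 2)) → ℤ,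
        Cb.qa (sgF (eS _) (eT _) (I := fun _ => wI b) (fun _ => wI_pos hb)
        (fun _ => logC_wI hb.le) (Efr (ball w R0) (Far w (R0 + l)))
        (X + P + W).1) (ball c ρ0) (ball c ρ) (fun v => (h v, h' v)) =
          G (fun a c' => h (pt s a c')) (fun a c' => h' (pt s a c'))) ∧
      Evn m n b (1 / (ξ : ℝ) ^ 2) (X + P + W) X s G ε ∧
      Evn m n b (1 / (ξ : ℝ) ^ 2) (X + P) (X + W) s G ε := by
  have h4 : κ ≤ m := by nlinarith [Nat.zero_le (Pc.card * (2 * κ))]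
  obtain ⟨s, p, e1, e2, e3⟩ := grid_at h2 Pc hPc c fun p hp => by
    by_contra hcon
    have e7 := hreg p (by omega)
    rcases hPg p hp with h | h <;> omega
  have hgap : Gap w R0 l s := by
    intro a a' ha ha'
    refine hreg _ ?_
    have b1 := p.1.2
    have b2 := p.2.2
    rw [← e1]
    exact sd_pt _ _ _ _ _ (by omega) (by omega) (by omega) (by omega)
  have hA := harm s p e2 hgap
  have h0 := foE_gap hgap hX
  have kP := agr_P hP hgap X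
  have kW := agr_W hW hgap X
  have kPW : Agr m s (X + P + W) X := (agr_W hW hgap (X + P)).trans kP
  have kX : Agr m s X X :=
    ⟨fun _ _ _ _ => rfl, fun _ _ _ _ => rfl, fun _ _ _ _ => rfl⟩
  refine ⟨s, Gb m m (wI_pos hb) (logC_wI hb.le) p ρ0 ρ,
    Gb_le_one m m (wI_pos hb) (logC_wI hb.le) p ρ0 ρ, e3, fun h h' => ?_,
    ev_agr hb hξ kPW kX h0 h1 e2 hε hA, ev_agr hb hξ kP kW h0 h1 e2 hε hA⟩
  rw [← e1]
  exact val_gap hb h1 hP hW hX e2 (fun v hv => hreg v (by rw [← e1]; omega)) h h'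

end place

/-- **two group elements at distance `l`** -/
theorem loc_two (hb : 0 < b) {ξ : ℕ} (hξ : 0 < ξ) (w : Tor ((m + 1) * (n + 2)))
    {R0 l ρ0 ρ κ : ℕ} (h0 : 1 ≤ ρ0) (h1 : ρ0 ≤ ρ) (h2 : ρ + 1 ≤ κ) (h3 : 2 * (ρ0 + m + 3) ≤ l)
    {X P W : GE ((m + 1) * (n + 2))} (hP : Sup P (ball w R0)) (hW : Sup W (Far w (R0 + l)))
    (hX : ∀ e : Ed ((m + 1) * (n + 2)), R0 < sd w (eS _ e) → sd w (eS _ e) < R0 + l → X.1 e = 0)
    (Pc : Finset (Tor ((m + 1) * (n + 2)))) (hPc : (Pc.card + 1) * (2 * κ) < m + 1)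
    (hPg : ∀ p ∈ Pc, sd w p ≤ R0 ∨ R0 + l ≤ sd w p)
    {ε : ℝ} (hε : 0 ≤ ε)
    (harm : ∀ (s : Tor ((m + 1) * (n + 2))) (p : VB m m), Dp p ρ → Gap w R0 l s →
      ArmLe ((m + 1) * 2) b hb.le ξ (foF m (trF s X.2) 0 0) (pt 0 p.1 p.2) ρ0 ρ ε)
    {Q0 QP QW QPW Q dl : ℝ}
    (q0 : ∀ s, GOK m n κ Pc s → QB m n b (1 / (ξ : ℝ) ^ 2) X s Q0)
    (qP : ∀ s, GOK m n κ Pc s → QB m n b (1 / (ξ : ℝ) ^ 2) (X + P) s QP)
    (qW : ∀ s, GOK m n κ Pc s → QB m n b (1 / (ξ : ℝ) ^ 2) (X + W) s QW)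
    (qPW : ∀ s, GOK m n κ Pc s → QB m n b (1 / (ξ : ℝ) ^ 2) (X + P + W) s QPW)
    (hQ1 : QPW * Q0 ≤ Q) (hQ2 : QP * QW ≤ Q) (hQ : 0 ≤ Q)
    (hV : Vol m n b (1 / (ξ : ℝ) ^ 2) dl) :
    |ZG _ b (1 / (ξ : ℝ) ^ 2) (X + P + W) * ZG _ b (1 / (ξ : ℝ) ^ 2) X -
        ZG _ b (1 / (ξ : ℝ) ^ 2) (X + P) * ZG _ b (1 / (ξ : ℝ) ^ 2) (X + W)| ≤
      (((m + 1) * (n + 2) / ρ0 + 1 : ℕ) : ℝ) ^ 2 * (ε ^ (1 / 4 : ℝ) * Q * Real.exp (2 * dl) *
        Z0 ((m + 1) * (n + 2)) b (1 / (ξ : ℝ) ^ 2) ^ 2) := by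
  classical
  have ht : 0 < 1 / (ξ : ℝ) ^ 2 := by positivity
  have h4 : κ ≤ m := by nlinarith [Nat.zero_le (Pc.card * (2 * κ))]
  -- the net
  obtain ⟨C, hC, hCn⟩ := net (N := (m + 1) * (n + 2)) ρ0 h0
  set k : ℕ := R0 + l / 2 with hk
  set J : Finset (Tor ((m + 1) * (n + 2))) :=
    C.filter fun c => ∃ z, sd w z = k ∧ z ∈ ball c ρ0 with hJ
  have hJc : (J.card : ℝ) ≤ (((m + 1) * (n + 2) / ρ0 + 1 : ℕ) : ℝ) ^ 2 := by
    have : J.card ≤ ((m + 1) * (n + 2) / ρ0 + 1) ^ 2 := (Finset.card_filter_le _ _).trans hC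
    exact_mod_cast this
  -- the region around a point of the net
  have hreg : ∀ c ∈ J, ∀ v, sd c v ≤ m + 1 → R0 < sd w v ∧ sd w v < R0 + l := by
    intro c hc v hv
    rw [hJ, Finset.mem_filter] at hc
    obtain ⟨_, z, hz, hzc⟩ := hc
    rw [mem_ball] at hzc
    have t1 := sd_tri w z c
    have t2 := sd_tri w c z
    rw [sd_symm z c] at t1
    have t3 := sd_tri w c v
    have t4 := sd_tri w v c
    rw [sd_symm v c] at t4
    omega
  -- the grids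
  have hgrid : ∀ c : Tor ((m + 1) * (n + 2)), ∃ (s : Tor ((m + 1) * (n + 2))) (G : GF m), c ∈ J →
      (∀ x y, G x y ≤ 1) ∧ GOK m n κ Pc s ∧
      (∀ h h' : Tor ((m + 1) * (n + 2)) → ℤ,
        Cb.qa (sgF (eS _) (eT _) (I := fun _ => wI b) (fun _ => wI_pos hb)
        (fun _ => logC_wI hb.le) (Efr (ball w R0) (Far w (R0 + l)))
        (X + P + W).1) (ball c ρ0) (ball c ρ) (fun v => (h v, h' v)) =
          G (fun a c' => h (pt s a c')) (fun a c' => h' (pt s a c'))) ∧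
      Evn m n b (1 / (ξ : ℝ) ^ 2) (X + P + W) X s G ε ∧
      Evn m n b (1 / (ξ : ℝ) ^ 2) (X + P) (X + W) s G ε := by
    intro c
    by_cases hc : c ∈ J
    · obtain ⟨s, G, hh⟩ := arm_at hb hξ h1 h2 hP hW hX Pc hPc hPg hε harm c (hreg c hc)
      exact ⟨s, G, fun _ => hh⟩
    · exact ⟨0, fun _ _ => 0, fun h => absurd h hc⟩
  choose s G hsG using hgrid
  -- swap
  have hdis : Disjoint (ball w R0) (Far w (R0 + l)) := by
    rw [Finset.disjoint_left]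
    intro v a1 a2
    rw [mem_ball] at a1
    rw [mem_Far] at a2
    omega
  have hD := swD_of hdis (X := X) hP hW
  have gδ : ∀ e : Ed ((m + 1) * (n + 2)), sd w (eS _ e) ≤ sd w (eT _ e) + 1 ∧
      sd w (eT _ e) ≤ sd w (eS _ e) + 1 := by
    intro e
    have t0 := sd_eS_eT e
    have t1 := sd_tri w (eT _ e) (eS _ e)
    have t2 := sd_tri w (eS _ e) (eT _ e)
    rw [sd_symm (eT _ e) (eS _ e)] at t1
    omega
  have g1 : ∀ v ∈ ball w R0, sd w v < k := by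
    intro v hv
    rw [mem_ball] at hv
    omega
  have g2 : ∀ v ∈ Far w (R0 + l), k ≤ sd w v := by
    intro v hv
    rw [mem_Far] at hv
    omega
  have g3 : ∀ z, sd w z = k → ∃ c ∈ J, z ∈ ball c ρ0 := by
    intro z hz
    obtain ⟨c, hc, hzc⟩ := hCn z
    exact ⟨c, Finset.mem_filter.2 ⟨hc, z, hz, hzc⟩, hzc⟩
  have g4 : ∀ c ∈ J, ∀ v ∈ ball w R0, v ∉ ball c ρ := by
    intro c hc v hv hv'
    rw [mem_ball] at hv hv'
    have := hreg c hc v (by omega)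
    omega
  have hc0 : 0 ≤ ε ^ (1 / 4 : ℝ) * Q * Real.exp (2 * dl) *
      Z0 ((m + 1) * (n + 2)) b (1 / (ξ : ℝ) ^ 2) ^ 2 := by positivity
  have hfin : ∀ {q : ℝ}, q ≤ Q → (J.card : ℝ) * (ε ^ (1 / 4 : ℝ) * q * Real.exp (2 * dl) *
      Z0 ((m + 1) * (n + 2)) b (1 / (ξ : ℝ) ^ 2) ^ 2) ≤
      (((m + 1) * (n + 2) / ρ0 + 1 : ℕ) : ℝ) ^ 2 * (ε ^ (1 / 4 : ℝ) * Q * Real.exp (2 * dl) *
        Z0 ((m + 1) * (n + 2)) b (1 / (ξ : ℝ) ^ 2) ^ 2) := by
    intro q hq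
    have z1 : ε ^ (1 / 4 : ℝ) * q * Real.exp (2 * dl) *
        Z0 ((m + 1) * (n + 2)) b (1 / (ξ : ℝ) ^ 2) ^ 2 ≤ ε ^ (1 / 4 : ℝ) * Q *
          Real.exp (2 * dl) * Z0 ((m + 1) * (n + 2)) b (1 / (ξ : ℝ) ^ 2) ^ 2 := by
      have := Real.rpow_nonneg hε (1 / 4 : ℝ)
      gcongr
    exact (mul_le_mul_of_nonneg_left z1 (Nat.cast_nonneg _)).trans
      (mul_le_mul_of_nonneg_right hJc hc0)
  have u1 := two_le hb ht (fun _ => wI_pos hb) (fun _ => logC_wI hb.le) hD J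
    (fun c => ball c ρ0) (fun c => ball c ρ) gδ g1 g2 g3 g4 s G
    (fun c hc => (hsG c hc).1) (fun c hc => (hsG c hc).2.2.1)
    (fun c hc => qPW _ (hsG c hc).2.1) (fun c hc => q0 _ (hsG c hc).2.1) hε
    (fun c hc => (hsG c hc).2.2.2.1) hV
  have u2 := two_ge hb ht (fun _ => wI_pos hb) (fun _ => logC_wI hb.le) hD J
    (fun c => ball c ρ0) (fun c => ball c ρ) gδ g1 g2 g3 g4 s G
    (fun c hc => (hsG c hc).1) (fun c hc => (hsG c hc).2.2.1)
    (fun c hc => qP _ (hsG c hc).2.1) (fun c hc => qW _ (hsG c hc).2.1) hε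
    (fun c hc => (hsG c hc).2.2.2.2) hV
  have u3 := hfin hQ1
  have u4 := hfin hQ2
  rw [abs_le]
  constructor <;> linarith

end main

end

end Vale.Agent.P159.H474.Cb
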