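import Vale.Agent.P159.H474.Cb14

/-!
P159, helper474, module CB, part 15: **(dd) without price, neutral letters**.

`Qc_le_one`, `Qc_zero`, `Qc_one` : the numbers of a centre; `dd_base` : the mixed difference of the
logarithms of the neutral partition functions at a base which may be dislocated in the gap.
-/

set_option linter.unusedSectionVars false

namespace Vale.Agent.P159.H474.Cb

open scoped ENNReal
open Finset
open Vale.Agent.P159.H37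
open Vale.Agent.P159.H770 (Ed eS eT wTD)
open Vale.Agent.P159.TM.SpecC (Tor wT)
open Vale.Agent.P159.H353 (wI)
open Vale.Agent.P159.TM.H459 (ball mem_ball sd sn sd_symm sd_tri)
open Vale.Agent.P159.H513 (cuZ)
open Vale.Agent.P159.H529.Qf (EQ EQ_union EQ_tr EQ_congr EQ_zero EQ_nonneg EQ_mono EQ_le_one EQ_one)
open Vale.Agent.P159.H773 (mm)
open Vale.Agent.P159.H612 (zc zn zc_torus omE EdM edM_torus log_rel)

noncomputable section

section numbers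

variable {N : ℕ} [NeZero N] {b : ℝ}

lemma Qc_nonneg (hb : 0 ≤ b) (X : GE N) (z : Tor N) (ρ : ℕ) : 0 ≤ Qc b X z ρ := EQ_nonneg hb _ _

lemma Qc_le_one (X : GE N) (z : Tor N) (ρ : ℕ) : Qc b X z ρ ≤ 1 := EQ_le_one _ _ _

lemma Qc_mono (hb : 0 ≤ b) (X : GE N) (z : Tor N) {ρ ρ' : ℕ} (h : ρ ≤ ρ') :
    Qc b X z ρ' ≤ Qc b X z ρ := by
  refine EQ_mono hb (fun v hv => ?_) _
  rw [XY.mem_box] at hv ⊢
  omega

/-- no charge in the box -/
lemma Qc_zero {X : GE N} {z : Tor N} {ρ : ℕ} (h : ∀ v ∈ box ρ, chg X z v = 0) : Qc b X z ρ = 1 :=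
  EQ_zero b h

/-- one unit charge in the box, at distance at most `d` from the centre -/
lemma Qc_one (hb : 0 ≤ b) {X : GE N} {z : Tor N} {ρ d : ℕ} {v0 : ℤ × ℤ} (h0 : v0 ∈ box d)
    (hd : d ≤ ρ) (h1 : chg X z v0 = 1 ∨ chg X z v0 = -1)
    (h2 : ∀ v ∈ box ρ, v ≠ v0 → chg X z v = 0) : Qc b X z ρ ≤ mm b (ρ - d) := by
  refine EQ_one hb (z := v0) (fun v hv => ?_) h1 h2
  rw [H773.mem_tr, XY.mem_box, Prod.fst_sub, Prod.snd_sub] at hv
  rw [XY.mem_box] at h0 ⊢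
  omega

lemma chg_congr {X Y : GE N} (h : X.1 = Y.1) (z : Tor N) (v : ℤ × ℤ) : chg X z v = chg Y z v := by
  unfold chg
  rw [h]

lemma Qc_congr {X Y : GE N} (h : X.1 = Y.1) (z : Tor N) (ρ : ℕ) : Qc b X z ρ = Qc b Y z ρ := by
  unfold Qc
  exact EQ_congr fun v _ => chg_congr h z v

end numbers

section main

variable {m n : ℕ} [NeZero ((m + 1) * (n + 2))] [NeZero ((m + 1) * 2)] {b : ℝ}

/-- the constant background -/
def cst (N : ℕ) (c : ℝ) : GE N := (0, fun _ => c)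

lemma Flt.cst {N : ℕ} [NeZero N] {m : ℕ} {s : Tor N} {X : GE N} {v : Tor N → ℝ} (h : Flt m s X v)
    (c : ℝ) : Flt m s (X + Cb.cst N c) v := by
  refine ⟨fun a a' ha ha' => ?_, fun a a' ha ha' => ?_⟩
  · have := h.h a a' ha ha'
    have e1 : (X + Cb.cst N c).1 (pt s a a', false) = X.1 (pt s a a', false) := by
      show X.1 _ + 0 = _
      rw [add_zero]
    have e2 : ∀ x, (X + Cb.cst N c).2 x = X.2 x + c := fun x => rfl
    rw [e1, e2, e2]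
    linarith
  · have := h.v a a' ha ha'
    have e1 : (X + Cb.cst N c).1 (pt s a a', true) = X.1 (pt s a a', true) := by
      show X.1 _ + 0 = _
      rw [add_zero]
    have e2 : ∀ x, (X + Cb.cst N c).2 x = X.2 x + c := fun x => rfl
    rw [e1, e2, e2]
    linarith

/-- **(dd) without price** : pointwise in the constant -/
theorem dd_point (hb : 0 < b) {ξ A K κ l : ℕ} {L₀ c C : ℝ} (hc : 0 < c)
    (hC : 0 < C) (H : LN m n b hb ξ A L₀ c C) (g : Geo m n ξ A K κ l c)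
    (w : Tor ((m + 1) * (n + 2))) {R0 : ℕ}
    {X P W : GE ((m + 1) * (n + 2))} (hP : Sup P (ball w R0)) (hW : Sup W (Far w (R0 + l)))
    (hX : FltG m n w R0 l X (2 * L₀ / ξ))
    (Pc : Finset (Tor ((m + 1) * (n + 2)))) (hPc : Pc.card ≤ K)
    (hPg : ∀ p ∈ Pc, sd w p ≤ R0 ∨ R0 + l ≤ sd w p)
    (r : Tor ((m + 1) * (n + 2)) → ℕ) (hr : ∀ z ∈ Pc, r z + 1 ≤ κ)
    (hsep : ∀ z ∈ Pc, ∀ z' ∈ Pc, z ≠ z' → r z + r z' + 2 ≤ sd z z') {Q : ℝ}
    (hQ1 : (∏ z ∈ Pc, Qc b (X + P + W) z (r z)) * (∏ z ∈ Pc, Qc b X z (r z)) ≤ Q)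
    (hQ2 : (∏ z ∈ Pc, Qc b (X + P) z (r z)) * (∏ z ∈ Pc, Qc b (X + W) z (r z)) ≤ Q) (c1 : ℝ) :
    |zc (eS ((m + 1) * (n + 2))) (eT _) (fun _ => wI b)
        ((1 / (ξ : ℝ) ^ 2) • (1 : Matrix _ _ ℝ)) (X + P + W) c1 *
        zc (eS ((m + 1) * (n + 2))) (eT _) (fun _ => wI b)
        ((1 / (ξ : ℝ) ^ 2) • (1 : Matrix _ _ ℝ)) X c1 -
      zc (eS ((m + 1) * (n + 2))) (eT _) (fun _ => wI b)
        ((1 / (ξ : ℝ) ^ 2) • (1 : Matrix _ _ ℝ)) (X + P) c1 *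
        zc (eS ((m + 1) * (n + 2))) (eT _) (fun _ => wI b)
        ((1 / (ξ : ℝ) ^ 2) • (1 : Matrix _ _ ℝ)) (X + W) c1| ≤
      KL A c C * ((((m + 1) * (n + 2) : ℕ) : ℝ) / ξ) ^ 2 * Real.exp (-(c * κ / (4 * ξ))) * Q *
        zc (eS ((m + 1) * (n + 2))) (eT _) (fun _ => wI b)
        ((1 / (ξ : ℝ) ^ 2) • (1 : Matrix _ _ ℝ)) 0 0 ^ 2 := by
  have hξ : 0 < ξ := by
    have := g.hA
    have := g.hAξ
    omega
  have ht : 0 < 1 / (ξ : ℝ) ^ 2 := by positivity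
  set k := Cb.cst ((m + 1) * (n + 2)) c1 with hk
  have hX' : FltG m n w R0 l (X + k) (2 * L₀ / ξ) := by
    intro s hs
    obtain ⟨v, h1, h2⟩ := hX s hs
    exact ⟨v, h1.cst c1, h2⟩
  have e1 : ∀ Y : GE ((m + 1) * (n + 2)), (Y + k).1 = Y.1 := fun Y => by
    show Y.1 + 0 = Y.1
    rw [add_zero]
  have e : ∀ Y : GE ((m + 1) * (n + 2)),
      zc (eS ((m + 1) * (n + 2))) (eT _) (fun _ => wI b)
        ((1 / (ξ : ℝ) ^ 2) • (1 : Matrix _ _ ℝ)) Y c1 = ZG _ b (1 / (ξ : ℝ) ^ 2) (Y + k) := by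
    intro Y
    rw [zc_torus]
    unfold ZG
    rw [e1]
    rfl
  have e0 : zc (eS ((m + 1) * (n + 2))) (eT _) (fun _ => wI b)
        ((1 / (ξ : ℝ) ^ 2) • (1 : Matrix _ _ ℝ)) 0 0 =
      Z0 ((m + 1) * (n + 2)) b (1 / (ξ : ℝ) ^ 2) := by
    rw [zc_torus, H145.cs_zero]
    exact ZG_zero _ _ _
  rw [e, e, e, e, e0]
  have hq : ∀ Y : GE ((m + 1) * (n + 2)), ∀ s, GOK m n κ Pc s →
      QB m n b (1 / (ξ : ℝ) ^ 2) (Y + k) s (∏ z ∈ Pc, Qc b Y z (r z)) := by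
    intro Y s hs
    have h := QB_EQ (t := 1 / (ξ : ℝ) ^ 2) hb ht (Y + k) hs r hr hsep
    rwa [Finset.prod_congr rfl fun z _ => Qc_congr (b := b) (e1 Y) z (r z)] at h
  have hQ : 0 ≤ Q := le_trans (mul_nonneg (Finset.prod_nonneg fun z _ => Qc_nonneg hb.le _ _ _)
    (Finset.prod_nonneg fun z _ => Qc_nonneg hb.le _ _ _)) hQ1
  have a1 : X + P + W + k = X + k + P + W := by abel
  have a2 : X + P + k = X + k + P := by abel
  have a3 : X + W + k = X + k + W := by abel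
  rw [a1, a2, a3]
  refine loc_base_num hb hc hC H g w hP hW hX' Pc hPc hPg (hq X) ?_ ?_ ?_ hQ1 hQ2 hQ
  · rw [← a2]
    exact hq (X + P)
  · rw [← a3]
    exact hq (X + W)
  · rw [← a1]
    exact hq (X + P + W)

/-- **(dd) without price, neutral letters** -/
theorem dd_base (hb : 0 < b) {ξ A K κ l : ℕ} {L₀ c C : ℝ} (hc : 0 < c)
    (hC : 0 < C) (H : LN m n b hb ξ A L₀ c C) (g : Geo m n ξ A K κ l c)
    (w : Tor ((m + 1) * (n + 2))) {R0 : ℕ}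
    {X P W : GE ((m + 1) * (n + 2))} (hP : Sup P (ball w R0)) (hW : Sup W (Far w (R0 + l)))
    (hX : FltG m n w R0 l X (2 * L₀ / ξ))
    (Pc : Finset (Tor ((m + 1) * (n + 2)))) (hPc : Pc.card ≤ K)
    (hPg : ∀ p ∈ Pc, sd w p ≤ R0 ∨ R0 + l ≤ sd w p)
    (r : Tor ((m + 1) * (n + 2)) → ℕ) (hr : ∀ z ∈ Pc, r z + 1 ≤ κ)
    (hsep : ∀ z ∈ Pc, ∀ z' ∈ Pc, z ≠ z' → r z + r z' + 2 ≤ sd z z') {Q : ℝ}
    (hQ1 : (∏ z ∈ Pc, Qc b (X + P + W) z (r z)) * (∏ z ∈ Pc, Qc b X z (r z)) ≤ Q)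
    (hQ2 : (∏ z ∈ Pc, Qc b (X + P) z (r z)) * (∏ z ∈ Pc, Qc b (X + W) z (r z)) ≤ Q)
    (hω : omE (eS ((m + 1) * (n + 2))) (eT _) (fun _ => wI b)
      ((1 / (ξ : ℝ) ^ 2) • (1 : Matrix _ _ ℝ)) ≤ 1 / 16) {E : ℝ}
    (hE : zn (eS ((m + 1) * (n + 2))) (eT _) (fun _ => wI b)
        ((1 / (ξ : ℝ) ^ 2) • (1 : Matrix _ _ ℝ)) 0 ^ 2 ≤ Real.exp E *
      (zn (eS ((m + 1) * (n + 2))) (eT _) (fun _ => wI b)
        ((1 / (ξ : ℝ) ^ 2) • (1 : Matrix _ _ ℝ)) (X + P) *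
      zn (eS ((m + 1) * (n + 2))) (eT _) (fun _ => wI b)
        ((1 / (ξ : ℝ) ^ 2) • (1 : Matrix _ _ ℝ)) (X + W)))
    (hη : KL A c C * ((((m + 1) * (n + 2) : ℕ) : ℝ) / ξ) ^ 2 * Real.exp (-(c * κ / (4 * ξ))) * Q *
      Real.exp E ≤ 1 / 4) :
    |Real.log (zn (eS ((m + 1) * (n + 2))) (eT _) (fun _ => wI b)
        ((1 / (ξ : ℝ) ^ 2) • (1 : Matrix _ _ ℝ)) (X + P + W)) -
      Real.log (zn (eS ((m + 1) * (n + 2))) (eT _) (fun _ => wI b)
        ((1 / (ξ : ℝ) ^ 2) • (1 : Matrix _ _ ℝ)) (X + P)) -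
      Real.log (zn (eS ((m + 1) * (n + 2))) (eT _) (fun _ => wI b)
        ((1 / (ξ : ℝ) ^ 2) • (1 : Matrix _ _ ℝ)) (X + W)) +
      Real.log (zn (eS ((m + 1) * (n + 2))) (eT _) (fun _ => wI b)
        ((1 / (ξ : ℝ) ^ 2) • (1 : Matrix _ _ ℝ)) X)| ≤
      4 * (KL A c C * ((((m + 1) * (n + 2) : ℕ) : ℝ) / ξ) ^ 2 * Real.exp (-(c * κ / (4 * ξ))) *
        Q * Real.exp E) +
      8 * omE (eS ((m + 1) * (n + 2))) (eT _) (fun _ => wI b)
        ((1 / (ξ : ℝ) ^ 2) • (1 : Matrix _ _ ℝ)) ^ 2 := by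
  have hξ : 0 < ξ := by
    have := g.hA
    have := g.hAξ
    omega
  have ht : 0 < 1 / (ξ : ℝ) ^ 2 := by positivity
  have hM : EdM (fun _ : Ed ((m + 1) * (n + 2)) => wI b)
      ((1 / (ξ : ℝ) ^ 2) • (1 : Matrix (Tor ((m + 1) * (n + 2))) _ ℝ)) (1 / (ξ : ℝ) ^ 2) :=
    edM_torus hb (by rw [Matrix.transpose_smul, Matrix.transpose_one]) ht (H789.coer_smul _)
  set M : Matrix (Tor ((m + 1) * (n + 2))) (Tor ((m + 1) * (n + 2))) ℝ :=
    (1 / (ξ : ℝ) ^ 2) • (1 : Matrix _ _ ℝ) with hMd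
  set s := eS ((m + 1) * (n + 2)) with hs
  set t := eT ((m + 1) * (n + 2)) with ht'
  set ω := omE s t (fun _ => wI b) M with hωd
  set δ := KL A c C * ((((m + 1) * (n + 2) : ℕ) : ℝ) / ξ) ^ 2 * Real.exp (-(c * κ / (4 * ξ))) * Q
    with hδd
  have hω0 : 0 ≤ ω := hM.om_nonneg (s := s) (t := t)
  have hQ : 0 ≤ Q := le_trans (mul_nonneg (Finset.prod_nonneg fun z _ => Qc_nonneg hb.le _ _ _)
    (Finset.prod_nonneg fun z _ => Qc_nonneg hb.le _ _ _)) hQ1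
  have hδ : 0 ≤ δ := by
    rw [hδd]
    have := (KL_pos A (c := c) hC).le
    positivity
  refine hM.neu_four (s := s) (t := t) (by linarith) _ _ _ _ fun c1 _ => ?_
  have h1 : |zc s t (fun _ => wI b) M (X + P + W) c1 * zc s t (fun _ => wI b) M X c1 -
      zc s t (fun _ => wI b) M (X + P) c1 * zc s t (fun _ => wI b) M (X + W) c1| ≤
      δ * zc s t (fun _ => wI b) M 0 0 ^ 2 :=
    dd_point hb hc hC H g w hP hW hX Pc hPc hPg r hr hsep hQ1 hQ2 c1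
  have q1 := hM.zc_pos (X + P + W) c1 (s := s) (t := t)
  have q2 := hM.zc_pos X c1 (s := s) (t := t)
  have q3 := hM.zc_pos (X + P) c1 (s := s) (t := t)
  have q4 := hM.zc_pos (X + W) c1 (s := s) (t := t)
  have u0 : zc s t (fun _ => wI b) M 0 0 ≤ (1 + ω) * zn s t (fun _ => wI b) M 0 := by
    have := (abs_le.1 (hM.zc_osc 0 0 (s := s) (t := t))).2
    linarith
  have lA : (1 - ω) * zn s t (fun _ => wI b) M (X + P) ≤ zc s t (fun _ => wI b) M (X + P) c1 := by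
    have := (abs_le.1 (hM.zc_osc (X + P) c1 (s := s) (t := t))).1
    linarith
  have lB : (1 - ω) * zn s t (fun _ => wI b) M (X + W) ≤ zc s t (fun _ => wI b) M (X + W) c1 := by
    have := (abs_le.1 (hM.zc_osc (X + W) c1 (s := s) (t := t))).1
    linarith
  have pA := hM.zn_pos (X + P) (s := s) (t := t)
  have pB := hM.zn_pos (X + W) (s := s) (t := t)
  have p0 := hM.zn_pos 0 (s := s) (t := t)
  have c0 := hM.zc_pos 0 0 (s := s) (t := t)
  have h5 : (1 - ω) ^ 2 * (zn s t (fun _ => wI b) M (X + P) * zn s t (fun _ => wI b) M (X + W)) ≤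
      zc s t (fun _ => wI b) M (X + P) c1 * zc s t (fun _ => wI b) M (X + W) c1 := by
    have := mul_le_mul lA lB (by nlinarith) q3.le
    calc _ = (1 - ω) * zn s t (fun _ => wI b) M (X + P) *
          ((1 - ω) * zn s t (fun _ => wI b) M (X + W)) := by ring
      _ ≤ _ := this
  have h6 : zc s t (fun _ => wI b) M 0 0 ^ 2 ≤ 2 * (Real.exp E *
      (zc s t (fun _ => wI b) M (X + P) c1 * zc s t (fun _ => wI b) M (X + W) c1)) := by
    have h7 : (1 + ω) ^ 2 ≤ 2 * (1 - ω) ^ 2 := by nlinarith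
    calc zc s t (fun _ => wI b) M 0 0 ^ 2 ≤ ((1 + ω) * zn s t (fun _ => wI b) M 0) ^ 2 :=
          pow_le_pow_left₀ c0.le u0 2
      _ = (1 + ω) ^ 2 * zn s t (fun _ => wI b) M 0 ^ 2 := by ring
      _ ≤ (2 * (1 - ω) ^ 2) * (Real.exp E * (zn s t (fun _ => wI b) M (X + P) *
          zn s t (fun _ => wI b) M (X + W))) :=
          mul_le_mul h7 hE (by positivity) (by positivity)
      _ = 2 * (Real.exp E * ((1 - ω) ^ 2 * (zn s t (fun _ => wI b) M (X + P) *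
          zn s t (fun _ => wI b) M (X + W)))) := by ring
      _ ≤ _ := by
          have := Real.exp_pos E
          gcongr
  have h8 : |zc s t (fun _ => wI b) M (X + P + W) c1 * zc s t (fun _ => wI b) M X c1 -
      zc s t (fun _ => wI b) M (X + P) c1 * zc s t (fun _ => wI b) M (X + W) c1| ≤
      (2 * (δ * Real.exp E)) *
        (zc s t (fun _ => wI b) M (X + P) c1 * zc s t (fun _ => wI b) M (X + W) c1) := by
    refine h1.trans ((mul_le_mul_of_nonneg_left h6 hδ).trans (le_of_eq ?_))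
    ring
  have h9 : (zc s t (fun _ => wI b) M (X + P + W) c1 * zc s t (fun _ => wI b) M X c1 -
      zc s t (fun _ => wI b) M (X + P) c1 * zc s t (fun _ => wI b) M (X + W) c1) ^ 2 ≤
      ((2 * (δ * Real.exp E)) *
        (zc s t (fun _ => wI b) M (X + P) c1 * zc s t (fun _ => wI b) M (X + W) c1)) ^ 2 := by
    rw [← sq_abs]
    exact pow_le_pow_left₀ (abs_nonneg _) h8 2
  have h10 := log_rel (mul_pos q1 q2) (mul_pos q3 q4) h9
    (by have := Real.exp_pos E; positivity) (by linarith)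
  rw [Real.log_mul q1.ne' q2.ne', Real.log_mul q3.ne' q4.ne'] at h10
  refine (le_of_eq ?_).trans (h10.trans (by linarith))
  congr 1
  ring

end main

end

end Vale.Agent.P159.H474.Cb
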