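import Vale.Agent.P159.H474.Green8

/-!
P159, module GREEN (helper474), file 9 (GR6): the variance increase of one window for approximately
Gaussian symbols.

`tau' ≤ tau`, symbols `P, P'` with `c λ ≤ P, P'`, `|P - a λ| ≤ η (1 + λ/τ) λ` (flat profile with the
weakest weight), `|P' - P| ≤ η λ` (drop): then
`n⁻² ∑_k [1/(τ'+P') - 1/(τ+P)] = (1/(4πa)) log (τ/τ') + O(η log) + O(√τ) + (exp. small)`.
-/

namespace Vale.Agent.P159.H474

open Finset Real Filter Topology
open Vale.Agent.P159.TM.H764 (cN sN EE dt)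

noncomputable section

variable {N : ℕ} [NeZero N]

lemma EE_nonneg (k : ZMod N × ZMod N) : 0 ≤ EE k := by
  unfold EE
  have h1 := TM.H764.cN_le_one k.1
  have h2 := TM.H764.cN_le_one k.2
  linarith

lemma EE_le (k : ZMod N × ZMod N) : EE k ≤ 8 := by
  unfold EE
  have h1 := TM.H764.neg_one_le_cN k.1
  have h2 := TM.H764.neg_one_le_cN k.2
  linarith

/-- pointwise comparison -/
lemma sym_pt {c a η τ τ' E P P' : ℝ} (hc : 0 < c) (hca : c ≤ a) (hη : 0 ≤ η) (hτ' : 0 < τ')
    (hττ : τ' ≤ τ) (hE : 0 ≤ E) (hP : c * E ≤ P) (hP' : c * E ≤ P')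
    (h1 : |P - a * E| ≤ η * (1 + E / τ) * E) (h2 : |P' - P| ≤ η * E) :
    |(1 / (τ' + P') - 1 / (τ + P)) - (1 / (τ' + a * E) - 1 / (τ + a * E))| ≤
      η * (5 / c + 4 / c ^ 2) * (1 / (τ' + c * E)) := by
  have hτ : 0 < τ := hτ'.trans_le hττ
  have ha : 0 < a := hc.trans_le hca
  have hcE : 0 ≤ c * E := mul_nonneg hc.le hE
  have haE : c * E ≤ a * E := mul_le_mul_of_nonneg_right hca hE
  have hD : 0 < τ' + c * E := by linarith
  -- one difference of reciprocals
  have rec1 : ∀ t x y K : ℝ, τ' ≤ t → c * E ≤ x → c * E ≤ y → |x - y| ≤ K * E → 0 ≤ K →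
      |1 / (t + x) - 1 / (t + y)| ≤ K / c * (1 / (τ' + c * E)) := by
    intro t x y K ht hx hy hxy hK
    have hx0 : 0 < t + x := by linarith
    have hy0 : 0 < t + y := by linarith
    have e : 1 / (t + x) - 1 / (t + y) = (y - x) / ((t + x) * (t + y)) := by
      field_simp
      ring
    rw [e, abs_div, abs_of_pos (mul_pos hx0 hy0), abs_sub_comm, div_mul_div_comm, mul_one,
      div_le_div_iff₀ (mul_pos hx0 hy0) (mul_pos hc hD)]
    have g1 : c * E * (τ' + c * E) ≤ (t + x) * (t + y) :=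
      mul_le_mul (by linarith) (by linarith) hD.le hx0.le
    calc |x - y| * (c * (τ' + c * E)) ≤ K * E * (c * (τ' + c * E)) :=
          mul_le_mul_of_nonneg_right hxy (by positivity)
      _ = K * (c * E * (τ' + c * E)) := by ring
      _ ≤ K * ((t + x) * (t + y)) := mul_le_mul_of_nonneg_left g1 hK
  have hI : 0 < 1 / (τ' + c * E) := by positivity
  rcases le_or_gt E τ with h | h
  · -- small momenta
    have hw : 1 + E / τ ≤ 2 := by
      have : E / τ ≤ 1 := by rw [div_le_one hτ]; exact h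
      linarith
    have g1 : |P - a * E| ≤ 2 * η * E := by
      refine h1.trans ?_
      have := mul_le_mul_of_nonneg_left hw (mul_nonneg hη hE)
      nlinarith
    have g2 : |P' - a * E| ≤ 3 * η * E := by
      have := abs_sub_le P' P (a * E)
      linarith
    have k1 := rec1 τ' P' (a * E) (3 * η) le_rfl hP' haE g2 (by positivity)
    have k2 := rec1 τ P (a * E) (2 * η) hττ hP haE g1 (by positivity)
    have e : (1 / (τ' + P') - 1 / (τ + P)) - (1 / (τ' + a * E) - 1 / (τ + a * E)) =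
        (1 / (τ' + P') - 1 / (τ' + a * E)) - (1 / (τ + P) - 1 / (τ + a * E)) := by ring
    rw [e]
    refine (abs_sub _ _).trans ((add_le_add k1 k2).trans ?_)
    have e2 : 3 * η / c * (1 / (τ' + c * E)) + 2 * η / c * (1 / (τ' + c * E)) =
        η * (5 / c) * (1 / (τ' + c * E)) := by ring
    rw [e2]
    refine mul_le_mul_of_nonneg_right ?_ hI.le
    refine mul_le_mul_of_nonneg_left ?_ hη
    have : 0 < 4 / c ^ 2 := by positivity
    linarith
  · -- large momenta
    have hE0 : 0 < E := hτ.trans h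
    have hcE0 : 0 < c * E := mul_pos hc hE0
    have k1 := rec1 τ' P' P η le_rfl hP' hP h2 hη
    set x := a * E with hx
    have hx0 : 0 < τ' + x := by linarith
    have hx1 : 0 < τ + x := by linarith
    have hy0 : 0 < τ' + P := by linarith
    have hy1 : 0 < τ + P := by linarith
    have k2 : |(1 / (τ' + P) - 1 / (τ + P)) - (1 / (τ' + x) - 1 / (τ + x))| ≤
        η * (4 / c ^ 2) * (1 / (τ' + c * E)) := by
      have e : (1 / (τ' + P) - 1 / (τ + P)) - (1 / (τ' + x) - 1 / (τ + x)) =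
          (τ - τ') * (x - P) * (1 / ((τ' + x) * (τ' + P) * (τ + P)) +
            1 / ((τ' + x) * (τ + x) * (τ + P))) := by
        field_simp
        ring
      rw [e, abs_mul, abs_mul, abs_of_nonneg (show 0 ≤ τ - τ' by linarith),
        abs_of_pos (show 0 < 1 / ((τ' + x) * (τ' + P) * (τ + P)) +
            1 / ((τ' + x) * (τ + x) * (τ + P)) by positivity)]
      have g1 : 1 / ((τ' + x) * (τ' + P) * (τ + P)) ≤ 1 / ((τ' + c * E) * (c * E) * (c * E)) := by
        refine one_div_le_one_div_of_le (by positivity) ?_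
        refine mul_le_mul (mul_le_mul (by linarith) (by linarith) hcE0.le hx0.le) (by linarith)
          hcE0.le (mul_nonneg hx0.le hy0.le)
      have g2 : 1 / ((τ' + x) * (τ + x) * (τ + P)) ≤ 1 / ((τ' + c * E) * (c * E) * (c * E)) := by
        refine one_div_le_one_div_of_le (by positivity) ?_
        refine mul_le_mul (mul_le_mul (by linarith) (by linarith) hcE0.le hx0.le) (by linarith)
          hcE0.le (mul_nonneg hx0.le hx1.le)
      have g3 : (τ - τ') * |x - P| ≤ 2 * η * E ^ 2 := by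
        rw [abs_sub_comm]
        have g4 : τ * (η * (1 + E / τ) * E) = η * (τ + E) * E := by
          field_simp
        calc (τ - τ') * |P - x| ≤ τ * (η * (1 + E / τ) * E) :=
              mul_le_mul (by linarith) h1 (abs_nonneg _) hτ.le
          _ = η * (τ + E) * E := g4
          _ ≤ η * (2 * E) * E := by
              refine mul_le_mul_of_nonneg_right (mul_le_mul_of_nonneg_left ?_ hη) hE
              linarith
          _ = 2 * η * E ^ 2 := by ring
      calc (τ - τ') * |x - P| * (1 / ((τ' + x) * (τ' + P) * (τ + P)) +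
            1 / ((τ' + x) * (τ + x) * (τ + P))) ≤
            2 * η * E ^ 2 * (2 * (1 / ((τ' + c * E) * (c * E) * (c * E)))) :=
            mul_le_mul g3 (by linarith) (by positivity) (by positivity)
        _ = η * (4 / c ^ 2) * (1 / (τ' + c * E)) := by
            field_simp
            ring
    have e : (1 / (τ' + P') - 1 / (τ + P)) - (1 / (τ' + x) - 1 / (τ + x)) =
        (1 / (τ' + P') - 1 / (τ' + P)) +
          ((1 / (τ' + P) - 1 / (τ + P)) - (1 / (τ' + x) - 1 / (τ + x))) := by ring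
    rw [e]
    refine (abs_add_le _ _).trans ((add_le_add k1 k2).trans ?_)
    have e2 : η / c * (1 / (τ' + c * E)) + η * (4 / c ^ 2) * (1 / (τ' + c * E)) =
        η * (1 / c + 4 / c ^ 2) * (1 / (τ' + c * E)) := by ring
    rw [e2]
    refine mul_le_mul_of_nonneg_right ?_ hI.le
    refine mul_le_mul_of_nonneg_left ?_ hη
    have : 1 / c ≤ 5 / c := div_le_div_of_nonneg_right (by norm_num) hc.le
    linarith

lemma sum_inv_scale {a τ : ℝ} (ha : 0 < a) :
    (∑ k : ZMod N × ZMod N, 1 / (τ + a * EE k)) / (N : ℝ) ^ 2 = SN N (τ / a) / a := by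
  unfold SN
  have h : ∑ k : ZMod N × ZMod N, 1 / (τ + a * EE k) =
      (∑ k : ZMod N × ZMod N, 1 / (τ / a + EE k)) / a := by
    rw [Finset.sum_div]
    refine Finset.sum_congr rfl fun k _ => ?_
    rw [div_div]
    congr 1
    field_simp
  rw [h, div_right_comm]

lemma SN_le {m : ℝ} (hm : 0 < m) (hm1 : m ≤ 1) (hN : 1 ≤ (N : ℝ) * √m) :
    SN N m ≤ 601 + Real.log (1 / m) / (4 * π) := by
  have h1 := SN_sub_Im' (N := N) hm (by linarith) hN
  have h2 := Im_le hm hm1
  have h3 : exp (-((N : ℝ) * √m / 16)) ≤ 1 := by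
    rw [Real.exp_le_one_iff]
    have : 0 ≤ (N : ℝ) * √m := by linarith
    linarith
  rw [abs_le] at h1
  linarith [h1.2]

/-- **(GR6)** -/
theorem GR6 {c a η τ τ' : ℝ} (hc : 0 < c) (hca : c ≤ a) (hη : 0 ≤ η) (hτ' : 0 < τ')
    (hττ : τ' ≤ τ) (hτa : τ ≤ a) (hτc : τ' ≤ c) (hN : 1 ≤ (N : ℝ) * √(τ' / a))
    {P P' : ZMod N × ZMod N → ℝ} (hP : ∀ k, c * EE k ≤ P k) (hP' : ∀ k, c * EE k ≤ P' k)
    (h1 : ∀ k, |P k - a * EE k| ≤ η * (1 + EE k / τ) * EE k) (h2 : ∀ k, |P' k - P k| ≤ η * EE k) :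
    |(∑ k : ZMod N × ZMod N, (1 / (τ' + P' k) - 1 / (τ + P k))) / (N : ℝ) ^ 2 -
        Real.log (τ / τ') / (4 * π * a)| ≤
      (√(τ / a) / 4 + 1200 * exp (-((N : ℝ) * √(τ' / a) / 16))) / a +
        η * (5 / c + 4 / c ^ 2) * ((601 + Real.log (c / τ') / (4 * π)) / c) := by
  have ha : 0 < a := hc.trans_le hca
  have hτ : 0 < τ := hτ'.trans_le hττ
  have hNp : (0 : ℝ) < (N : ℝ) ^ 2 := by
    have : (0 : ℝ) < N := by exact_mod_cast NeZero.pos N
    positivity
  have hpi := Real.pi_pos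
  -- comparison with the Gaussian symbols
  have hA : |(∑ k : ZMod N × ZMod N, (1 / (τ' + P' k) - 1 / (τ + P k))) / (N : ℝ) ^ 2 -
      (SN N (τ' / a) / a - SN N (τ / a) / a)| ≤
        η * (5 / c + 4 / c ^ 2) * (SN N (τ' / c) / c) := by
    rw [← sum_inv_scale ha, ← sum_inv_scale ha, ← sum_inv_scale hc, ← sub_div, ← sub_div,
      abs_div, abs_of_pos hNp, ← mul_div_assoc, div_le_div_iff_of_pos_right hNp,
      ← Finset.sum_sub_distrib, ← Finset.sum_sub_distrib, Finset.mul_sum]
    refine (Finset.abs_sum_le_sum_abs _ _).trans (Finset.sum_le_sum fun k _ => ?_)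
    exact sym_pt hc hca hη hτ' hττ (EE_nonneg k) (hP k) (hP' k) (h1 k) (h2 k)
  have hB := TB1' (N := N) (m := τ' / a) (m' := τ / a) (by positivity)
    (div_le_div_of_nonneg_right hττ ha.le) (by rw [div_le_one ha]; exact hτa) hN
  have hB' : |SN N (τ' / a) / a - SN N (τ / a) / a - Real.log (τ / τ') / (4 * π * a)| ≤
      (√(τ / a) / 4 + 1200 * exp (-((N : ℝ) * √(τ' / a) / 16))) / a := by
    have e1 : τ / a / (τ' / a) = τ / τ' := by field_simp
    rw [e1] at hB
    have e2 : SN N (τ' / a) / a - SN N (τ / a) / a - Real.log (τ / τ') / (4 * π * a) =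
        (SN N (τ' / a) - SN N (τ / a) - Real.log (τ / τ') / (4 * π)) / a := by
      field_simp
    rw [e2, abs_div, abs_of_pos ha]
    exact div_le_div_of_nonneg_right hB ha.le
  have hC : SN N (τ' / c) ≤ 601 + Real.log (c / τ') / (4 * π) := by
    have h3 : √(τ' / a) ≤ √(τ' / c) :=
      Real.sqrt_le_sqrt (div_le_div_of_nonneg_left hτ'.le hc hca)
    have h4 := SN_le (N := N) (m := τ' / c) (by positivity) (by rw [div_le_one hc]; exact hτc)
      (hN.trans (mul_le_mul_of_nonneg_left h3 (Nat.cast_nonneg _)))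
    rw [one_div_div] at h4
    exact h4
  have hD : η * (5 / c + 4 / c ^ 2) * (SN N (τ' / c) / c) ≤
      η * (5 / c + 4 / c ^ 2) * ((601 + Real.log (c / τ') / (4 * π)) / c) :=
    mul_le_mul_of_nonneg_left (div_le_div_of_nonneg_right hC hc.le) (by positivity)
  have e : (∑ k : ZMod N × ZMod N, (1 / (τ' + P' k) - 1 / (τ + P k))) / (N : ℝ) ^ 2 -
        Real.log (τ / τ') / (4 * π * a) =
      ((∑ k : ZMod N × ZMod N, (1 / (τ' + P' k) - 1 / (τ + P k))) / (N : ℝ) ^ 2 -
      (SN N (τ' / a) / a - SN N (τ / a) / a)) +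
      (SN N (τ' / a) / a - SN N (τ / a) / a - Real.log (τ / τ') / (4 * π * a)) := by ring
  rw [e]
  refine (abs_add_le _ _).trans ?_
  linarith

end

end Vale.Agent.P159.H474
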