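import Vale.Agent.P159.H474.Cb6
import Vale.Agent.P159.H513.Eta2

/-!
P159, helper474, module CB, part 8: the circulation of the folded dislocation; choice of the grid.

`cuZ_foE` : the circulation of `foE m η i j` at a face is, up to the sign of the quadrant, the
circulation of `η` at the folded face.
`grid_choice` : a grid origin with a given point and given faces far from the grid lines.
-/

set_option linter.unusedSectionVars false

namespace Vale.Agent.P159.H474.Cb

open Finset
open Vale.Agent.P159.H770 (Ed)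
open Vale.Agent.P159.TM.SpecC (Tor)
open Vale.Agent.P159.H513 (cuZ)

/-! ### circulation -/

section curl

variable {n m : ℕ} [NeZero ((m + 1) * n)] [NeZero ((m + 1) * 2)]

/-- the folded face -/
def fc (m : ℕ) (x : ZMod ((m + 1) * 2)) : ℕ :=
  if x.val < m + 1 then x.val else (m + 1) * 2 - 1 - x.val

/-- sign of the half -/
def sgh (m : ℕ) (x : ZMod ((m + 1) * 2)) : ℤ := if x.val < m + 1 then 1 else -1

lemma fc_lt (m : ℕ) [NeZero ((m + 1) * 2)] (x : ZMod ((m + 1) * 2)) : fc m x < m + 1 := by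
  unfold fc
  have := ZMod.val_lt x
  split_ifs <;> omega

lemma fo_eq (m : ℕ) [NeZero ((m + 1) * 2)] (x : ZMod ((m + 1) * 2)) :
    fo m x = if x.val < m + 1 then fc m x else fc m x + 1 := by
  unfold fo fc
  have := ZMod.val_lt x
  split_ifs <;> omega

lemma val_add_one' (m : ℕ) [NeZero ((m + 1) * 2)] (x : ZMod ((m + 1) * 2)) :
    (x + 1).val = if x.val + 1 < (m + 1) * 2 then x.val + 1 else 0 := by
  have h := ZMod.val_lt x
  have h1 : x + 1 = ((x.val + 1 : ℕ) : ZMod ((m + 1) * 2)) := by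
    push_cast
    rw [ZMod.natCast_zmod_val]
  rw [h1, ZMod.val_natCast]
  split_ifs with h2
  · exact Nat.mod_eq_of_lt h2
  · have : x.val + 1 = (m + 1) * 2 := by omega
    rw [this, Nat.mod_self]

lemma fo_succ (m : ℕ) [NeZero ((m + 1) * 2)] (x : ZMod ((m + 1) * 2)) :
    fo m (x + 1) = if x.val < m + 1 then fc m x + 1 else fc m x := by
  unfold fo
  rw [val_add_one']
  unfold fc
  have := ZMod.val_lt x
  split_ifs <;> omega

/-- **the circulation of the folded dislocation** -/
theorem cuZ_foE (η : Ed ((m + 1) * n) → ℤ) (i j : ℕ) (x : Tor ((m + 1) * 2)) :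
    cuZ (foE m η i j) x = sgh m x.1 * sgh m x.2 *
      cuZ η ((((m + 1) * i + fc m x.1 : ℕ) : ZMod ((m + 1) * n)),
        (((m + 1) * j + fc m x.2 : ℕ) : ZMod ((m + 1) * n))) := by
  obtain ⟨x1, x2⟩ := x
  have e1 : ∀ (k a : ℕ), ((((m + 1) * k + (a + 1) : ℕ)) : ZMod ((m + 1) * n)) =
      ((((m + 1) * k + a : ℕ)) : ZMod ((m + 1) * n)) + 1 := by
    intro k a
    push_cast
    ring
  have hf1 := fo_eq m x1
  have hf2 := fo_eq m x2
  have hs1 := fo_succ m x1
  have hs2 := fo_succ m x2
  have hc1 : fc m x1 = if x1.val < m + 1 then x1.val else (m + 1) * 2 - 1 - x1.val := rfl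
  have hc2 : fc m x2 = if x2.val < m + 1 then x2.val else (m + 1) * 2 - 1 - x2.val := rfl
  unfold cuZ foE sgh
  simp only [Prod.mk_add_mk, add_zero, if_true, Bool.false_eq_true, if_false, hf1, hf2, hs1, hs2]
  by_cases h1 : x1.val < m + 1
  · by_cases h2 : x2.val < m + 1
    · simp only [h1, h2, if_true] at hc1 hc2 ⊢
      simp only [e1, ← hc1, ← hc2]
      ring
    · simp only [h1, h2, if_true, if_false] at hc1 hc2 ⊢
      simp only [e1, ← hc1, ← hc2]
      ring
  · by_cases h2 : x2.val < m + 1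
    · simp only [h1, h2, if_true, if_false] at hc1 hc2 ⊢
      simp only [e1, ← hc1, ← hc2]
      ring
    · simp only [h1, h2, if_false] at hc1 hc2 ⊢
      simp only [e1, ← hc1, ← hc2]
      ring

end curl

/-! ### choice of the grid -/

/-- one dimensional pigeonhole -/
lemma grid_one {M κ : ℕ} (S : Finset ℕ) (hS : S.card * (2 * κ) < M) :
    ∃ u < M, ∀ r ∈ S, κ ≤ (r + u) % M ∧ (r + u) % M + κ + 1 ≤ M := by
  classical
  by_contra hcon
  push Not at hcon
  have hM : 0 < M := by omega
  set B : ℕ → Finset ℕ := fun r => (range M).filter fun u => (r + u) % M < κ ∨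
    M ≤ (r + u) % M + κ with hB
  have hcard : ∀ r, (B r).card ≤ 2 * κ := by
    intro r
    have h1 : (B r).card ≤ (range κ ∪ Ico (M - κ) M).card := by
      refine Finset.card_le_card_of_injOn (fun u => (r + u) % M) ?_ ?_
      · intro u hu
        rw [Finset.mem_coe, hB, Finset.mem_filter] at hu
        have h2 := Nat.mod_lt (r + u) hM
        rw [Finset.mem_coe, Finset.mem_union, Finset.mem_range, Finset.mem_Ico]
        rcases hu.2 with h3 | h3
        · exact Or.inl h3
        · right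
          constructor
          · show M - κ ≤ (r + u) % M
            omega
          · exact h2
      · intro u hu v hv huv
        rw [Finset.mem_coe, hB, Finset.mem_filter, Finset.mem_range] at hu hv
        have h2 : (r + u) % M = (r + v) % M := huv
        have h3 : u ≡ v [MOD M] := Nat.ModEq.add_left_cancel' r h2
        exact Nat.ModEq.eq_of_lt_of_lt h3 hu.1 hv.1
    refine h1.trans ((Finset.card_union_le _ _).trans ?_)
    rw [Finset.card_range, Nat.card_Ico]
    omega
  have hsub : range M ⊆ S.biUnion B := by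
    intro u hu
    rw [Finset.mem_range] at hu
    obtain ⟨r, hr, h1⟩ := hcon u hu
    rw [Finset.mem_biUnion]
    refine ⟨r, hr, ?_⟩
    rw [hB, Finset.mem_filter, Finset.mem_range]
    refine ⟨hu, ?_⟩
    by_cases h2 : κ ≤ (r + u) % M
    · right
      have := h1 h2
      omega
    · left
      omega
  have h1 := Finset.card_le_card hsub
  rw [Finset.card_range] at h1
  have h2 : (S.biUnion B).card ≤ S.card * (2 * κ) :=
    Finset.card_biUnion_le_card_mul _ _ _ fun r _ => hcard r
  omega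

/-- one coordinate -/
lemma grid_coord {M n κ : ℕ} [NeZero (M * n)] (x0 : ZMod (M * n)) (P : Finset (ZMod (M * n)))
    (hP : (P.card + 1) * (2 * κ) < M) :
    ∃ (s : ZMod (M * n)) (v : ℕ), s + (v : ZMod (M * n)) = x0 ∧ κ ≤ v ∧ v + κ + 1 ≤ M ∧
      ∀ p ∈ P, κ ≤ (p - s).val % M ∧ (p - s).val % M + κ + 1 ≤ M := by
  classical
  have hM : 0 < M := by omega
  set S : Finset ℕ := insert x0.val (P.image ZMod.val) with hS
  have hcard : S.card ≤ P.card + 1 :=
    (Finset.card_insert_le _ _).trans (Nat.add_le_add_right Finset.card_image_le 1)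
  obtain ⟨u, hu, h⟩ := grid_one (κ := κ) (M := M) S
    (lt_of_le_of_lt (Nat.mul_le_mul_right _ hcard) hP)
  set v := (x0.val + u) % M with hv
  have h0 := h x0.val (Finset.mem_insert_self _ _)
  refine ⟨x0 - (v : ZMod (M * n)), v, by ring, h0.1, h0.2, fun p hp => ?_⟩
  have h1 := h p.val (Finset.mem_insert_of_mem (Finset.mem_image_of_mem _ hp))
  have key : (p - (x0 - (v : ZMod (M * n)))).val % M = (p.val + u) % M := by
    have e1 : (((p - (x0 - (v : ZMod (M * n)))).val : ℕ) : ZMod M) = ((p.val + u : ℕ) : ZMod M) := by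
      have hd : M ∣ M * n := dvd_mul_right M n
      have c1 : ∀ z : ZMod (M * n), ((z.val : ℕ) : ZMod M) = ZMod.castHom hd (ZMod M) z := by
        intro z
        rw [ZMod.castHom_apply, ZMod.cast_eq_val]
      rw [c1, map_sub, map_sub, map_natCast]
      push_cast
      rw [c1 p]
      have c2 : ((v : ℕ) : ZMod M) = ((x0.val + u : ℕ) : ZMod M) := by
        rw [hv]
        exact ZMod.natCast_mod _ _
      rw [c2]
      push_cast
      rw [c1 x0]
      ring
    exact (ZMod.natCast_eq_natCast_iff' _ _ _).1 e1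
  rw [key]
  exact h1

/-- **choice of the grid** -/
theorem grid_choice {M n κ : ℕ} [NeZero (M * n)] (x0 : Tor (M * n)) (P : Finset (Tor (M * n)))
    (hP : (P.card + 1) * (2 * κ) < M) :
    ∃ (s : Tor (M * n)) (v1 v2 : ℕ), ((v1 : ZMod (M * n)), (v2 : ZMod (M * n))) + s = x0 ∧
      (κ ≤ v1 ∧ v1 + κ + 1 ≤ M) ∧ (κ ≤ v2 ∧ v2 + κ + 1 ≤ M) ∧
      ∀ p ∈ P, (κ ≤ (p - s).1.val % M ∧ (p - s).1.val % M + κ + 1 ≤ M) ∧
        (κ ≤ (p - s).2.val % M ∧ (p - s).2.val % M + κ + 1 ≤ M) := by
  classical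
  have hc1 : ((P.image Prod.fst).card + 1) * (2 * κ) < M :=
    lt_of_le_of_lt (Nat.mul_le_mul_right _ (Nat.add_le_add_right Finset.card_image_le 1)) hP
  have hc2 : ((P.image Prod.snd).card + 1) * (2 * κ) < M :=
    lt_of_le_of_lt (Nat.mul_le_mul_right _ (Nat.add_le_add_right Finset.card_image_le 1)) hP
  obtain ⟨s1, v1, h1, h2, h3, h4⟩ := grid_coord x0.1 (P.image Prod.fst) hc1
  obtain ⟨s2, v2, k1, k2, k3, k4⟩ := grid_coord x0.2 (P.image Prod.snd) hc2
  refine ⟨(s1, s2), v1, v2, ?_, ⟨h2, h3⟩, ⟨k2, k3⟩, fun p hp => ⟨?_, ?_⟩⟩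
  · refine Prod.ext ?_ ?_
    · rw [Prod.fst_add, add_comm]
      exact h1
    · rw [Prod.snd_add, add_comm]
      exact k1
  · exact h4 p.1 (Finset.mem_image_of_mem _ hp)
  · exact k4 p.2 (Finset.mem_image_of_mem _ hp)

end Vale.Agent.P159.H474.Cb
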