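import Vale.Agent.P159.H474.Cb2

/-!
P159, helper474, module CB, part 3: torus data with site and edge weights, folded data, and the
chessboard inequality with a local functional.

`Dat a c A` : site weights `f`, weights `H` of the edges `x → x + (1, 0)`, weights `V` of the edges
`x → x + (0, 1)`, states in any type `A`. `tot D σ` the weight of a configuration.
`fold D i j` : the folded data of the closed block `(i, j)` on the torus of side `2 (m + 1)`.
`chess_loc` : `∑ σ, tot D σ * G (σ on the block (i₀, j₀))` is at most the product over the blocks of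
the partition functions of the folded data to the power `1/4`, with `G` kept in the block `(i₀, j₀)`.
-/

namespace Vale.Agent.P159.H474.Cb

open Finset
open scoped ENNReal
open Vale.Agent.P159.H963.Chess

noncomputable section

/-- data on a torus -/
structure Dat (a c : ℕ) (A : Type*) where
  /-- site weights -/
  f : ZMod a → ZMod c → A → ℝ≥0∞
  /-- weights of the edges `x → x + (1, 0)` -/
  H : ZMod a → ZMod c → A → A → ℝ≥0∞
  /-- weights of the edges `x → x + (0, 1)` -/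
  V : ZMod a → ZMod c → A → A → ℝ≥0∞

variable {A : Type*}

/-- weight of a configuration -/
def tot {a c : ℕ} [NeZero a] [NeZero c] (D : Dat a c A) (σ : ZMod a → ZMod c → A) : ℝ≥0∞ :=
  (∏ x, ∏ y, D.f x y (σ x y)) * (∏ x, ∏ y, D.H x y (σ x y) (σ (x + 1) y)) *
    ∏ x, ∏ y, D.V x y (σ x y) (σ x (y + 1))

/-- partition function -/
def ZD {a c : ℕ} [NeZero a] [NeZero c] (D : Dat a c A) : ℝ≥0∞ := ∑' σ, tot D σ

/-- weight of a closed block -/
def bw {n n' : ℕ} (m m' : ℕ) (D : Dat ((m + 1) * n) ((m' + 1) * n') A) (i j : ℕ)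
    (τ : Fin (m + 2) → Fin (m' + 2) → A) : ℝ≥0∞ :=
  (∏ a : Fin (m + 2), ∏ b : Fin (m' + 2),
      (D.f (((m + 1) * i + a : ℕ) : ZMod ((m + 1) * n))
        (((m' + 1) * j + b : ℕ) : ZMod ((m' + 1) * n')) (τ a b) ^ ex m' b) ^ ex m a) *
    (∏ a : Fin (m + 1), ∏ b : Fin (m' + 2),
      D.H (((m + 1) * i + a : ℕ) : ZMod ((m + 1) * n))
        (((m' + 1) * j + b : ℕ) : ZMod ((m' + 1) * n')) (τ a.castSucc b) (τ a.succ b) ^ ex m' b) *
    ∏ a : Fin (m + 2), ∏ b : Fin (m' + 1),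
      D.V (((m + 1) * i + a : ℕ) : ZMod ((m + 1) * n))
        (((m' + 1) * j + b : ℕ) : ZMod ((m' + 1) * n')) (τ a b.castSucc) (τ a b.succ) ^ ex m a

variable {m n m' n' : ℕ} [NeZero ((m + 1) * (n + 1))] [NeZero ((m' + 1) * (n' + 1))]

/-- products of a function of the sites with the two exponents -/
lemma prod_sites (g : ZMod ((m + 1) * (n + 1)) → ZMod ((m' + 1) * (n' + 1)) → ℝ≥0∞) :
    ∏ i : Fin (n + 1), ∏ j : Fin (n' + 1), ∏ a : Fin (m + 2), ∏ b : Fin (m' + 2),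
      (g (((m + 1) * i + a : ℕ) : ZMod ((m + 1) * (n + 1)))
        (((m' + 1) * j + b : ℕ) : ZMod ((m' + 1) * (n' + 1))) ^ ex m' b) ^ ex m a =
    ∏ x, ∏ y, g x y := by
  have h1 : ∀ x, ∏ j : Fin (n' + 1), ∏ b : Fin (m' + 2),
      g x (((m' + 1) * j + b : ℕ) : ZMod ((m' + 1) * (n' + 1))) ^ ex m' b = ∏ y, g x y :=
    fun x => prod_slab_ex m' n' fun y => g x y
  have h2 := prod_slab_ex m n fun x => ∏ y, g x y
  rw [← h2]
  refine Finset.prod_congr rfl fun i _ => ?_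
  rw [Finset.prod_comm]
  refine Finset.prod_congr rfl fun a _ => ?_
  rw [← h1, ← ENNReal.prod_rpow_of_nonneg (ex_nonneg m a)]
  refine Finset.prod_congr rfl fun j _ => ?_
  exact ENNReal.prod_rpow_of_nonneg (ex_nonneg m a)

/-- horizontal edges -/
lemma prod_hor (g : ZMod ((m + 1) * (n + 1)) → ZMod ((m' + 1) * (n' + 1)) → ℝ≥0∞) :
    ∏ i : Fin (n + 1), ∏ j : Fin (n' + 1), ∏ a : Fin (m + 1), ∏ b : Fin (m' + 2),
      g (((m + 1) * i + a : ℕ) : ZMod ((m + 1) * (n + 1)))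
        (((m' + 1) * j + b : ℕ) : ZMod ((m' + 1) * (n' + 1))) ^ ex m' b =
    ∏ x, ∏ y, g x y := by
  have h1 : ∀ x, ∏ j : Fin (n' + 1), ∏ b : Fin (m' + 2),
      g x (((m' + 1) * j + b : ℕ) : ZMod ((m' + 1) * (n' + 1))) ^ ex m' b = ∏ y, g x y :=
    fun x => prod_slab_ex m' n' fun y => g x y
  have h2 := prod_slab m (n + 1) fun x => ∏ y, g x y
  rw [← h2]
  refine Finset.prod_congr rfl fun i _ => ?_
  rw [Finset.prod_comm]
  refine Finset.prod_congr rfl fun a _ => ?_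
  rw [← h1]

/-- vertical edges -/
lemma prod_ver (g : ZMod ((m + 1) * (n + 1)) → ZMod ((m' + 1) * (n' + 1)) → ℝ≥0∞) :
    ∏ i : Fin (n + 1), ∏ j : Fin (n' + 1), ∏ a : Fin (m + 2), ∏ b : Fin (m' + 1),
      g (((m + 1) * i + a : ℕ) : ZMod ((m + 1) * (n + 1)))
        (((m' + 1) * j + b : ℕ) : ZMod ((m' + 1) * (n' + 1))) ^ ex m a =
    ∏ x, ∏ y, g x y := by
  have h1 : ∀ x, ∏ j : Fin (n' + 1), ∏ b : Fin (m' + 1),
      g x (((m' + 1) * j + b : ℕ) : ZMod ((m' + 1) * (n' + 1))) = ∏ y, g x y :=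
    fun x => prod_slab m' (n' + 1) fun y => g x y
  have h2 := prod_slab_ex m n fun x => ∏ y, g x y
  rw [← h2]
  refine Finset.prod_congr rfl fun i _ => ?_
  rw [Finset.prod_comm]
  refine Finset.prod_congr rfl fun a _ => ?_
  rw [← h1, ← ENNReal.prod_rpow_of_nonneg (ex_nonneg m a)]
  refine Finset.prod_congr rfl fun j _ => ?_
  exact ENNReal.prod_rpow_of_nonneg (ex_nonneg m a)

/-- **the weight is the product of the block weights** -/
lemma prod_bw (D : Dat ((m + 1) * (n + 1)) ((m' + 1) * (n' + 1)) A)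
    (σ : ZMod ((m + 1) * (n + 1)) → ZMod ((m' + 1) * (n' + 1)) → A) :
    ∏ i : Fin (n + 1), ∏ j : Fin (n' + 1), bw m m' D i j (blk m m' σ i j) = tot D σ := by
  unfold bw tot
  simp only [Finset.prod_mul_distrib]
  congr 1
  · congr 1
    · exact prod_sites fun x y => D.f x y (σ x y)
    · rw [← prod_hor fun x y => D.H x y (σ x y) (σ (x + 1) y)]
      refine Finset.prod_congr rfl fun i _ => Finset.prod_congr rfl fun j _ =>
        Finset.prod_congr rfl fun a _ => Finset.prod_congr rfl fun b _ => ?_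
      unfold blk
      rw [Fin.val_castSucc, Fin.val_succ, ← add_assoc]
      push_cast
      rfl
  · rw [← prod_ver fun x y => D.V x y (σ x y) (σ x (y + 1))]
    refine Finset.prod_congr rfl fun i _ => Finset.prod_congr rfl fun j _ =>
      Finset.prod_congr rfl fun a _ => Finset.prod_congr rfl fun b _ => ?_
    unfold blk
    rw [Fin.val_castSucc, Fin.val_succ, ← add_assoc]
    push_cast
    rfl

/-! ### folded data -/

/-- the folded data of the closed block `(i, j)` -/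
def fold {n n' : ℕ} (m m' : ℕ) (D : Dat ((m + 1) * n) ((m' + 1) * n') A) (i j : ℕ) :
    Dat ((m + 1) * 2) ((m' + 1) * 2) A where
  f x y := D.f (((m + 1) * i + fo m x : ℕ) : ZMod ((m + 1) * n))
    (((m' + 1) * j + fo m' y : ℕ) : ZMod ((m' + 1) * n'))
  H x y := fe m (fun a => D.H (((m + 1) * i + a : ℕ) : ZMod ((m + 1) * n))
    (((m' + 1) * j + fo m' y : ℕ) : ZMod ((m' + 1) * n'))) x
  V x y := fe m' (fun b => D.V (((m + 1) * i + fo m x : ℕ) : ZMod ((m + 1) * n))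
    (((m' + 1) * j + b : ℕ) : ZMod ((m' + 1) * n'))) y

lemma prod_two {α β : Type*} [Fintype α] [Fintype β] (f g : α → β → ℝ≥0∞) :
    (∏ a, ∏ b, f a b) * (∏ a, ∏ b, g a b) = ∏ a, ∏ b, f a b * g a b := by
  simp only [Finset.prod_mul_distrib]

section fold

variable {n n' : ℕ} [NeZero ((m + 1) * 2)] [NeZero ((m' + 1) * 2)]

/-- four quadrants, sites -/
lemma quad_sites (F : ℕ → ℕ → A → ℝ≥0∞) (τ : ZMod ((m + 1) * 2) → ZMod ((m' + 1) * 2) → A) :
    W4 m m' (fun t => ∏ a : Fin (m + 2), ∏ b : Fin (m' + 2),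
      (F a b (t a b) ^ ex m' b) ^ ex m a) τ = ∏ x, ∏ y, F (fo m x) (fo m' y) (τ x y) := by
  unfold W4
  have h1 : ∀ (u : Fin (m' + 2) → ZMod ((m' + 1) * 2)),
      (∏ a : Fin (m + 2), ∏ b : Fin (m' + 2),
          (F a b (τ ((a : ℕ) : ZMod ((m + 1) * 2)) (u b)) ^ ex m' b) ^ ex m a) *
        (∏ a : Fin (m + 2), ∏ b : Fin (m' + 2),
          (F a b (τ (-((a : ℕ) : ZMod ((m + 1) * 2))) (u b)) ^ ex m' b) ^ ex m a) =
      ∏ x, ∏ b : Fin (m' + 2), F (fo m x) b (τ x (u b)) ^ ex m' b := by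
    intro u
    have h2 := fold_sites m (fun a (s : Fin (m' + 2) → A) =>
      ∏ b : Fin (m' + 2), F a b (s b) ^ ex m' b) fun x b => τ x (u b)
    rw [← h2]
    congr 1
    · refine Finset.prod_congr rfl fun a _ => ?_
      exact ENNReal.prod_rpow_of_nonneg (ex_nonneg m a)
    · refine Finset.prod_congr rfl fun a _ => ?_
      exact ENNReal.prod_rpow_of_nonneg (ex_nonneg m a)
  rw [h1 fun b => ((b : ℕ) : ZMod ((m' + 1) * 2)), h1 fun b => -((b : ℕ) : ZMod ((m' + 1) * 2)),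
    ← Finset.prod_mul_distrib]
  refine Finset.prod_congr rfl fun x _ => ?_
  exact fold_sites m' (fun b s => F (fo m x) b s) fun y => τ x y

/-- four quadrants, horizontal edges -/
lemma quad_hor (K : ℕ → ℕ → A → A → ℝ≥0∞) (τ : ZMod ((m + 1) * 2) → ZMod ((m' + 1) * 2) → A) :
    W4 m m' (fun t => ∏ a : Fin (m + 1), ∏ b : Fin (m' + 2),
      K a b (t a.castSucc b) (t a.succ b) ^ ex m' b) τ =
    ∏ x, ∏ y, fe m (fun a => K a (fo m' y)) x (τ x y) (τ (x + 1) y) := by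
  unfold W4
  have h1 : ∀ (u : Fin (m' + 2) → ZMod ((m' + 1) * 2)),
      (∏ a : Fin (m + 1), ∏ b : Fin (m' + 2),
          K a b (τ (((a.castSucc : Fin (m + 2)) : ℕ) : ZMod ((m + 1) * 2)) (u b))
            (τ (((a.succ : Fin (m + 2)) : ℕ) : ZMod ((m + 1) * 2)) (u b)) ^ ex m' b) *
        (∏ a : Fin (m + 1), ∏ b : Fin (m' + 2),
          K a b (τ (-(((a.castSucc : Fin (m + 2)) : ℕ) : ZMod ((m + 1) * 2))) (u b))
            (τ (-(((a.succ : Fin (m + 2)) : ℕ) : ZMod ((m + 1) * 2))) (u b)) ^ ex m' b) =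
      ∏ x, ∏ b : Fin (m' + 2), fe m (fun a => K a b) x (τ x (u b)) (τ (x + 1) (u b)) ^ ex m' b := by
    intro u
    have h2 := fold_edges m (fun a (s s' : Fin (m' + 2) → A) =>
      ∏ b : Fin (m' + 2), K a b (s b) (s' b) ^ ex m' b) fun x b => τ x (u b)
    have h3 : ∀ x : ZMod ((m + 1) * 2), fe m (fun a (s s' : Fin (m' + 2) → A) =>
        ∏ b : Fin (m' + 2), K a b (s b) (s' b) ^ ex m' b) x (fun b => τ x (u b))
          (fun b => τ (x + 1) (u b)) =
        ∏ b : Fin (m' + 2), fe m (fun a => K a b) x (τ x (u b)) (τ (x + 1) (u b)) ^ ex m' b := by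
      intro x
      unfold fe
      split_ifs <;> rfl
    simp only [h3] at h2
    rw [← h2]
    simp only [Fin.val_castSucc, Fin.val_succ]
  rw [h1 fun b => ((b : ℕ) : ZMod ((m' + 1) * 2)), h1 fun b => -((b : ℕ) : ZMod ((m' + 1) * 2)),
    ← Finset.prod_mul_distrib]
  refine Finset.prod_congr rfl fun x _ => ?_
  exact fold_sites m' (fun b (s : A × A) => fe m (fun a => K a b) x s.1 s.2)
    fun y => (τ x y, τ (x + 1) y)

/-- four quadrants, vertical edges -/
lemma quad_ver (K : ℕ → ℕ → A → A → ℝ≥0∞) (τ : ZMod ((m + 1) * 2) → ZMod ((m' + 1) * 2) → A) :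
    W4 m m' (fun t => ∏ a : Fin (m + 2), ∏ b : Fin (m' + 1),
      K a b (t a b.castSucc) (t a b.succ) ^ ex m a) τ =
    ∏ x, ∏ y, fe m' (fun b => K (fo m x) b) y (τ x y) (τ x (y + 1)) := by
  unfold W4
  have h1 : ∀ (u u' : Fin (m' + 1) → ZMod ((m' + 1) * 2)),
      (∏ a : Fin (m + 2), ∏ b : Fin (m' + 1),
          K a b (τ ((a : ℕ) : ZMod ((m + 1) * 2)) (u b))
            (τ ((a : ℕ) : ZMod ((m + 1) * 2)) (u' b)) ^ ex m a) *
        (∏ a : Fin (m + 2), ∏ b : Fin (m' + 1),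
          K a b (τ (-((a : ℕ) : ZMod ((m + 1) * 2))) (u b))
            (τ (-((a : ℕ) : ZMod ((m + 1) * 2))) (u' b)) ^ ex m a) =
      ∏ x, ∏ b : Fin (m' + 1), K (fo m x) b (τ x (u b)) (τ x (u' b)) := by
    intro u u'
    have h2 := fold_sites m (fun a (s : Fin (m' + 1) → A × A) =>
      ∏ b : Fin (m' + 1), K a b (s b).1 (s b).2) fun x b => (τ x (u b), τ x (u' b))
    rw [← h2]
    congr 1
    · refine Finset.prod_congr rfl fun a _ => ?_
      exact ENNReal.prod_rpow_of_nonneg (ex_nonneg m a)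
    · refine Finset.prod_congr rfl fun a _ => ?_
      exact ENNReal.prod_rpow_of_nonneg (ex_nonneg m a)
  rw [h1 (fun b => (((b.castSucc : Fin (m' + 2)) : ℕ) : ZMod ((m' + 1) * 2)))
      fun b => (((b.succ : Fin (m' + 2)) : ℕ) : ZMod ((m' + 1) * 2)),
    h1 (fun b => -(((b.castSucc : Fin (m' + 2)) : ℕ) : ZMod ((m' + 1) * 2)))
      fun b => -(((b.succ : Fin (m' + 2)) : ℕ) : ZMod ((m' + 1) * 2)),
    ← Finset.prod_mul_distrib]
  refine Finset.prod_congr rfl fun x _ => ?_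
  rw [← fold_edges m' (fun b s s' => K (fo m x) b s s') fun y => τ x y]
  simp only [Fin.val_castSucc, Fin.val_succ]

/-- **the four quadrants of a block weight are the weight of the folded data** -/
lemma W4_bw (D : Dat ((m + 1) * n) ((m' + 1) * n') A) (i j : ℕ)
    (τ : ZMod ((m + 1) * 2) → ZMod ((m' + 1) * 2) → A) :
    W4 m m' (bw m m' D i j) τ = tot (fold m m' D i j) τ := by
  have h1 := quad_sites (m := m) (m' := m') (fun a b =>
    D.f (((m + 1) * i + a : ℕ) : ZMod ((m + 1) * n))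
      (((m' + 1) * j + b : ℕ) : ZMod ((m' + 1) * n'))) τ
  have h2 := quad_hor (m := m) (m' := m') (fun a b =>
    D.H (((m + 1) * i + a : ℕ) : ZMod ((m + 1) * n))
      (((m' + 1) * j + b : ℕ) : ZMod ((m' + 1) * n'))) τ
  have h3 := quad_ver (m := m) (m' := m') (fun a b =>
    D.V (((m + 1) * i + a : ℕ) : ZMod ((m + 1) * n))
      (((m' + 1) * j + b : ℕ) : ZMod ((m' + 1) * n'))) τ
  unfold tot fold
  simp only
  rw [← h1, ← h2, ← h3]
  unfold W4 bw
  ring

end fold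

/-- **the chessboard inequality with a local functional** -/
theorem chess_loc {m n m' n' : ℕ} [NeZero ((m + 1) * (n + 2))] [NeZero ((m' + 1) * (n' + 2))]
    [NeZero ((m + 1) * 2)] [NeZero ((m' + 1) * 2)]
    (D : Dat ((m + 1) * (n + 2)) ((m' + 1) * (n' + 2)) A) (i₀ : Fin (n + 2)) (j₀ : Fin (n' + 2))
    (G : (Fin (m + 2) → Fin (m' + 2) → A) → ℝ≥0∞) (hG : ∀ τ, G τ ≤ 1) :
    ∑' σ, tot D σ * G (blk m m' σ i₀ j₀) ≤
      (∑' τ, tot (fold m m' D i₀ j₀) τ * G fun a b => τ ((a : ℕ) : ZMod ((m + 1) * 2))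
        ((b : ℕ) : ZMod ((m' + 1) * 2))) ^ (1 / 4 : ℝ) *
      ∏ p ∈ (univ : Finset (Fin (n + 2) × Fin (n' + 2))).erase (i₀, j₀),
        ZD (fold m m' D p.1 p.2) ^ (1 / 4 : ℝ) := by
  classical
  have h1 := hs2 (A := A) m n m' n' fun i j τ =>
    bw m m' D i j τ * if i = i₀ ∧ j = j₀ then G τ else 1
  have e1 : ∀ σ : ZMod ((m + 1) * (n + 2)) → ZMod ((m' + 1) * (n' + 2)) → A,
      (∏ i : Fin (n + 2), ∏ j : Fin (n' + 2), bw m m' D i j (blk m m' σ i j) *
        if i = i₀ ∧ j = j₀ then G (blk m m' σ i j) else 1) =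
      tot D σ * G (blk m m' σ i₀ j₀) := by
    intro σ
    rw [← prod_bw D σ]
    simp only [Finset.prod_mul_distrib]
    congr 1
    rw [← Fintype.prod_prod_type' (f := fun i j =>
      if i = i₀ ∧ j = j₀ then G (blk m m' σ i j) else 1)]
    rw [Finset.prod_eq_single (i₀, j₀)]
    · simp
    · intro p _ hp
      rw [if_neg]
      intro h
      exact hp (Prod.ext h.1 h.2)
    · intro h
      exact absurd (Finset.mem_univ _) h
  simp only [e1] at h1
  refine h1.trans ?_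
  rw [← Fintype.prod_prod_type' (f := fun (i : Fin (n + 2)) (j : Fin (n' + 2)) =>
    (∑' τ : ZMod ((m + 1) * 2) → ZMod ((m' + 1) * 2) → A, W4 m m' (fun τ => bw m m' D i j τ *
      if i = i₀ ∧ j = j₀ then G τ else 1) τ) ^ (1 / 4 : ℝ))]
  rw [← Finset.mul_prod_erase univ _ (Finset.mem_univ (i₀, j₀))]
  refine mul_le_mul' ?_ (Finset.prod_le_prod' fun p hp => ?_)
  · refine ENNReal.rpow_le_rpow (ENNReal.tsum_le_tsum fun τ => ?_) (by norm_num)
    rw [← W4_bw]
    unfold W4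
    simp only [and_self, if_true]
    set u1 : Fin (m + 2) → Fin (m' + 2) → A := fun a b => τ ((a : ℕ) : ZMod ((m + 1) * 2))
      ((b : ℕ) : ZMod ((m' + 1) * 2))
    set u2 : Fin (m + 2) → Fin (m' + 2) → A := fun a b => τ (-((a : ℕ) : ZMod ((m + 1) * 2)))
      ((b : ℕ) : ZMod ((m' + 1) * 2))
    set u3 : Fin (m + 2) → Fin (m' + 2) → A := fun a b => τ ((a : ℕ) : ZMod ((m + 1) * 2))
      (-((b : ℕ) : ZMod ((m' + 1) * 2)))
    set u4 : Fin (m + 2) → Fin (m' + 2) → A := fun a b => τ (-((a : ℕ) : ZMod ((m + 1) * 2)))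
      (-((b : ℕ) : ZMod ((m' + 1) * 2)))
    calc bw m m' D i₀ j₀ u1 * G u1 * (bw m m' D i₀ j₀ u2 * G u2) *
          (bw m m' D i₀ j₀ u3 * G u3 * (bw m m' D i₀ j₀ u4 * G u4))
        = bw m m' D i₀ j₀ u1 * bw m m' D i₀ j₀ u2 * (bw m m' D i₀ j₀ u3 * bw m m' D i₀ j₀ u4) *
            G u1 * (G u2 * G u3 * G u4) := by ring
      _ ≤ bw m m' D i₀ j₀ u1 * bw m m' D i₀ j₀ u2 * (bw m m' D i₀ j₀ u3 * bw m m' D i₀ j₀ u4) *
            G u1 * 1 := by
          refine mul_le_mul' le_rfl ?_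
          calc G u2 * G u3 * G u4 ≤ 1 * 1 * 1 :=
              mul_le_mul' (mul_le_mul' (hG _) (hG _)) (hG _)
            _ = 1 := by simp
      _ = _ := by rw [mul_one]
  · have hne : ¬ (p.1 = i₀ ∧ p.2 = j₀) := by
      intro h
      exact (Finset.mem_erase.1 hp).1 (Prod.ext h.1 h.2)
    refine le_of_eq ?_
    congr 1
    unfold ZD
    refine tsum_congr fun τ => ?_
    rw [← W4_bw]
    unfold W4
    simp only [if_neg hne, mul_one]

end

end Vale.Agent.P159.H474.Cb
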