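import Vale.Agent.P159.H963.Cbx2
import Vale.Agent.P159.H612.OscD2

/-!
P159, helper474, module CB, part 6: one copy with the data `(η, F)` on the torus in the letters of
the chessboard.

`ZM_wTD_le` : `Z(η, F) ≤ Z(0, 0)`.
`DC N b t η F : Dat N N ℤ`, `tot_DC`, `ZD_DC` : the partition function is `ZM (wTD N b η) (t • 1) F`.
`fold_DC` : the folded data are of the same form (`foE`, `foF`).
`chess_num` : the entangled chessboard with numbers.
-/

set_option linter.unusedSectionVars false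

namespace Vale.Agent.P159.H474.Cb

open scoped ENNReal
open Finset
open Vale.Agent.P159.H37
open Vale.Agent.P159.H770 (Ed eS eT wTD wTD_eq wTD_zero wTD_le wTD_pos eW eWF grd DisF)
open Vale.Agent.P159.TM.SpecC (Tor wT)
open Vale.Agent.P159.H353 (wI wI_neg wI_nonneg)
open Vale.Agent.P159.TM.H104 (EM)

noncomputable section

section dom

variable {N : ℕ} [NeZero N] {b : ℝ}

/-- a sum of Gaussians -/
lemma gauss_summable {V : Type*} [Fintype V] {m0 : ℝ} (hm0 : 0 < m0) :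
    Summable fun h : V → ℤ => Real.exp (-(m0 / 4 * ∑ x, (h x : ℝ) ^ 2)) := by
  classical
  have h1 : EM (wM (fun _ : V → ℤ => (1 : ℝ)) ((m0 / 2) • (1 : Matrix V V ℝ))) :=
    em_wM (Wb := 1) (fun _ => zero_le_one) (fun _ => le_rfl) ⟨0, one_pos⟩ (half_pos hm0)
      (fun u => by rw [qf_smul_one])
  have h2 := h1.sum 0
  refine h2.congr fun h => ?_
  unfold wM
  rw [zero_mul, Real.exp_zero, mul_one, one_mul, qf_smul_one]
  congr 1
  unfold re
  ring

/-- **the partition function is largest at zero data** -/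
theorem ZM_wTD_le (hb : 0 < b) {M : Matrix (Tor N) (Tor N) ℝ} (hMt : M.transpose = M) {m0 : ℝ}
    (hm0 : 0 < m0) (hM : ∀ u : Tor N → ℝ, m0 * ∑ x, u x ^ 2 ≤ qf M u) (η : Ed N → ℤ)
    (F : Tor N → ℝ) : ZM (wTD N b η) M F ≤ ZM (wT b N) M 0 := by
  have hW : DisF (eWF (eS N) (eT N) (fun _ => wI b) M) := H770.disF_torus_bg hb hMt hm0 hM
  set C : ℝ := wT b N 0 * Real.exp (m0 / 2 * Fintype.card (Tor N)) *
    ∑' h : Tor N → ℤ, Real.exp (-(m0 / 4 * ∑ x, (h x : ℝ) ^ 2)) with hC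
  have hsum := gauss_summable (V := Tor N) hm0
  have bound : ∀ (η : Ed N → ℤ) (F : Tor N → ℝ), (∀ x, |F x| ≤ 1) →
      ZM (wTD N b η) M F ≤ C := by
    intro η F hF
    unfold ZM
    rw [hC, ← tsum_mul_left]
    have key : ∀ h : Tor N → ℤ, wTD N b η h * Real.exp (-(qf M (re h - F) / 2)) ≤
        wT b N 0 * Real.exp (m0 / 2 * Fintype.card (Tor N)) *
          Real.exp (-(m0 / 4 * ∑ x, (h x : ℝ) ^ 2)) := by
      intro h
      rw [mul_assoc, ← Real.exp_add]
      refine mul_le_mul (wTD_le hb η h) (Real.exp_le_exp.2 ?_) (Real.exp_pos _).le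
        ((wTD_pos hb η h).le.trans (wTD_le hb η h))
      have h1 := hM (re h - F)
      have h2 : ∑ x, (h x : ℝ) ^ 2 / 2 - Fintype.card (Tor N) ≤ ∑ x, (re h - F) x ^ 2 := by
        have e : (Fintype.card (Tor N) : ℝ) = ∑ _x : Tor N, (1 : ℝ) := by simp
        rw [e, ← Finset.sum_sub_distrib]
        refine Finset.sum_le_sum fun x _ => ?_
        have h3 : F x ^ 2 ≤ 1 := by
          have := abs_le.1 (hF x)
          nlinarith
        simp only [Pi.sub_apply, re]
        nlinarith [sq_nonneg ((h x : ℝ) - 2 * F x)]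
      rw [← Finset.sum_div] at h2
      nlinarith [mul_le_mul_of_nonneg_left h2 hm0.le]
    have hs2 : Summable fun h : Tor N → ℤ => wT b N 0 *
        Real.exp (m0 / 2 * Fintype.card (Tor N)) *
          Real.exp (-(m0 / 4 * ∑ x, (h x : ℝ) ^ 2)) := hsum.mul_left _
    exact Summable.tsum_le_tsum key (Summable.of_nonneg_of_le
      (fun h => mul_nonneg (wTD_pos hb η h).le (Real.exp_pos _).le) key hs2) hs2
  have h := hW.le_zero (C := C) (fun q => by
    rw [H770.Zs_eWF]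
    have e1 : q.2 = (fun x => Int.fract (q.2 x)) + re fun x => ⌊q.2 x⌋ := by
      funext x
      simp only [Pi.add_apply, re]
      exact (Int.fract_add_floor _).symm
    rw [e1, ← H770.ZM_gauge]
    exact bound _ _ fun x => by
      rw [abs_of_nonneg (Int.fract_nonneg _)]
      exact (Int.fract_lt_one _).le) (η, F)
  rw [H770.Zs_eWF, H770.Zs_eWF] at h
  have e0 : eW (eS N) (eT N) (fun _ => wI b) (0 : (Ed N → ℤ) × (Tor N → ℝ)).1 = wT b N :=
    wTD_zero b
  rw [e0] at h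
  exact h

/-- summability of the partition function -/
lemma summable_ZM (hb : 0 < b) {M : Matrix (Tor N) (Tor N) ℝ} {m0 : ℝ}
    (hm0 : 0 < m0) (hM : ∀ u : Tor N → ℝ, m0 * ∑ x, u x ^ 2 ≤ qf M u) (η : Ed N → ℤ)
    (F : Tor N → ℝ) : Summable fun h => wTD N b η h * Real.exp (-(qf M (re h - F) / 2)) := by
  set D : ℝ := ∑ x, F x ^ 2 with hD
  have hsum := gauss_summable (V := Tor N) hm0
  refine Summable.of_nonneg_of_le (fun h => mul_nonneg (wTD_pos hb η h).le (Real.exp_pos _).le)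
    (fun h => ?_) (hsum.mul_left (wT b N 0 * Real.exp (m0 / 2 * D)))
  rw [mul_assoc, ← Real.exp_add]
  refine mul_le_mul (wTD_le hb η h) (Real.exp_le_exp.2 ?_) (Real.exp_pos _).le
    ((wTD_pos hb η h).le.trans (wTD_le hb η h))
  have h1 := hM (re h - F)
  have h2 : ∑ x, (h x : ℝ) ^ 2 / 2 - D ≤ ∑ x, (re h - F) x ^ 2 := by
    rw [hD, ← Finset.sum_sub_distrib]
    refine Finset.sum_le_sum fun x _ => ?_
    simp only [Pi.sub_apply, re]
    nlinarith [sq_nonneg ((h x : ℝ) - 2 * F x)]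
  rw [← Finset.sum_div] at h2
  nlinarith [mul_le_mul_of_nonneg_left h2 hm0.le]

end dom

/-! ### the data of one copy -/

/-- one copy with the data `(η, F)` -/
def DC (N : ℕ) (b t : ℝ) (η : Ed N → ℤ) (F : Tor N → ℝ) : Dat N N ℤ where
  f x y h := ENNReal.ofReal (Real.exp (-(t * ((h : ℝ) - F (x, y)) ^ 2 / 2)))
  H x y h h' := ENNReal.ofReal (wI b (h' - h + η ((x, y), false)))
  V x y h h' := ENNReal.ofReal (wI b (h' - h + η ((x, y), true)))

section one

variable {N : ℕ} [NeZero N] {b t : ℝ}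

/-- the weight of one copy -/
def wDC (N : ℕ) [NeZero N] (b t : ℝ) (η : Ed N → ℤ) (F : Tor N → ℝ) (h : Tor N → ℤ) : ℝ :=
  wTD N b η h * Real.exp (-(qf (t • (1 : Matrix (Tor N) (Tor N) ℝ)) (re h - F) / 2))

lemma wDC_nonneg (hb : 0 < b) (η : Ed N → ℤ) (F : Tor N → ℝ) (h : Tor N → ℤ) :
    0 ≤ wDC N b t η F h := mul_nonneg (wTD_pos hb η h).le (Real.exp_pos _).le

theorem tot_DC (hb : 0 < b) (η : Ed N → ℤ) (F : Tor N → ℝ) (σ : ZMod N → ZMod N → ℤ) :
    tot (DC N b t η F) σ = ENNReal.ofReal (wDC N b t η F fun x => σ x.1 x.2) := by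
  have hw : ∀ n, 0 ≤ wI b n := fun n => wI_nonneg hb.le n
  have e1 : Real.exp (-(qf (t • (1 : Matrix (Tor N) (Tor N) ℝ)) (re (fun x => σ x.1 x.2) - F) / 2)) =
      ∏ x, ∏ y, Real.exp (-(t * ((σ x y : ℝ) - F (x, y)) ^ 2 / 2)) := by
    rw [qf_smul_one, Fintype.sum_prod_type]
    simp only [← Real.exp_sum]
    congr 1
    simp only [Pi.sub_apply, re, Finset.sum_neg_distrib, ← Finset.sum_div, ← Finset.mul_sum]
  have e2 : wTD N b η (fun x => σ x.1 x.2) =
      (∏ x, ∏ y, wI b (σ (x + 1) y - σ x y + η ((x, y), false))) *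
        ∏ x, ∏ y, wI b (σ x (y + 1) - σ x y + η ((x, y), true)) := by
    rw [wTD_eq, Fintype.prod_prod_type]
    simp only [Prod.mk_add_mk, add_zero, Finset.prod_mul_distrib]
  unfold wDC tot DC
  simp only
  rw [e1, e2, ENNReal.ofReal_mul (mul_nonneg (Finset.prod_nonneg fun _ _ =>
    Finset.prod_nonneg fun _ _ => hw _) (Finset.prod_nonneg fun _ _ =>
    Finset.prod_nonneg fun _ _ => hw _)), ENNReal.ofReal_mul (Finset.prod_nonneg fun _ _ =>
    Finset.prod_nonneg fun _ _ => hw _)]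
  rw [ENNReal.ofReal_prod_of_nonneg fun _ _ => Finset.prod_nonneg fun _ _ => hw _,
    ENNReal.ofReal_prod_of_nonneg fun _ _ => Finset.prod_nonneg fun _ _ => hw _,
    ENNReal.ofReal_prod_of_nonneg fun _ _ => Finset.prod_nonneg fun _ _ => (Real.exp_pos _).le]
  simp only [ENNReal.ofReal_prod_of_nonneg fun _ _ => hw _,
    ENNReal.ofReal_prod_of_nonneg fun _ _ => (Real.exp_pos _).le]
  ring

/-- sums over the curried configurations -/
lemma tsum_curry {A : Type*} (g : (Tor N → A) → ℝ≥0∞) :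
    ∑' σ : ZMod N → ZMod N → A, g (fun x => σ x.1 x.2) = ∑' h : Tor N → A, g h := by
  rw [← (Equiv.curry (ZMod N) (ZMod N) A).tsum_eq]
  rfl

theorem ZD_DC (hb : 0 < b) (ht : 0 < t) (η : Ed N → ℤ) (F : Tor N → ℝ) :
    ZD (DC N b t η F) =
      ENNReal.ofReal (ZM (wTD N b η) (t • (1 : Matrix (Tor N) (Tor N) ℝ)) F) := by
  unfold ZD
  simp only [tot_DC hb]
  rw [tsum_curry fun h => ENNReal.ofReal (wDC N b t η F h)]
  exact (ENNReal.ofReal_tsum_of_nonneg (wDC_nonneg hb η F)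
    (summable_ZM hb ht (H789.coer_smul t) η F)).symm

end one

/-! ### folded data -/

section fold

variable {b t : ℝ}

/-- folded background -/
def foF {n : ℕ} (m : ℕ) (F : Tor ((m + 1) * n) → ℝ) (i j : ℕ) (x : Tor ((m + 1) * 2)) : ℝ :=
  F ((((m + 1) * i + fo m x.1 : ℕ) : ZMod ((m + 1) * n)),
    (((m + 1) * j + fo m x.2 : ℕ) : ZMod ((m + 1) * n)))

/-- folded dislocation -/
def foE {n : ℕ} (m : ℕ) (η : Ed ((m + 1) * n) → ℤ) (i j : ℕ) (e : Ed ((m + 1) * 2)) : ℤ :=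
  if e.2 then
    (if e.1.2.val < m + 1 then
      η (((((m + 1) * i + fo m e.1.1 : ℕ) : ZMod ((m + 1) * n)),
        (((m + 1) * j + e.1.2.val : ℕ) : ZMod ((m + 1) * n))), true)
    else
      -η (((((m + 1) * i + fo m e.1.1 : ℕ) : ZMod ((m + 1) * n)),
        (((m + 1) * j + ((m + 1) * 2 - 1 - e.1.2.val) : ℕ) : ZMod ((m + 1) * n))), true))
  else
    (if e.1.1.val < m + 1 then
      η (((((m + 1) * i + e.1.1.val : ℕ) : ZMod ((m + 1) * n)),
        (((m + 1) * j + fo m e.1.2 : ℕ) : ZMod ((m + 1) * n))), false)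
    else
      -η (((((m + 1) * i + ((m + 1) * 2 - 1 - e.1.1.val) : ℕ) : ZMod ((m + 1) * n)),
        (((m + 1) * j + fo m e.1.2 : ℕ) : ZMod ((m + 1) * n))), false))

/-- **the folded data** -/
theorem fold_DC {n : ℕ} (m : ℕ) (η : Ed ((m + 1) * n) → ℤ) (F : Tor ((m + 1) * n) → ℝ)
    (i j : ℕ) : fold m m (DC ((m + 1) * n) b t η F) i j =
      DC ((m + 1) * 2) b t (foE m η i j) (foF m F i j) := by
  have hneg : ∀ (h h' k : ℤ), wI b (h - h' + k) = wI b (h' - h + -k) := by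
    intro h h' k
    rw [← wI_neg b (h - h' + k)]
    congr 1
    ring
  unfold fold DC
  congr 1
  · funext x y h h'
    unfold fe foE
    simp only [Bool.false_eq_true, if_false]
    split_ifs
    · rfl
    · rw [hneg]
  · funext x y h h'
    unfold fe foE
    simp only [if_true]
    split_ifs
    · rfl
    · rw [hneg]

/-- zero data on the closed block -/
lemma foF_zero {n : ℕ} (m : ℕ) {F : Tor ((m + 1) * n) → ℝ} {i j : ℕ}
    (h : ∀ a c : ℕ, a ≤ m + 1 → c ≤ m + 1 → F ((((m + 1) * i + a : ℕ) : ZMod ((m + 1) * n)),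
      (((m + 1) * j + c : ℕ) : ZMod ((m + 1) * n))) = 0) : foF m F i j = 0 := by
  funext x
  unfold foF fo
  exact h _ _ (by omega) (by omega)

lemma foE_zero {n : ℕ} (m : ℕ) {η : Ed ((m + 1) * n) → ℤ} {i j : ℕ} [NeZero ((m + 1) * 2)]
    (h0 : ∀ a c : ℕ, a < m + 1 → c ≤ m + 1 → η (((((m + 1) * i + a : ℕ) : ZMod ((m + 1) * n)),
      (((m + 1) * j + c : ℕ) : ZMod ((m + 1) * n))), false) = 0)
    (h1 : ∀ a c : ℕ, a ≤ m + 1 → c < m + 1 → η (((((m + 1) * i + a : ℕ) : ZMod ((m + 1) * n)),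
      (((m + 1) * j + c : ℕ) : ZMod ((m + 1) * n))), true) = 0) : foE m η i j = 0 := by
  funext e
  unfold foE fo
  have q1 := ZMod.val_lt e.1.1
  have q2 := ZMod.val_lt e.1.2
  simp only [Pi.zero_apply]
  split_ifs with c1 c2 c3
  · exact h1 _ _ (by omega) c2
  · rw [h1 _ _ (by omega) (by omega), neg_zero]
  · exact h0 _ _ c3 (by omega)
  · rw [h0 _ _ (by omega) (by omega), neg_zero]

end fold

end

end Vale.Agent.P159.H474.Cb
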