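import Vale.Agent.P159.H474.Cb10
import Vale.Agent.P159.H612.NeuG
import Vale.Agent.P159.H764.Qt4
import Vale.Agent.P159.H145.Dz7

/-!
P159, helper474, module CB, part 11: the zero background bracket of the Gram inequality in the letters
of helper612 (`EdM.neu_dd`, `EdM.neu_dd'`), and the volume number.

`ArmZ` : arms at zero background on the small torus; `loc_zero` : `loc_two` with `X = 0`;
`bracket_le` : `hbr` of `neu_dd`; `vol_num`, `armZ_num` : from Theorem A.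
-/

set_option linter.unusedSectionVars false

namespace Vale.Agent.P159.H474.Cb

open scoped ENNReal
open Finset
open Vale.Agent.P159.H37
open Vale.Agent.P159.TM
open Vale.Agent.P159.H770 (Ed eS eT wTD wTD_zero wTD_eq)
open Vale.Agent.P159.TM.SpecC (Tor wT)
open Vale.Agent.P159.H353 (wI wI_neg wI_nonneg)
open Vale.Agent.P159.H764 (VB Dp ArmLe)
open Vale.Agent.P159.TM.H459 (ball mem_ball sd sn)
open Vale.Agent.P159.H612 (zc zc_torus)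
open Vale.Agent.P159.TM.H104 (Lg)

noncomputable section

section neg

variable {N : ℕ} [NeZero N] {b t : ℝ}

lemma wDC_neg (η : Ed N → ℤ) (F : Tor N → ℝ) (h : Tor N → ℤ) :
    wDC N b t (-η) (-F) (-h) = wDC N b t η F h := by
  unfold wDC
  congr 1
  · rw [wTD_eq, wTD_eq]
    refine Finset.prod_congr rfl fun x _ => ?_
    have e1 : (-h) (x + (1, 0)) - (-h) x + (-η) (x, false) =
        -(h (x + (1, 0)) - h x + η (x, false)) := by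
      simp only [Pi.neg_apply]
      ring
    have e2 : (-h) (x + (0, 1)) - (-h) x + (-η) (x, true) =
        -(h (x + (0, 1)) - h x + η (x, true)) := by
      simp only [Pi.neg_apply]
      ring
    rw [e1, e2, wI_neg, wI_neg]
  · congr 2
    rw [qf_smul_one, qf_smul_one]
    have e : ∀ x, (re (-h) - -F) x ^ 2 = (re h - F) x ^ 2 := fun x => by
      simp only [Pi.sub_apply, Pi.neg_apply, re]
      push_cast
      ring
    simp only [e]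

lemma ZM_neg (η : Ed N → ℤ) (F : Tor N → ℝ) :
    ZM (wTD N b (-η)) (t • (1 : Matrix (Tor N) (Tor N) ℝ)) (-F) =
      ZM (wTD N b η) (t • (1 : Matrix (Tor N) (Tor N) ℝ)) F := by
  unfold ZM
  rw [← (Equiv.neg (Tor N → ℤ)).tsum_eq]
  exact tsum_congr fun h => wDC_neg (b := b) (t := t) η F h

lemma ZG_neg (X : GE N) : ZG N b t (-X) = ZG N b t X := ZM_neg X.1 X.2

end neg

section fneg

variable {m n : ℕ} [NeZero ((m + 1) * n)] [NeZero ((m + 1) * 2)]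

lemma foE_neg (η : Ed ((m + 1) * n) → ℤ) (i j : ℕ) : foE m (-η) i j = -foE m η i j := by
  funext e
  simp only [foE, Pi.neg_apply]
  split_ifs <;> rfl

lemma foF_neg (F : Tor ((m + 1) * n) → ℝ) (i j : ℕ) : foF m (-F) i j = -foF m F i j := rfl

end fneg

lemma trD_neg {N : ℕ} [NeZero N] (s : Tor N) (η : Ed N → ℤ) : trD s (-η) = -trD s η := rfl

lemma trF_neg {N : ℕ} [NeZero N] (s : Tor N) (F : Tor N → ℝ) : trF s (-F) = -trF s F := rfl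

section main

variable {m n : ℕ} [NeZero ((m + 1) * (n + 2))] [NeZero ((m + 1) * 2)] {b t : ℝ}

lemma QB.neg {X : GE ((m + 1) * (n + 2))} {s : Tor ((m + 1) * (n + 2))} {Q : ℝ}
    (h : QB m n b t X s Q) : QB m n b t (-X) s Q := by
  obtain ⟨q, h1, h2, h3⟩ := h
  refine ⟨q, h1, fun p hp => ?_, h3⟩
  rw [Prod.fst_neg, Prod.snd_neg, trD_neg, trF_neg, foE_neg, foF_neg, ZM_neg]
  exact h2 p hp

lemma Sup.neg {N : ℕ} [NeZero N] {X : GE N} {S : Finset (Tor N)} (h : Sup X S) : Sup (-X) S :=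
  ⟨fun e he => by rw [Prod.fst_neg, Pi.neg_apply, h.e e he, neg_zero],
    fun v hv => by rw [Prod.snd_neg, Pi.neg_apply, h.f v hv, neg_zero]⟩

/-- arms at zero background on the torus of side `2 (m + 1)` -/
def ArmZ (m : ℕ) [NeZero ((m + 1) * 2)] (b : ℝ) (hb : 0 < b) (ξ ρ0 ρ : ℕ) (ε : ℝ) : Prop :=
  ∀ x0 : Tor ((m + 1) * 2), ArmLe ((m + 1) * 2) b hb.le ξ 0 x0 ρ0 ρ ε

/-- **`loc_two` at base `0`** -/
theorem loc_zero (hb : 0 < b) {ξ : ℕ} (hξ : 0 < ξ) (w : Tor ((m + 1) * (n + 2)))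
    {R0 l ρ0 ρ κ : ℕ} (h0 : 1 ≤ ρ0) (h1 : ρ0 ≤ ρ) (h2 : ρ + 1 ≤ κ) (h3 : 2 * (ρ0 + m + 3) ≤ l)
    {P W : GE ((m + 1) * (n + 2))} (hP : Sup P (ball w R0)) (hW : Sup W (Far w (R0 + l)))
    (Pc : Finset (Tor ((m + 1) * (n + 2)))) (hPc : (Pc.card + 1) * (2 * κ) < m + 1)
    (hPg : ∀ p ∈ Pc, sd w p ≤ R0 ∨ R0 + l ≤ sd w p)
    {ε : ℝ} (hε : 0 ≤ ε) (harm : ArmZ m b hb ξ ρ0 ρ ε) {QP QW QPW Q dl : ℝ}
    (qP : ∀ s, GOK m n κ Pc s → QB m n b (1 / (ξ : ℝ) ^ 2) P s QP)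
    (qW : ∀ s, GOK m n κ Pc s → QB m n b (1 / (ξ : ℝ) ^ 2) W s QW)
    (qPW : ∀ s, GOK m n κ Pc s → QB m n b (1 / (ξ : ℝ) ^ 2) (P + W) s QPW)
    (hQ1 : QPW ≤ Q) (hQ2 : QP * QW ≤ Q) (hQ : 0 ≤ Q)
    (hV : Vol m n b (1 / (ξ : ℝ) ^ 2) dl) :
    |ZG _ b (1 / (ξ : ℝ) ^ 2) (P + W) * ZG ((m + 1) * (n + 2)) b (1 / (ξ : ℝ) ^ 2) 0 -
        ZG _ b (1 / (ξ : ℝ) ^ 2) P * ZG _ b (1 / (ξ : ℝ) ^ 2) W| ≤
      (((m + 1) * (n + 2) / ρ0 + 1 : ℕ) : ℝ) ^ 2 * (ε ^ (1 / 4 : ℝ) * Q * Real.exp (2 * dl) *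
        Z0 ((m + 1) * (n + 2)) b (1 / (ξ : ℝ) ^ 2) ^ 2) := by
  have ht : 0 < 1 / (ξ : ℝ) ^ 2 := by positivity
  have h := loc_two (X := (0 : GE ((m + 1) * (n + 2)))) hb hξ w h0 h1 h2 h3 hP hW
    (fun e _ _ => rfl) Pc hPc hPg hε (fun s p _ _ => harm _)
    (fun s _ => QB_one hb ht 0 s) (by simpa only [zero_add] using qP)
    (by simpa only [zero_add] using qW) (by simpa only [zero_add] using qPW)
    (by rwa [mul_one]) hQ2 hQ hV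
  simpa only [zero_add] using h

/-- **the zero background bracket**, letters of helper612 -/
theorem bracket_le (hb : 0 < b) {ξ : ℕ} (hξ : 0 < ξ) (w : Tor ((m + 1) * (n + 2)))
    {R0 l ρ0 ρ κ : ℕ} (h0 : 1 ≤ ρ0) (h1 : ρ0 ≤ ρ) (h2 : ρ + 1 ≤ κ) (h3 : 2 * (ρ0 + m + 3) ≤ l)
    {P W : GE ((m + 1) * (n + 2))} (hP : Sup P (ball w R0)) (hW : Sup W (Far w (R0 + l)))
    (Pc : Finset (Tor ((m + 1) * (n + 2)))) (hPc : (Pc.card + 1) * (2 * κ) < m + 1)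
    (hPg : ∀ p ∈ Pc, sd w p ≤ R0 ∨ R0 + l ≤ sd w p)
    {ε : ℝ} (hε : 0 ≤ ε) (harm : ArmZ m b hb ξ ρ0 ρ ε) {QP QW Qp Qm Q dl : ℝ}
    (qP : ∀ s, GOK m n κ Pc s → QB m n b (1 / (ξ : ℝ) ^ 2) P s QP)
    (qW : ∀ s, GOK m n κ Pc s → QB m n b (1 / (ξ : ℝ) ^ 2) W s QW)
    (qp : ∀ s, GOK m n κ Pc s → QB m n b (1 / (ξ : ℝ) ^ 2) (P + W) s Qp)
    (qm : ∀ s, GOK m n κ Pc s → QB m n b (1 / (ξ : ℝ) ^ 2) (P - W) s Qm)
    (hQp : Qp ≤ Q) (hQm : Qm ≤ Q) (hQ2 : QP * QW ≤ Q) (hQ : 0 ≤ Q)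
    (hV : Vol m n b (1 / (ξ : ℝ) ^ 2) dl) :
    zc (eS ((m + 1) * (n + 2))) (eT _) (fun _ => wI b)
        ((1 / (ξ : ℝ) ^ 2) • (1 : Matrix _ _ ℝ)) (P + W) 0 *
        zc (eS ((m + 1) * (n + 2))) (eT _) (fun _ => wI b)
        ((1 / (ξ : ℝ) ^ 2) • (1 : Matrix _ _ ℝ)) 0 0 +
      zc (eS ((m + 1) * (n + 2))) (eT _) (fun _ => wI b)
        ((1 / (ξ : ℝ) ^ 2) • (1 : Matrix _ _ ℝ)) (P - W) 0 *
        zc (eS ((m + 1) * (n + 2))) (eT _) (fun _ => wI b)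
        ((1 / (ξ : ℝ) ^ 2) • (1 : Matrix _ _ ℝ)) 0 0 -
      2 * (zc (eS ((m + 1) * (n + 2))) (eT _) (fun _ => wI b)
        ((1 / (ξ : ℝ) ^ 2) • (1 : Matrix _ _ ℝ)) P 0 *
        zc (eS ((m + 1) * (n + 2))) (eT _) (fun _ => wI b)
        ((1 / (ξ : ℝ) ^ 2) • (1 : Matrix _ _ ℝ)) W 0) ≤
      2 * ((((m + 1) * (n + 2) / ρ0 + 1 : ℕ) : ℝ) ^ 2 *
        (ε ^ (1 / 4 : ℝ) * Q * Real.exp (2 * dl))) *
      zc (eS ((m + 1) * (n + 2))) (eT _) (fun _ => wI b)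
        ((1 / (ξ : ℝ) ^ 2) • (1 : Matrix _ _ ℝ)) 0 0 ^ 2 := by
  have e : ∀ X : GE ((m + 1) * (n + 2)),
      zc (eS ((m + 1) * (n + 2))) (eT _) (fun _ => wI b)
        ((1 / (ξ : ℝ) ^ 2) • (1 : Matrix _ _ ℝ)) X 0 = ZG _ b (1 / (ξ : ℝ) ^ 2) X := fun X => by
    rw [zc_torus, H145.cs_zero]
    rfl
  simp only [e]
  have u1 := loc_zero hb hξ w h0 h1 h2 h3 hP hW Pc hPc hPg hε harm qP qW qp hQp hQ2 hQ hV
  have u2 := loc_zero hb hξ w h0 h1 h2 h3 hP hW.neg Pc hPc hPg hε harm qP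
    (fun s hs => (qW s hs).neg) (by simpa only [← sub_eq_add_neg] using qm) hQm hQ2 hQ hV
  rw [← sub_eq_add_neg, ZG_neg] at u2
  rw [abs_le] at u1 u2
  have e0 : ZG ((m + 1) * (n + 2)) b (1 / (ξ : ℝ) ^ 2) 0 =
      Z0 ((m + 1) * (n + 2)) b (1 / (ξ : ℝ) ^ 2) := ZG_zero _ _ _
  rw [e0] at u1 u2 ⊢
  linarith [u1.2, u2.2]

end main

/-! ### numbers from Theorem A -/

section num

lemma log_Z0 {b t : ℝ} (N : ℕ) [NeZero N] : Real.log (Z0 N b t) = Lg (wt N b t) 0 := by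
  unfold Z0
  rw [ZM_eq _ (by rw [Matrix.transpose_smul, Matrix.transpose_one]), Matrix.mulVec_zero]
  have e : qf (t • (1 : Matrix (Tor N) (Tor N) ℝ)) 0 = 0 := by
    rw [qf_smul_one]
    simp
  rw [e, zero_div, neg_zero, Real.exp_zero, one_mul]
  rfl

lemma rng_cast {b1 b2 a W ys : ℝ} {X N N' : ℕ} [NeZero N] [NeZero N'] {b : ℝ} {ξ : ℕ} {y : ℝ}
    (h : N = N') (hR : Spec.Rng b1 b2 a W ys X N b ξ y) : Spec.Rng b1 b2 a W ys X N' b ξ y := by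
  subst h
  exact hR

/-- the two inputs of `loc_two` : arms in slowly varying backgrounds, and the volume number -/
structure LN (m n : ℕ) [NeZero ((m + 1) * (n + 2))] [NeZero ((m + 1) * 2)] (b : ℝ) (hb : 0 < b)
    (ξ A : ℕ) (L₀ c C : ℝ) : Prop where
  arm : ∀ f : Tor ((m + 1) * 2) → ℝ, Spec.LipS (2 * L₀ / ξ) f → ∀ (x0 : Tor ((m + 1) * 2)) (ρ : ℕ),
    ArmLe ((m + 1) * 2) b hb.le ξ f x0 (ξ / A) ρ (C * Real.exp (-(c * ρ / ξ)))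
  vol : Vol m n b (1 / (ξ : ℝ) ^ 2)
    (((n : ℝ) + 2) ^ 2 / 4 * (C * Real.exp (-(c * (2 * ((m : ℝ) + 1)) / ξ))))

/-- **the inputs from Theorem A** (the tori between `2 (m + 1)` and `N = (m + 1) (n + 2)`) -/
theorem ln_T {b1 b2 a : ℝ} (hb1 : 0 < b1) (hA6 : Spec.ThmA6 b1 b2 a) : ∃ W₀ : ℝ, ∀ W : ℝ,
    W₀ ≤ W → ∃ L₀ c C η ys : ℝ, ∃ A X : ℕ, 0 < L₀ ∧ 0 < c ∧ 0 < C ∧ 0 < η ∧ 0 < ys ∧ 8 ≤ A ∧
    A ≤ X ∧
    ∀ (m n J : ℕ) [NeZero ((m + 1) * (n + 2))] [NeZero ((m + 1) * 2)] (b : ℝ) (hb : 0 < b)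
      (ξ : ℕ), n + 2 = 2 ^ (J + 1) →
      (∀ k ≤ J, ∃ y : ℝ, Spec.Rng b1 b2 a W ys X (2 ^ k * (2 * (m + 1))) b ξ y ∧
        ((2 ^ k * (2 * (m + 1)) : ℕ) : ℝ) ^ 2 * y ≤ η * (ξ : ℝ) ^ 2) →
      LN m n b hb ξ A L₀ c C := by
  obtain ⟨W1, h1⟩ := H764.armLe_f (b2 := b2) (a := a) hb1 hA6
  obtain ⟨W2, h2⟩ := H145.Dz.dz_chess (b2 := b2) (a := a) hb1 hA6
  refine ⟨max W1 W2, fun W hW => ?_⟩
  obtain ⟨L₀, c, C, η, ys, A, X, hL, hc, hC, hη, hys, hA, hAX, h1⟩ :=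
    h1 W ((le_max_left _ _).trans hW)
  obtain ⟨c', C', η', ys', X', hc', hC', hη', hys', hX', h2⟩ := h2 W ((le_max_right _ _).trans hW)
  refine ⟨L₀, min c c', max C C', min η η', min ys ys', A, max X X', hL, lt_min hc hc',
    lt_max_of_lt_left hC, lt_min hη hη', lt_min hys hys', hA, hAX.trans (le_max_left _ _), ?_⟩
  intro m n J _ _ b hb ξ hn hR
  have hξ : 0 < ξ := by
    obtain ⟨y, hy, _⟩ := hR 0 (Nat.zero_le _)
    have := hy.hX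
    omega
  have hξr : (0 : ℝ) < ξ := by exact_mod_cast hξ
  constructor
  · intro f hf x0 ρ
    obtain ⟨y, hy, hyη⟩ := hR 0 (Nat.zero_le _)
    have hy' : Spec.Rng b1 b2 a W ys X ((m + 1) * 2) b ξ y :=
      rng_cast (by ring) (H857.rng_mono hy le_rfl (min_le_left _ _) (le_max_left _ _))
    have hyη' : (((m + 1) * 2 : ℕ) : ℝ) ^ 2 * y ≤ η * (ξ : ℝ) ^ 2 := by
      have e : ((2 ^ 0 * (2 * (m + 1)) : ℕ) : ℝ) = (((m + 1) * 2 : ℕ) : ℝ) := by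
        push_cast
        ring
      rw [e] at hyη
      exact hyη.trans (mul_le_mul_of_nonneg_right (min_le_left _ _) (by positivity))
    have h3 := h1 ((m + 1) * 2) b hb.le ξ y hy' hyη' f hf x0 ρ
    refine h3.trans (mul_le_mul_left (ENNReal.ofReal_le_ofReal ?_) _)
    have e1 : Real.exp (-(c * ρ / ξ)) ≤ Real.exp (-(min c c' * ρ / ξ)) := by
      refine Real.exp_le_exp.2 (neg_le_neg ?_)
      have := min_le_left c c'
      gcongr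
    exact mul_le_mul (le_max_left _ _) e1 (Real.exp_pos _).le (hC.le.trans (le_max_left _ _))
  · unfold Vol
    have h3 := h2 ((m + 1) * (n + 2)) (m + 1) (n + 2) J b ξ rfl hn fun k hk => by
      obtain ⟨y, hy, hyη⟩ := hR k hk.le
      exact ⟨y, H857.rng_mono hy le_rfl (min_le_right _ _) (le_max_right _ _),
        hyη.trans (mul_le_mul_of_nonneg_right (min_le_right _ _) (by positivity))⟩
    have e2 : Lg (wt (2 * (m + 1)) b (1 / (ξ : ℝ) ^ 2)) 0 =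
        Lg (wt ((m + 1) * 2) b (1 / (ξ : ℝ) ^ 2)) 0 := H145.Dz.Lg_congr (by ring) _ _
    rw [e2, ← log_Z0, ← log_Z0] at h3
    push_cast at h3
    refine h3.trans (mul_le_mul_of_nonneg_left ?_ (by positivity))
    have e1 : Real.exp (-(c' * (2 * ((m : ℝ) + 1)) / ξ)) ≤
        Real.exp (-(min c c' * (2 * ((m : ℝ) + 1)) / ξ)) := by
      refine Real.exp_le_exp.2 (neg_le_neg ?_)
      have := min_le_right c c'
      gcongr
    exact mul_le_mul (le_max_right _ _) e1 (Real.exp_pos _).le (hC'.le.trans (le_max_right _ _))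

end num

end

end Vale.Agent.P159.H474.Cb
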