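import Vale.Agent.P159.H963.Chess1

/-!
P159, helper474, module CB, part 1: one dimensional Hilbert-Schmidt chessboard for arbitrary
functions of the closed slabs of a cycle.

`hs1` : `∑ σ : ZMod (M n) → S, ∏ i, W i (σ on the closed slab i)`
`≤ ∏ i, (∑ τ : ZMod (2 M) → S, W i (τ on [0, M]) * W i (τ on [0, -M])) ^ (1/2)`.
-/

namespace Vale.Agent.P159.H474.Cb

open Finset
open scoped ENNReal
open Vale.Agent.P159.H963.Chess

noncomputable section

/-- product of sums -/
lemma tsum_pi {A : Type*} (n : ℕ) (g : Fin n → A → ℝ≥0∞) :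
    ∑' f : Fin n → A, ∏ i, g i (f i) = ∏ i, ∑' a, g i a := by
  induction n with
  | zero => simp
  | succ n ih =>
    rw [← (Fin.consEquiv fun _ : Fin (n + 1) => A).tsum_eq, ENNReal.tsum_prod',
      Fin.prod_univ_succ, ← ih fun i => g i.succ, ← ENNReal.tsum_mul_right]
    refine tsum_congr fun a => ?_
    rw [← ENNReal.tsum_mul_left]
    refine tsum_congr fun f => ?_
    rw [Fin.prod_univ_succ]
    rfl

/-! ### cyclic products of kernels -/

variable {S : Type*}

/-- open chain of `m` kernels with a function of the two ends -/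
def Oc (T : ℕ → S → S → ℝ≥0∞) (m : ℕ) (g : S → S → ℝ≥0∞) : ℝ≥0∞ :=
  ∑' σ : Fin (m + 1) → S, (∏ j : Fin m, T j (σ j.castSucc) (σ j.succ)) *
    g (σ 0) (σ (Fin.last m))

lemma Oc_zero (T : ℕ → S → S → ℝ≥0∞) (g : S → S → ℝ≥0∞) : Oc T 0 g = ∑' s, g s s := by
  unfold Oc
  rw [← (Equiv.funUnique (Fin 1) S).symm.tsum_eq]
  refine tsum_congr fun s => ?_
  simp

lemma Oc_succ (T : ℕ → S → S → ℝ≥0∞) (m : ℕ) (g : S → S → ℝ≥0∞) : Oc T (m + 1) g =
    Oc T m fun s t => ∑' s', T m t s' * g s s' := by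
  unfold Oc
  rw [← (Fin.snocEquiv fun _ : Fin (m + 2) => S).tsum_eq, ENNReal.tsum_prod', ENNReal.tsum_comm]
  refine tsum_congr fun σ => ?_
  rw [← ENNReal.tsum_mul_left]
  refine tsum_congr fun s' => ?_
  have e : (Fin.snocEquiv fun _ : Fin (m + 2) => S) (s', σ) =
      (Fin.snoc (α := fun _ => S) σ s' : Fin (m + 2) → S) := rfl
  rw [e]
  have h0 : (Fin.snoc (α := fun _ => S) σ s' : Fin (m + 2) → S) 0 = σ 0 := by
    have := Fin.snoc_castSucc (α := fun _ => S) s' σ 0
    rwa [Fin.castSucc_zero] at this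
  have h1 : ∀ j : Fin m, (Fin.snoc (α := fun _ => S) σ s' : Fin (m + 2) → S) j.castSucc.succ =
      σ j.succ := by
    intro j
    have := Fin.snoc_castSucc (α := fun _ => S) s' σ j.succ
    rwa [← Fin.succ_castSucc] at this
  have h2 : (Fin.snoc (α := fun _ => S) σ s' : Fin (m + 2) → S) (Fin.last m).succ = s' := by
    rw [Fin.succ_last, Fin.snoc_last]
  have hB : ∏ j : Fin (m + 1), T j ((Fin.snoc (α := fun _ => S) σ s' : Fin (m + 2) → S) j.castSucc)
      ((Fin.snoc (α := fun _ => S) σ s' : Fin (m + 2) → S) j.succ) =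
      (∏ j : Fin m, T j (σ j.castSucc) (σ j.succ)) * T m (σ (Fin.last m)) s' := by
    rw [Fin.prod_univ_castSucc, h2]
    simp only [Fin.snoc_castSucc, h1, Fin.val_castSucc, Fin.val_last]
  rw [hB, h0, Fin.snoc_last]
  ring

lemma Oc_eq (T : ℕ → S → S → ℝ≥0∞) (m : ℕ) (g : S → S → ℝ≥0∞) : Oc T (m + 1) g =
    ∑' s, ∑' t, chain T m s t * g s t := by
  induction m generalizing g with
  | zero =>
    rw [Oc_succ, Oc_zero]
    rfl
  | succ m ih =>
    rw [Oc_succ, ih]
    refine tsum_congr fun s => ?_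
    have e : ∀ t, chain T (m + 1) s t = ∑' s', chain T m s s' * T (m + 1) s' t := fun t => rfl
    simp only [e, ← ENNReal.tsum_mul_left, ← ENNReal.tsum_mul_right]
    rw [ENNReal.tsum_comm]
    refine tsum_congr fun t => tsum_congr fun t' => ?_
    ring

/-- the cyclic sum is the trace -/
lemma cyc_chain (T : ℕ → S → S → ℝ≥0∞) (m : ℕ) :
    ∑' σ : Fin (m + 2) → S, ∏ i : Fin (m + 2), T i (σ i) (σ (i + 1)) = tr (chain T (m + 1)) := by
  have h1 : ∀ σ : Fin (m + 2) → S, ∏ i : Fin (m + 2), T i (σ i) (σ (i + 1)) =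
      (∏ j : Fin (m + 1), T j (σ j.castSucc) (σ j.succ)) * T (m + 1) (σ (Fin.last (m + 1))) (σ 0) := by
    intro σ
    rw [Fin.prod_univ_castSucc, Fin.last_add_one, Fin.val_last]
    congr 1
    refine Finset.prod_congr rfl fun j _ => ?_
    rw [Fin.coeSucc_eq_succ, Fin.val_castSucc]
  simp only [h1]
  have h2 : ∑' σ : Fin (m + 2) → S, (∏ j : Fin (m + 1), T j (σ j.castSucc) (σ j.succ)) *
      T (m + 1) (σ (Fin.last (m + 1))) (σ 0) = Oc T (m + 1) fun s t => T (m + 1) t s := rfl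
  rw [h2, Oc_eq]
  rfl

/-- **Cauchy-Schwarz on a cycle of at least two kernels** -/
theorem cyc_le (m : ℕ) (T : Fin (m + 2) → S → S → ℝ≥0∞) :
    ∑' σ : Fin (m + 2) → S, ∏ i : Fin (m + 2), T i (σ i) (σ (i + 1)) ≤
      ∏ i, hs (T i) ^ (1 / 2 : ℝ) := by
  set T' : ℕ → S → S → ℝ≥0∞ := fun j => if h : j < m + 2 then T ⟨j, h⟩ else fun _ _ => 0 with hT
  have e : ∀ i : Fin (m + 2), T' i = T i := fun i => by simp [hT, i.2]
  have h := tr_chain T' m
  rw [← cyc_chain, Finset.prod_range fun i => hs (T' i) ^ (1 / 2 : ℝ)] at h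
  simpa only [e] using h

/-! ### paths in a slab -/

/-- the path with ends `s`, `s'` and interior `ω` -/
def pth (m : ℕ) (s : S) (ω : Fin m → S) (s' : S) : Fin (m + 2) → S :=
  Fin.snoc (α := fun _ => S) (Fin.cons (α := fun _ => S) s ω) s'

lemma pth_zero (m : ℕ) (s : S) (ω : Fin m → S) (s' : S) : pth m s ω s' 0 = s := by
  unfold pth
  have h := Fin.snoc_castSucc (α := fun _ : Fin (m + 2) => S) s'
    (Fin.cons (α := fun _ => S) s ω) 0
  rw [Fin.castSucc_zero] at h
  rw [h, Fin.cons_zero]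

lemma pth_last (m : ℕ) (s : S) (ω : Fin m → S) (s' : S) : pth m s ω s' (Fin.last (m + 1)) = s' := by
  unfold pth
  rw [Fin.snoc_last]

lemma pth_mid (m : ℕ) (s : S) (ω : Fin m → S) (s' : S) (j : Fin m) :
    pth m s ω s' j.succ.castSucc = ω j := by
  unfold pth
  rw [Fin.snoc_castSucc, Fin.cons_succ]

/-- a function on `Fin (m + 2)` is a path -/
lemma eq_pth (m : ℕ) (f : Fin (m + 2) → S) {s s' : S} {ω : Fin m → S} (h0 : f 0 = s)
    (h1 : f (Fin.last (m + 1)) = s') (h2 : ∀ j : Fin m, f j.succ.castSucc = ω j) :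
    f = pth m s ω s' := by
  funext j
  refine Fin.lastCases ?_ (fun j => ?_) j
  · rw [h1, pth_last]
  · refine Fin.cases ?_ (fun j => ?_) j
    · rw [Fin.castSucc_zero, h0, pth_zero]
    · rw [h2, pth_mid]

/-! ### slabs of a cycle -/

/-- points of the cycle by slab and position -/
def slabE (m n : ℕ) [NeZero ((m + 1) * n)] : Fin n × Fin (m + 1) ≃ ZMod ((m + 1) * n) where
  toFun p := (((m + 1) * p.1 + p.2 : ℕ) : ZMod ((m + 1) * n))
  invFun x := (⟨x.val / (m + 1), Nat.div_lt_of_lt_mul (ZMod.val_lt x)⟩,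
    ⟨x.val % (m + 1), Nat.mod_lt _ (Nat.succ_pos m)⟩)
  left_inv p := by
    have h : (m + 1) * p.1.val + p.2.val < (m + 1) * n := by
      have h1 := p.1.2
      have h2 := p.2.2
      calc (m + 1) * p.1.val + p.2.val < (m + 1) * p.1.val + (m + 1) := by omega
        _ = (m + 1) * (p.1.val + 1) := by ring
        _ ≤ (m + 1) * n := Nat.mul_le_mul_left _ h1
    dsimp only
    simp only [ZMod.val_natCast_of_lt h]
    ext
    · show ((m + 1) * p.1.val + p.2.val) / (m + 1) = p.1.val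
      rw [Nat.mul_add_div (Nat.succ_pos m), Nat.div_eq_of_lt p.2.2, add_zero]
    · show ((m + 1) * p.1.val + p.2.val) % (m + 1) = p.2.val
      rw [Nat.mul_add_mod, Nat.mod_eq_of_lt p.2.2]
  right_inv x := by
    show (((m + 1) * (x.val / (m + 1)) + x.val % (m + 1) : ℕ) : ZMod ((m + 1) * n)) = x
    rw [Nat.div_add_mod, ZMod.natCast_zmod_val]

/-- configurations on the cycle by slabs -/
def cfgE (S : Type*) (m n : ℕ) [NeZero ((m + 1) * n)] :
    (Fin n → S × (Fin m → S)) ≃ (ZMod ((m + 1) * n) → S) :=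
  ((Equiv.piCongrRight fun _ : Fin n => (Fin.consEquiv fun _ : Fin (m + 1) => S)).trans
    (Equiv.curry (Fin n) (Fin (m + 1)) S).symm).trans (Equiv.arrowCongr (slabE m n) (Equiv.refl S))

lemma cfgE_apply (m n : ℕ) [NeZero ((m + 1) * n)] (p : Fin n → S × (Fin m → S)) (i : Fin n)
    (j : Fin (m + 1)) : cfgE S m n p (((m + 1) * i + j : ℕ) : ZMod ((m + 1) * n)) =
      (Fin.cons (α := fun _ => S) (p i).1 (p i).2 : Fin (m + 1) → S) j := by
  have h : (((m + 1) * i + j : ℕ) : ZMod ((m + 1) * n)) = slabE m n (i, j) := rfl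
  rw [h]
  unfold cfgE
  simp only [Equiv.trans_apply, Equiv.arrowCongr_apply, Function.comp_apply, Equiv.symm_apply_apply,
    Equiv.coe_refl, id_eq, Equiv.curry_symm_apply, Function.uncurry, Equiv.piCongrRight_apply]
  rfl

/-- the closed slab `i` -/
def slb {n : ℕ} (m : ℕ) (σ : ZMod ((m + 1) * n) → S) (i : ℕ) : Fin (m + 2) → S :=
  fun j => σ (((m + 1) * i + j : ℕ) : ZMod ((m + 1) * n))

lemma slb_cfgE (m n : ℕ) [NeZero ((m + 1) * (n + 1))] (p : Fin (n + 1) → S × (Fin m → S))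
    (i : Fin (n + 1)) :
    slb m (cfgE S m (n + 1) p) i = pth m (p i).1 (p i).2 (p (i + 1)).1 := by
  refine eq_pth m _ ?_ ?_ fun j => ?_
  · have h := cfgE_apply m (n + 1) p i 0
    rw [Fin.cons_zero] at h
    exact h
  · unfold slb
    have h := cfgE_apply m (n + 1) p (i + 1) 0
    rw [Fin.cons_zero] at h
    rw [← h]
    rw [Fin.val_last, Fin.val_zero, add_zero]
    by_cases hi : i = Fin.last n
    · subst hi
      rw [Fin.last_add_one, Fin.val_zero, Fin.val_last]
      have e : (m + 1) * n + (m + 1) = (m + 1) * (n + 1) := by ring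
      rw [e, ZMod.natCast_self]
      simp
    · have e : ((i + 1 : Fin (n + 1)) : ℕ) = i + 1 := Fin.val_add_one_of_lt (Fin.lt_last_iff_ne_last.2 hi)
      rw [e]
      congr 1
  · have h := cfgE_apply m (n + 1) p i j.succ
    rw [Fin.cons_succ] at h
    exact h

/-- kernel of a slab -/
def ker (m : ℕ) (W : (Fin (m + 2) → S) → ℝ≥0∞) (s s' : S) : ℝ≥0∞ :=
  ∑' ω : Fin m → S, W (pth m s ω s')

lemma cyc_slab (m n : ℕ) [NeZero ((m + 1) * (n + 1))] (W : Fin (n + 1) → (Fin (m + 2) → S) → ℝ≥0∞) :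
    ∑' σ : ZMod ((m + 1) * (n + 1)) → S, ∏ i : Fin (n + 1), W i (slb m σ i) =
      ∑' s : Fin (n + 1) → S, ∏ i : Fin (n + 1), ker m (W i) (s i) (s (i + 1)) := by
  rw [← (cfgE S m (n + 1)).tsum_eq]
  simp only [slb_cfgE]
  rw [← (Equiv.arrowProdEquivProdArrow (Fin (n + 1)) (fun _ => S) fun _ => (Fin m → S)).symm.tsum_eq,
    ENNReal.tsum_prod']
  refine tsum_congr fun s => ?_
  unfold ker
  rw [← tsum_pi]
  rfl

/-- reversal of the interior of a slab -/
lemma hs_ker (m : ℕ) [NeZero ((m + 1) * 2)] (W : (Fin (m + 2) → S) → ℝ≥0∞) :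
    hs (ker m W) = ∑' τ : ZMod ((m + 1) * 2) → S, W (fun j => τ ((j : ℕ) : ZMod ((m + 1) * 2))) *
      W fun j => τ (-((j : ℕ) : ZMod ((m + 1) * 2))) := by
  have key := cyc_slab (S := S) m 1 ![W, fun f => W fun j => f j.rev]
  have e1 : ∀ σ : ZMod ((m + 1) * (1 + 1)) → S,
      (∏ i : Fin (1 + 1), (![W, fun f => W fun j => f j.rev] : Fin 2 → _) i (slb m σ i)) =
      W (fun j => σ ((j : ℕ) : ZMod ((m + 1) * 2))) *
        W fun j => σ (-((j : ℕ) : ZMod ((m + 1) * 2))) := by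
    intro σ
    rw [Fin.prod_univ_two]
    simp only [Matrix.cons_val_zero, Matrix.cons_val_one]
    congr 1
    · congr 1
      funext j
      unfold slb
      congr 2
      simp
    · congr 1
      funext j
      unfold slb
      congr 1
      have h1 : ((m + 1) * ((1 : Fin 2) : ℕ) + (j.rev : ℕ)) + (j : ℕ) = (m + 1) * 2 := by
        rw [Fin.val_rev]
        have := j.2
        simp only [Fin.val_one]
        omega
      rw [eq_neg_iff_add_eq_zero, ← Nat.cast_add, h1, ZMod.natCast_self]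
  have e2 : ∀ s s' : S, ker m (fun f => W fun j => f j.rev) s' s = ker m W s s' := by
    intro s s'
    unfold ker
    rw [← (Equiv.arrowCongr (Fin.revPerm (n := m)) (Equiv.refl S)).tsum_eq]
    refine tsum_congr fun ω => ?_
    show W (fun j => pth m s' ((Equiv.arrowCongr Fin.revPerm (Equiv.refl S)) ω) s j.rev) = _
    congr 1
    refine eq_pth m _ ?_ ?_ fun j => ?_
    · rw [Fin.rev_zero, pth_last]
    · rw [Fin.rev_last, pth_zero]
    · have h : (j.succ.castSucc : Fin (m + 2)).rev = j.rev.succ.castSucc := by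
        ext
        simp only [Fin.val_rev, Fin.val_castSucc, Fin.val_succ]
        have := j.2
        omega
      rw [h, pth_mid]
      simp
  simp only [e1] at key
  rw [key]
  unfold hs
  rw [← (finTwoArrowEquiv S).symm.tsum_eq, ENNReal.tsum_prod']
  refine tsum_congr fun s => tsum_congr fun s' => ?_
  rw [Fin.prod_univ_two, pow_two]
  simp only [Matrix.cons_val_zero, Matrix.cons_val_one]
  congr 1
  exact (e2 s s').symm

/-- **one dimensional chessboard with arbitrary slab functions** -/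
theorem hs1 (m n : ℕ) [NeZero ((m + 1) * (n + 2))] [NeZero ((m + 1) * 2)]
    (W : Fin (n + 2) → (Fin (m + 2) → S) → ℝ≥0∞) :
    ∑' σ : ZMod ((m + 1) * (n + 2)) → S, ∏ i : Fin (n + 2), W i (slb m σ i) ≤
      ∏ i, (∑' τ : ZMod ((m + 1) * 2) → S, W i (fun j => τ ((j : ℕ) : ZMod ((m + 1) * 2))) *
        W i fun j => τ (-((j : ℕ) : ZMod ((m + 1) * 2)))) ^ (1 / 2 : ℝ) := by
  have h := cyc_slab (S := S) m (n + 1) W
  rw [h]
  refine (cyc_le n fun i => ker m (W i)).trans (le_of_eq ?_)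
  refine Finset.prod_congr rfl fun i _ => ?_
  rw [hs_ker]

end

end Vale.Agent.P159.H474.Cb
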