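import Vale.Agent.P159.H474.Cb11

/-!
P159, helper474, module CB, part 12: the numbers of `loc_two` and `bracket_le`.

`cst_loc` : `(N / ρ0 + 1)² ε^(1/4) e^(2 dl) ≤ K (N / ξ)² e^(-c κ / (4 ξ))`;
`loc_num` : `loc_two` with the inputs `LN`; `bracket_num` : `bracket_le` with the inputs `LN`.
-/

set_option linter.unusedSectionVars false

namespace Vale.Agent.P159.H474.Cb

open scoped ENNReal
open Finset
open Vale.Agent.P159.H37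
open Vale.Agent.P159.TM
open Vale.Agent.P159.H770 (Ed eS eT wTD wTD_zero wTD_eq)
open Vale.Agent.P159.TM.SpecC (Tor wT)
open Vale.Agent.P159.H353 (wI wI_neg wI_nonneg)
open Vale.Agent.P159.H764 (VB Dp ArmLe)
open Vale.Agent.P159.TM.H459 (ball mem_ball sd sn)
open Vale.Agent.P159.H612 (zc zc_torus)

noncomputable section

/-- the constant of the locality error -/
def KL (A : ℕ) (c C : ℝ) : ℝ :=
  (2 * A + 1) ^ 2 * (C ^ (1 / 4 : ℝ) * Real.exp (c / 4)) * Real.exp (C / 2)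

lemma KL_pos (A : ℕ) {c C : ℝ} (hC : 0 < C) : 0 < KL A c C := by
  unfold KL
  have := Real.rpow_pos_of_pos hC (1 / 4)
  positivity

lemma cst_N {N ξ A : ℕ} (hA : 1 ≤ A) (hAξ : A ≤ ξ) (hN : ξ ≤ N) :
    ((N / (ξ / A) + 1 : ℕ) : ℝ) ≤ (2 * A + 1) * ((N : ℝ) / ξ) := by
  have hξ : 0 < ξ := by omega
  have hξr : (0 : ℝ) < ξ := by exact_mod_cast hξ
  obtain ⟨ρ, hρ⟩ : ∃ ρ, ρ = ξ / A := ⟨_, rfl⟩
  have hρ1 : 1 ≤ ρ := by rw [hρ]; exact (Nat.one_le_div_iff (by omega)).2 hAξ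
  have hρr : (0 : ℝ) < ρ := by exact_mod_cast hρ1
  have hξρ : ξ ≤ 2 * A * ρ := by
    have h1 := Nat.div_add_mod ξ A
    have h2 := Nat.mod_lt ξ (show 0 < A by omega)
    rw [← hρ] at h1
    have h3 : A * 1 ≤ A * ρ := Nat.mul_le_mul_left A hρ1
    have h4 : 2 * A * ρ = A * ρ + A * ρ := by ring
    omega
  rw [← hρ]
  clear hρ
  have hκ1 : 1 ≤ (N : ℝ) / ξ := by
    rw [le_div_iff₀ hξr, one_mul]
    exact_mod_cast hN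
  have hNρ : (N : ℝ) / ρ ≤ 2 * A * ((N : ℝ) / ξ) := by
    have h2 : (ξ : ℝ) ≤ 2 * A * ρ := by exact_mod_cast hξρ
    rw [div_le_iff₀ hρr]
    calc (N : ℝ) = (N : ℝ) / ξ * ξ := by field_simp
      _ ≤ (N : ℝ) / ξ * (2 * A * ρ) := mul_le_mul_of_nonneg_left h2 (by positivity)
      _ = _ := by ring
  push_cast
  have h1 : (((N / ρ : ℕ)) : ℝ) ≤ (N : ℝ) / ρ := Nat.cast_div_le
  linarith

lemma cst_loc {N ξ A κ ρ n m : ℕ} {c C : ℝ} (hc : 0 < c) (hC : 0 < C) (hA : 1 ≤ A) (hAξ : A ≤ ξ)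
    (hN : ξ ≤ N) (hκ : κ ≤ ρ + 1)
    (hv : ((n : ℝ) + 2) ^ 2 ≤ Real.exp (c * (2 * ((m : ℝ) + 1)) / ξ)) :
    ((N / (ξ / A) + 1 : ℕ) : ℝ) ^ 2 * ((C * Real.exp (-(c * ρ / ξ))) ^ (1 / 4 : ℝ) *
      Real.exp (2 * (((n : ℝ) + 2) ^ 2 / 4 * (C * Real.exp (-(c * (2 * ((m : ℝ) + 1)) / ξ)))))) ≤
      KL A c C * ((N : ℝ) / ξ) ^ 2 * Real.exp (-(c * κ / (4 * ξ))) := by
  have hξ : 0 < ξ := by omega
  have hξr : (1 : ℝ) ≤ ξ := by exact_mod_cast hξ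
  have hξ0 : (0 : ℝ) < ξ := by linarith
  have h1 := cst_N hA hAξ hN
  have h2 : ((N / (ξ / A) + 1 : ℕ) : ℝ) ^ 2 ≤ ((2 * A + 1) * ((N : ℝ) / ξ)) ^ 2 :=
    pow_le_pow_left₀ (Nat.cast_nonneg _) h1 2
  have h3 : (C * Real.exp (-(c * ρ / ξ))) ^ (1 / 4 : ℝ) ≤
      C ^ (1 / 4 : ℝ) * Real.exp (c / 4) * Real.exp (-(c * κ / (4 * ξ))) := by
    rw [Real.mul_rpow hC.le (Real.exp_pos _).le, ← Real.exp_mul, mul_assoc, ← Real.exp_add]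
    refine mul_le_mul_of_nonneg_left (Real.exp_le_exp.2 ?_) (Real.rpow_nonneg hC.le _)
    have h4 : (κ : ℝ) ≤ ρ + 1 := by exact_mod_cast hκ
    have e1 : -(c * (ρ : ℝ) / ξ) * (1 / 4) = -(c * ρ / (4 * ξ)) := by
      field_simp
    rw [e1]
    have h5 : c * (κ : ℝ) / (4 * ξ) ≤ c * ρ / (4 * ξ) + c / 4 := by
      have h6 : c * (κ : ℝ) / (4 * ξ) ≤ c * (ρ + 1) / (4 * ξ) := by gcongr
      have h7 : c * ((ρ : ℝ) + 1) / (4 * ξ) = c * ρ / (4 * ξ) + c / (4 * ξ) := by ring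
      have h8 : c / (4 * (ξ : ℝ)) ≤ c / 4 := by
        refine div_le_div_of_nonneg_left hc.le (by norm_num) (by linarith)
      linarith
    linarith
  have h9 : 2 * (((n : ℝ) + 2) ^ 2 / 4 * (C * Real.exp (-(c * (2 * ((m : ℝ) + 1)) / ξ)))) ≤
      C / 2 := by
    have h10 : ((n : ℝ) + 2) ^ 2 * Real.exp (-(c * (2 * ((m : ℝ) + 1)) / ξ)) ≤ 1 := by
      calc _ ≤ Real.exp (c * (2 * ((m : ℝ) + 1)) / ξ) *
            Real.exp (-(c * (2 * ((m : ℝ) + 1)) / ξ)) :=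
            mul_le_mul_of_nonneg_right hv (Real.exp_pos _).le
        _ = 1 := by rw [← Real.exp_add, add_neg_cancel, Real.exp_zero]
    nlinarith
  have h10 := Real.exp_le_exp.2 h9
  have hCp := Real.rpow_pos_of_pos hC (1 / 4)
  calc _ ≤ ((2 * A + 1) * ((N : ℝ) / ξ)) ^ 2 *
        (C ^ (1 / 4 : ℝ) * Real.exp (c / 4) * Real.exp (-(c * κ / (4 * ξ))) * Real.exp (C / 2)) := by
        refine mul_le_mul h2 (mul_le_mul h3 h10 (Real.exp_pos _).le (by positivity)) ?_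
          (by positivity)
        have : 0 ≤ (C * Real.exp (-(c * ρ / ξ))) ^ (1 / 4 : ℝ) :=
          Real.rpow_nonneg (by positivity) _
        positivity
    _ = _ := by
        unfold KL
        ring

section main

variable {m n : ℕ} [NeZero ((m + 1) * (n + 2))] [NeZero ((m + 1) * 2)] {b : ℝ}

/-- geometry: the torus, the gap `l`, the distance `κ` of the cores to the grid lines -/
structure Geo (m n ξ A K κ l : ℕ) (c : ℝ) : Prop where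
  hA : 2 ≤ A
  hAξ : A ≤ ξ
  hκ : ξ ≤ κ
  hK : (K + 1) * (2 * κ) < m + 1
  hl : 4 * (m + 1) ≤ l
  hv : ((n : ℝ) + 2) ^ 2 ≤ Real.exp (c * (2 * ((m : ℝ) + 1)) / ξ)

lemma Geo.num {ξ A K κ l : ℕ} {c C : ℝ} (g : Geo m n ξ A K κ l c) (hc : 0 < c) (hC : 0 < C) :
    ((((m + 1) * (n + 2)) / (ξ / A) + 1 : ℕ) : ℝ) ^ 2 *
      ((C * Real.exp (-(c * ((κ - 1 : ℕ) : ℝ) / ξ))) ^ (1 / 4 : ℝ) *
      Real.exp (2 * (((n : ℝ) + 2) ^ 2 / 4 * (C * Real.exp (-(c * (2 * ((m : ℝ) + 1)) / ξ)))))) ≤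
      KL A c C * ((((m + 1) * (n + 2) : ℕ) : ℝ) / ξ) ^ 2 * Real.exp (-(c * κ / (4 * ξ))) := by
  obtain ⟨hA, hAξ, hκ, hK, hl, hv⟩ := g
  refine cst_loc hc hC (by omega) hAξ ?_ (by omega) hv
  have h1 : ξ ≤ m + 1 := by nlinarith [Nat.zero_le (K * κ)]
  nlinarith [Nat.zero_le n, Nat.zero_le (m * n)]

/-- **`loc_two` with numbers** -/
theorem loc_num (hb : 0 < b) {ξ A K κ l : ℕ} {L₀ c C : ℝ} (hL₀ : 0 ≤ L₀) (hc : 0 < c)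
    (hC : 0 < C) (H : LN m n b hb ξ A L₀ c C) (g : Geo m n ξ A K κ l c)
    (w : Tor ((m + 1) * (n + 2))) {R0 : ℕ}
    {X P W : GE ((m + 1) * (n + 2))} (hP : Sup P (ball w R0)) (hW : Sup W (Far w (R0 + l)))
    (hX : ∀ e : Ed ((m + 1) * (n + 2)), R0 < sd w (eS _ e) → sd w (eS _ e) < R0 + l → X.1 e = 0)
    (hXL : ∀ v v', R0 < sd w v → sd w v < R0 + l → R0 < sd w v' → sd w v' < R0 + l →
      |X.2 v - X.2 v'| ≤ 2 * L₀ / ξ * sd v v')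
    (Pc : Finset (Tor ((m + 1) * (n + 2)))) (hPc : Pc.card ≤ K)
    (hPg : ∀ p ∈ Pc, sd w p ≤ R0 ∨ R0 + l ≤ sd w p)
    {Q0 QP QW QPW Q : ℝ}
    (q0 : ∀ s, GOK m n κ Pc s → QB m n b (1 / (ξ : ℝ) ^ 2) X s Q0)
    (qP : ∀ s, GOK m n κ Pc s → QB m n b (1 / (ξ : ℝ) ^ 2) (X + P) s QP)
    (qW : ∀ s, GOK m n κ Pc s → QB m n b (1 / (ξ : ℝ) ^ 2) (X + W) s QW)
    (qPW : ∀ s, GOK m n κ Pc s → QB m n b (1 / (ξ : ℝ) ^ 2) (X + P + W) s QPW)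
    (hQ1 : QPW * Q0 ≤ Q) (hQ2 : QP * QW ≤ Q) (hQ : 0 ≤ Q) :
    |ZG _ b (1 / (ξ : ℝ) ^ 2) (X + P + W) * ZG _ b (1 / (ξ : ℝ) ^ 2) X -
        ZG _ b (1 / (ξ : ℝ) ^ 2) (X + P) * ZG _ b (1 / (ξ : ℝ) ^ 2) (X + W)| ≤
      KL A c C * ((((m + 1) * (n + 2) : ℕ) : ℝ) / ξ) ^ 2 * Real.exp (-(c * κ / (4 * ξ))) * Q *
        Z0 ((m + 1) * (n + 2)) b (1 / (ξ : ℝ) ^ 2) ^ 2 := by
  have hn := g.num hc hC
  obtain ⟨hA, hAξ, hκ, hK, hl, hv⟩ := g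
  have hξ : 0 < ξ := by omega
  have hA0 : 1 ≤ ξ / A := (Nat.one_le_div_iff (by omega)).2 hAξ
  have hA1 : ξ / A ≤ ξ / 2 := Nat.div_le_div_left hA (by norm_num)
  have hκ1 : 1 ≤ κ := by omega
  have hcard : (Pc.card + 1) * (2 * κ) < m + 1 :=
    lt_of_le_of_lt (Nat.mul_le_mul_right _ (by omega)) hK
  have hκm : 2 * κ < m + 1 := by nlinarith [Nat.zero_le (K * (2 * κ))]
  have hρ : ξ / A ≤ κ - 1 := by omega
  · have hε : 0 ≤ C * Real.exp (-(c * ((κ - 1 : ℕ) : ℝ) / ξ)) := by positivity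
    have h := loc_two hb hξ w hA0 hρ (by omega) (by omega) hP hW hX Pc hcard hPg hε
      (fun s p hp hg => H.arm _ (H764.lipS_foF m s fun a c' a' c'' k h1 h2 h3 h4 h5 h6 h7 h8 => ?_)
        _ _) q0 qP qW qPW hQ1 hQ2 hQ H.vol
    · refine h.trans ?_
      have hZ := Z0_pos (N := (m + 1) * (n + 2)) hb (show 0 < 1 / (ξ : ℝ) ^ 2 by positivity)
      calc _ = ((((m + 1) * (n + 2)) / (ξ / A) + 1 : ℕ) : ℝ) ^ 2 *
            ((C * Real.exp (-(c * ((κ - 1 : ℕ) : ℝ) / ξ))) ^ (1 / 4 : ℝ) *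
            Real.exp (2 * (((n : ℝ) + 2) ^ 2 / 4 *
              (C * Real.exp (-(c * (2 * ((m : ℝ) + 1)) / ξ)))))) *
            (Q * Z0 ((m + 1) * (n + 2)) b (1 / (ξ : ℝ) ^ 2) ^ 2) := by ring
        _ ≤ _ := mul_le_mul_of_nonneg_right hn (by positivity)
        _ = _ := by ring
    · have g1 := hg a c' h1 h2
      have g2 := hg a' c'' h3 h4
      refine (hXL _ _ g1.1 g1.2 g2.1 g2.2).trans ?_
      have g3 : sd (pt s a c') (pt s a' c'') ≤ k := sd_pt _ _ _ _ _ h6 h5 h8 h7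
      have : (sd (pt s a c') (pt s a' c'') : ℝ) ≤ k := by exact_mod_cast g3
      gcongr

/-- **`bracket_le` with numbers** : `hbr` of `EdM.neu_dd`, `EdM.neu_dd'` -/
theorem bracket_num (hb : 0 < b) {ξ A K κ l : ℕ} {L₀ c C : ℝ} (hL₀ : 0 ≤ L₀) (hc : 0 < c)
    (hC : 0 < C) (H : LN m n b hb ξ A L₀ c C) (g : Geo m n ξ A K κ l c)
    (w : Tor ((m + 1) * (n + 2))) {R0 : ℕ}
    {P W : GE ((m + 1) * (n + 2))} (hP : Sup P (ball w R0)) (hW : Sup W (Far w (R0 + l)))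
    (Pc : Finset (Tor ((m + 1) * (n + 2)))) (hPc : Pc.card ≤ K)
    (hPg : ∀ p ∈ Pc, sd w p ≤ R0 ∨ R0 + l ≤ sd w p)
    {QP QW Qp Qm Q : ℝ}
    (qP : ∀ s, GOK m n κ Pc s → QB m n b (1 / (ξ : ℝ) ^ 2) P s QP)
    (qW : ∀ s, GOK m n κ Pc s → QB m n b (1 / (ξ : ℝ) ^ 2) W s QW)
    (qp : ∀ s, GOK m n κ Pc s → QB m n b (1 / (ξ : ℝ) ^ 2) (P + W) s Qp)
    (qm : ∀ s, GOK m n κ Pc s → QB m n b (1 / (ξ : ℝ) ^ 2) (P - W) s Qm)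
    (hQp : Qp ≤ Q) (hQm : Qm ≤ Q) (hQ2 : QP * QW ≤ Q) (hQ : 0 ≤ Q) :
    zc (eS ((m + 1) * (n + 2))) (eT _) (fun _ => wI b)
        ((1 / (ξ : ℝ) ^ 2) • (1 : Matrix _ _ ℝ)) (P + W) 0 *
        zc (eS ((m + 1) * (n + 2))) (eT _) (fun _ => wI b)
        ((1 / (ξ : ℝ) ^ 2) • (1 : Matrix _ _ ℝ)) 0 0 +
      zc (eS ((m + 1) * (n + 2))) (eT _) (fun _ => wI b)
        ((1 / (ξ : ℝ) ^ 2) • (1 : Matrix _ _ ℝ)) (P - W) 0 *
        zc (eS ((m + 1) * (n + 2))) (eT _) (fun _ => wI b)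
        ((1 / (ξ : ℝ) ^ 2) • (1 : Matrix _ _ ℝ)) 0 0 -
      2 * (zc (eS ((m + 1) * (n + 2))) (eT _) (fun _ => wI b)
        ((1 / (ξ : ℝ) ^ 2) • (1 : Matrix _ _ ℝ)) P 0 *
        zc (eS ((m + 1) * (n + 2))) (eT _) (fun _ => wI b)
        ((1 / (ξ : ℝ) ^ 2) • (1 : Matrix _ _ ℝ)) W 0) ≤
      2 * (KL A c C * ((((m + 1) * (n + 2) : ℕ) : ℝ) / ξ) ^ 2 * Real.exp (-(c * κ / (4 * ξ))) * Q) *
      zc (eS ((m + 1) * (n + 2))) (eT _) (fun _ => wI b)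
        ((1 / (ξ : ℝ) ^ 2) • (1 : Matrix _ _ ℝ)) 0 0 ^ 2 := by
  have hn := g.num hc hC
  obtain ⟨hA, hAξ, hκ, hK, hl, hv⟩ := g
  have hξ : 0 < ξ := by omega
  have hA0 : 1 ≤ ξ / A := (Nat.one_le_div_iff (by omega)).2 hAξ
  have hA1 : ξ / A ≤ ξ / 2 := Nat.div_le_div_left hA (by norm_num)
  have hcard : (Pc.card + 1) * (2 * κ) < m + 1 :=
    lt_of_le_of_lt (Nat.mul_le_mul_right _ (by omega)) hK
  have hκm : 2 * κ < m + 1 := by nlinarith [Nat.zero_le (K * (2 * κ))]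
  have hρ : ξ / A ≤ κ - 1 := by omega
  have hε : 0 ≤ C * Real.exp (-(c * ((κ - 1 : ℕ) : ℝ) / ξ)) := by positivity
  have harm : ArmZ m b hb ξ (ξ / A) (κ - 1) (C * Real.exp (-(c * ((κ - 1 : ℕ) : ℝ) / ξ))) :=
    fun x0 => H.arm 0 (fun z w => by
      simp only [Pi.zero_apply, sub_zero, abs_zero]
      positivity) x0 _
  refine (bracket_le hb hξ w hA0 hρ (by omega) (by omega) hP hW Pc hcard hPg hε harm
    qP qW qp qm hQp hQm hQ2 hQ H.vol).trans (mul_le_mul_of_nonneg_right ?_ (sq_nonneg _))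
  refine mul_le_mul_of_nonneg_left ?_ (by norm_num)
  calc _ = ((((m + 1) * (n + 2)) / (ξ / A) + 1 : ℕ) : ℝ) ^ 2 *
        ((C * Real.exp (-(c * ((κ - 1 : ℕ) : ℝ) / ξ))) ^ (1 / 4 : ℝ) *
        Real.exp (2 * (((n : ℝ) + 2) ^ 2 / 4 *
          (C * Real.exp (-(c * (2 * ((m : ℝ) + 1)) / ξ)))))) * Q := by ring
    _ ≤ _ := mul_le_mul_of_nonneg_right hn hQ

end main

end

end Vale.Agent.P159.H474.Cb
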