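import Vale.Agent.P159.H474.Cb12

/-!
P159, helper474, module CB, part 13: **the base may be dislocated in the gap**.

A base `X = (η, F)` whose edge field `η + dF` is, on every block of the gap, the gradient of a slowly
varying real `v` : on the block `η = -dφ`, `F = v + φ` with an integer `φ` (up to a constant); the
functional `qa`, the folded data and the weights are gauge covariant.

`qa_gauge`, `foE_grad`, `int_lift`, `Flt`, `loc_base`, `loc_base_num`.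
-/

set_option linter.unusedSectionVars false

namespace Vale.Agent.P159.H474.Cb

open scoped ENNReal
open Finset Vale.Agent.P159.TM.H60 Vale.Agent.P159.TM.H576
open Vale.Agent.P159.H145.Dz (I0 touch Arm)
open Vale.Agent.P159.H37
open Vale.Agent.P159.TM
open Vale.Agent.P159.H770 (Ed eS eT wTD wTD_zero wTD_eq wI_pos)
open Vale.Agent.P159.TM.SpecC (Tor wT)
open Vale.Agent.P159.H353 (wI wI_neg wI_nonneg)
open Vale.Agent.P159.H764 (VB Dp ArmLe sgF wF cs Gb Gb_le_one qa_sgF ev_arm)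
open Vale.Agent.P159.TM.H459 (ball mem_ball sd sn sd_symm sd_tri)
open Vale.Agent.P159.T1.H897 (LogC logC_wI)

noncomputable section

section gauge

variable {V E : Type} [Fintype V] [DecidableEq V] [Fintype E] [DecidableEq E]

lemma wF_gauge (s t : E → V) (I : E → ℤ → ℝ) (E0 : Finset E) (η0 : E → ℤ) (φ : V → ℤ) (e : E)
    (a b : ℤ) :
    wF I E0 (fun e => η0 e + (φ (t e) - φ (s e))) e ((b - φ (t e)) - (a - φ (s e))) =
      wF I E0 η0 e (b - a) := by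
  unfold wF
  split_ifs
  · congr 1
    ring
  · rfl

/-- gauge covariance of the arm functional -/
theorem qa_gauge (s t : E → V) {I : E → ℤ → ℝ} (hI : ∀ e n, 0 < I e n) (hL : ∀ e, LogC (I e))
    (E0 : Finset E) (η0 : E → ℤ) (φ : V → ℤ) (B Λ : Finset V) (x : V → ℤ × ℤ) :
    qa (sgF s t hI hL E0 (fun e => η0 e + (φ (t e) - φ (s e)))) B Λ
        (fun v => ((x v).1 - φ v, (x v).2 - φ v)) =
      qa (sgF s t hI hL E0 η0) B Λ x := by
  set σ' := sgF s t hI hL E0 (fun e => η0 e + (φ (t e) - φ (s e))) with hσ'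
  set σ := sgF s t hI hL E0 η0 with hσ
  have hfl : ∀ (e : E) (p q : ℤ × ℤ),
      σ'.fl e (p.1 - φ (s e), p.2 - φ (s e)) (q.1 - φ (t e), q.2 - φ (t e)) = σ.fl e p q := by
    intro e p q
    show wF I E0 (fun e => η0 e + (φ (t e) - φ (s e))) e ((q.1 - φ (t e)) - (p.1 - φ (s e))) *
      wF I E0 (fun e => η0 e + (φ (t e) - φ (s e))) e ((q.2 - φ (t e)) - (p.2 - φ (s e))) =
      wF I E0 η0 e (q.1 - p.1) * wF I E0 η0 e (q.2 - p.2)
    rw [wF_gauge, wF_gauge]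
  have hsw : ∀ (e : E) (p q : ℤ × ℤ),
      σ'.fl e (σ'.sw (p.1 - φ (s e), p.2 - φ (s e))) (q.1 - φ (t e), q.2 - φ (t e)) =
        σ.fl e (σ.sw p) q := by
    intro e p q
    exact hfl e (p.2, p.1) q
  have hop : ∀ (e : E) (p q : ℤ × ℤ),
      σ'.op e (p.1 - φ (s e), p.2 - φ (s e)) (q.1 - φ (t e), q.2 - φ (t e)) = σ.op e p q := by
    intro e p q
    unfold Sys.op
    rw [hfl, hsw]
  have hcl : ∀ (e : E) (p q : ℤ × ℤ),
      σ'.cl e (p.1 - φ (s e), p.2 - φ (s e)) (q.1 - φ (t e), q.2 - φ (t e)) = σ.cl e p q := by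
    intro e p q
    unfold Sys.cl
    rw [hfl, hsw]
  have hpe : ∀ e : E, H145.Dz.pe σ' e ((x (s e)).1 - φ (s e), (x (s e)).2 - φ (s e))
      ((x (t e)).1 - φ (t e), (x (t e)).2 - φ (t e)) = H145.Dz.pe σ e (x (s e)) (x (t e)) := by
    intro e
    unfold H145.Dz.pe
    rw [hfl, hop]
  have hqe : ∀ e : E, H145.Dz.qe σ' e ((x (s e)).1 - φ (s e), (x (s e)).2 - φ (s e))
      ((x (t e)).1 - φ (t e), (x (t e)).2 - φ (t e)) = H145.Dz.qe σ e (x (s e)) (x (t e)) := by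
    intro e
    unfold H145.Dz.qe
    rw [hfl, hcl]
  have harm : ∀ T : Finset E, Arm σ' B Λ (fun v => ((x v).1 - φ v, (x v).2 - φ v)) T ↔
      Arm σ B Λ x T := by
    intro T
    unfold Arm
    refine exists_congr fun u => and_congr_right fun _ => ?_
    have e1 : σ'.d ((x u).1 - φ u, (x u).2 - φ u) = σ.d (x u) := by
      show ((x u).1 - φ u) - ((x u).2 - φ u) = (x u).1 - (x u).2
      ring
    rw [e1]
    rfl
  unfold qa H145.Dz.cp
  refine Finset.sum_congr rfl fun T _ => ?_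
  have e1 : ∏ e ∈ T, H145.Dz.pe σ' e ((fun v => ((x v).1 - φ v, (x v).2 - φ v)) (σ'.s e))
      ((fun v => ((x v).1 - φ v, (x v).2 - φ v)) (σ'.t e)) =
      ∏ e ∈ T, H145.Dz.pe σ e (x (σ.s e)) (x (σ.t e)) := Finset.prod_congr rfl fun e _ => hpe e
  have e2 : ∏ e ∈ touch σ' Λ \ T, H145.Dz.qe σ' e ((fun v => ((x v).1 - φ v, (x v).2 - φ v)) (σ'.s e))
      ((fun v => ((x v).1 - φ v, (x v).2 - φ v)) (σ'.t e)) =
      ∏ e ∈ touch σ Λ \ T, H145.Dz.qe σ e (x (σ.s e)) (x (σ.t e)) :=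
    Finset.prod_congr rfl fun e _ => hqe e
  rw [e1, e2]
  beta_reduce
  rw [ind_congr (harm T)]

end gauge

section tor

variable {N : ℕ} [NeZero N] {b t : ℝ}

/-- the gauge transform of the one copy weight -/
lemma wDC_gauge (φ : Tor N → ℤ) (η : Ed N → ℤ) (F : Tor N → ℝ) (h : Tor N → ℤ) :
    wDC N b t (fun e => η e + (φ (eT N e) - φ (eS N e))) (fun v => F v - φ v)
      (fun v => h v - φ v) = wDC N b t η F h := by
  unfold wDC
  congr 1
  · rw [wTD_eq, wTD_eq]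
    refine Finset.prod_congr rfl fun x _ => ?_
    have a1 : eT N (x, false) = x + (1, 0) := by simp [eT]
    have a2 : eT N (x, true) = x + (0, 1) := by simp [eT]
    have a3 : ∀ o, eS N (x, o) = x := fun _ => rfl
    rw [a1, a2, a3, a3]
    congr 2 <;> ring
  · congr 2
    rw [qf_smul_one, qf_smul_one]
    have e : ∀ x, (re (fun v => h v - φ v) - fun v => F v - (φ v : ℝ)) x ^ 2 =
        (re h - F) x ^ 2 := fun x => by
      simp only [Pi.sub_apply, re]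
      push_cast
      ring
    simp only [e]

/-- the edge field `η + dF` is the gradient of `v` on the closed block at `s` -/
structure Flt (m : ℕ) (s : Tor N) (X : GE N) (v : Tor N → ℝ) : Prop where
  h : ∀ a c : ℕ, a < m + 1 → c ≤ m + 1 →
    (X.1 (pt s a c, false) : ℝ) + (X.2 (pt s (a + 1) c) - X.2 (pt s a c)) =
      v (pt s (a + 1) c) - v (pt s a c)
  v : ∀ a c : ℕ, a ≤ m + 1 → c < m + 1 →
    (X.1 (pt s a c, true) : ℝ) + (X.2 (pt s a (c + 1)) - X.2 (pt s a c)) =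
      v (pt s a (c + 1)) - v (pt s a c)

/-- the integer gauge on a block -/
lemma int_lift {m : ℕ} {s : Tor N} {X : GE N} {v : Tor N → ℝ} (hX : Flt m s X v) :
    ∃ (φ : Tor N → ℤ) (c0 : ℝ),
      (∀ a c : ℕ, a ≤ m + 1 → c ≤ m + 1 → X.2 (pt s a c) = v (pt s a c) + c0 + φ (pt s a c)) ∧
      (∀ a c : ℕ, a < m + 1 → c ≤ m + 1 →
        X.1 (pt s a c, false) = -(φ (pt s (a + 1) c) - φ (pt s a c))) ∧
      (∀ a c : ℕ, a ≤ m + 1 → c < m + 1 →
        X.1 (pt s a c, true) = -(φ (pt s a (c + 1)) - φ (pt s a c))) := by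
  set c0 : ℝ := X.2 (pt s 0 0) - v (pt s 0 0) with hc0
  have h1 : ∀ a : ℕ, a ≤ m + 1 → ∃ k : ℤ, X.2 (pt s a 0) - v (pt s a 0) - c0 = k := by
    intro a
    induction a with
    | zero =>
      intro _
      exact ⟨0, by rw [hc0]; simp⟩
    | succ a ih =>
      intro ha
      obtain ⟨k, hk⟩ := ih (by omega)
      refine ⟨k - X.1 (pt s a 0, false), ?_⟩
      have := hX.h a 0 (by omega) (by omega)
      push_cast
      linarith
  have h2 : ∀ a : ℕ, a ≤ m + 1 → ∀ c : ℕ, c ≤ m + 1 →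
      ∃ k : ℤ, X.2 (pt s a c) - v (pt s a c) - c0 = k := by
    intro a ha c
    induction c with
    | zero => exact fun _ => h1 a ha
    | succ c ih =>
      intro hc
      obtain ⟨k, hk⟩ := ih (by omega)
      refine ⟨k - X.1 (pt s a c, true), ?_⟩
      have := hX.v a c (by omega) (by omega)
      push_cast
      linarith
  have h3 : ∀ a c : ℕ, a ≤ m + 1 → c ≤ m + 1 →
      X.2 (pt s a c) = v (pt s a c) + c0 + (⌊X.2 (pt s a c) - v (pt s a c) - c0⌋ : ℤ) := by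
    intro a c ha hc
    obtain ⟨k, hk⟩ := h2 a ha c hc
    rw [hk, Int.floor_intCast]
    linarith
  refine ⟨fun x => ⌊X.2 x - v x - c0⌋, c0, h3, fun a c ha hc => ?_, fun a c ha hc => ?_⟩
  · have e1 := h3 a c (by omega) hc
    have e2 := h3 (a + 1) c (by omega) hc
    have e3 := hX.h a c ha hc
    have e4 : (X.1 (pt s a c, false) : ℝ) =
        ((-(⌊X.2 (pt s (a + 1) c) - v (pt s (a + 1) c) - c0⌋ -
          ⌊X.2 (pt s a c) - v (pt s a c) - c0⌋) : ℤ) : ℝ) := by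
      push_cast
      linarith
    exact_mod_cast e4
  · have e1 := h3 a c ha (by omega)
    have e2 := h3 a (c + 1) ha (by omega)
    have e3 := hX.v a c ha hc
    have e4 : (X.1 (pt s a c, true) : ℝ) =
        ((-(⌊X.2 (pt s a (c + 1)) - v (pt s a (c + 1)) - c0⌋ -
          ⌊X.2 (pt s a c) - v (pt s a c) - c0⌋) : ℤ) : ℝ) := by
      push_cast
      linarith
    exact_mod_cast e4

lemma co_of {x z : ZMod N} {a ρ : ℕ} (ha : ρ ≤ a) (h : (x - ((a : ZMod N) + z)).valMinAbs.natAbs ≤ ρ) :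
    ∃ a' : ℕ, x = (a' : ZMod N) + z ∧ a' ≤ a + ρ ∧ a ≤ a' + ρ := by
  obtain ⟨k, hk⟩ : ∃ k : ℤ, k = (x - ((a : ZMod N) + z)).valMinAbs := ⟨_, rfl⟩
  rw [← hk] at h
  have e : x - ((a : ZMod N) + z) = (k : ZMod N) := by rw [hk, ZMod.coe_valMinAbs]
  have h1 : 0 ≤ (a : ℤ) + k := by omega
  refine ⟨((a : ℤ) + k).toNat, ?_, by omega, by omega⟩
  have e2 : ((((a : ℤ) + k).toNat : ℕ) : ZMod N) = (a : ZMod N) + k := by
    have : (((((a : ℤ) + k).toNat : ℕ) : ℤ) : ZMod N) = (((a : ℤ) + k : ℤ) : ZMod N) := by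
      rw [Int.toNat_of_nonneg h1]
    rw [Int.cast_natCast] at this
    rw [this]
    push_cast
    ring
  rw [e2]
  linear_combination e

/-- points near an interior point of the block -/
lemma pt_of_sd {s v : Tor N} {a c ρ : ℕ} (ha : ρ ≤ a) (hc : ρ ≤ c) (h : sd (pt s a c) v ≤ ρ) :
    ∃ a' c' : ℕ, v = pt s a' c' ∧ a' ≤ a + ρ ∧ a ≤ a' + ρ ∧ c' ≤ c + ρ ∧ c ≤ c' + ρ := by
  unfold sd sn pt at h
  obtain ⟨a', e1, i1, i2⟩ := co_of ha ((le_max_left _ _).trans h)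
  obtain ⟨c', e2, i3, i4⟩ := co_of hc ((le_max_right _ _).trans h)
  exact ⟨a', c', Prod.ext e1 e2, i1, i2, i3, i4⟩

lemma eT_pt_false (s : Tor N) (a c : ℕ) : eT N (pt s a c, false) = pt s (a + 1) c := by
  unfold eT pt
  simp only [Bool.false_eq_true, if_false]
  refine Prod.ext ?_ ?_
  · push_cast
    show (a : ZMod N) + s.1 + 1 = (a : ZMod N) + 1 + s.1
    ring
  · push_cast
    show (c : ZMod N) + s.2 + 0 = (c : ZMod N) + s.2
    ring

lemma eT_pt_true (s : Tor N) (a c : ℕ) : eT N (pt s a c, true) = pt s a (c + 1) := by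
  unfold eT pt
  simp only [if_true]
  refine Prod.ext ?_ ?_
  · push_cast
    show (a : ZMod N) + s.1 + 0 = (a : ZMod N) + s.1
    ring
  · push_cast
    show (c : ZMod N) + s.2 + 1 = (c : ZMod N) + 1 + s.2
    ring

lemma eT_inj_false {e : Ed N} (h2 : e.2 = false) {s : Tor N} {a c : ℕ}
    (h : eT N e = pt s (a + 1) c) : e = (pt s a c, false) := by
  obtain ⟨x, o⟩ := e
  simp only at h2
  subst h2
  rw [← eT_pt_false] at h
  unfold eT at h
  simp only [Bool.false_eq_true, if_false] at h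
  rw [add_right_cancel h]

lemma eT_inj_true {e : Ed N} (h2 : e.2 = true) {s : Tor N} {a c : ℕ}
    (h : eT N e = pt s a (c + 1)) : e = (pt s a c, true) := by
  obtain ⟨x, o⟩ := e
  simp only at h2
  subst h2
  rw [← eT_pt_true] at h
  unfold eT at h
  simp only [if_true] at h
  rw [add_right_cancel h]

/-- an edge with an end in the ball is an edge of the block -/
lemma edge_blk {m : ℕ} {s : Tor N} {p : VB m m} {ρ : ℕ} (hp : Dp p ρ) {e : Ed N}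
    (he : eS N e ∈ ball (pt s p.1 p.2) ρ ∨ eT N e ∈ ball (pt s p.1 p.2) ρ) :
    ∃ a c : ℕ, a < m + 1 ∧ c < m + 1 ∧ e = (pt s a c, e.2) := by
  obtain ⟨d1, d2, d3, d4⟩ := hp
  rcases he with he | he
  · rw [mem_ball] at he
    obtain ⟨a', c', e1, i1, i2, i3, i4⟩ := pt_of_sd (by omega) (by omega) he
    exact ⟨a', c', by omega, by omega, Prod.ext e1 rfl⟩
  · rw [mem_ball] at he
    obtain ⟨a', c', e1, i1, i2, i3, i4⟩ := pt_of_sd (by omega) (by omega) he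
    rcases ho : e.2 with _ | _
    · obtain ⟨k, rfl⟩ : ∃ k, a' = k + 1 := ⟨a' - 1, by omega⟩
      refine ⟨k, c', by omega, by omega, eT_inj_false ho e1⟩
    · obtain ⟨k, rfl⟩ : ∃ k, c' = k + 1 := ⟨c' - 1, by omega⟩
      refine ⟨a', k, by omega, by omega, eT_inj_true ho e1⟩

end tor

section fold

variable {m n : ℕ} [NeZero ((m + 1) * n)] [NeZero ((m + 1) * 2)] {b t : ℝ}

/-- the folded gauge -/
def foG (m : ℕ) {N : ℕ} (s : Tor N) (φ : Tor N → ℤ) (x : Tor ((m + 1) * 2)) : ℤ :=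
  φ (pt s (fo m x.1) (fo m x.2))

/-- the folded dislocation of a gradient is the gradient of the folded gauge -/
lemma foE_grad {s : Tor ((m + 1) * n)} {η : Ed ((m + 1) * n) → ℤ} {φ : Tor ((m + 1) * n) → ℤ}
    (h0 : ∀ a c : ℕ, a < m + 1 → c ≤ m + 1 →
      η (pt s a c, false) = -(φ (pt s (a + 1) c) - φ (pt s a c)))
    (h1 : ∀ a c : ℕ, a ≤ m + 1 → c < m + 1 →
      η (pt s a c, true) = -(φ (pt s a (c + 1)) - φ (pt s a c))) (e : Ed ((m + 1) * 2)) :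
    foE m (trD s η) 0 0 e + (foG m s φ (eT _ e) - foG m s φ (eS _ e)) = 0 := by
  obtain ⟨⟨x1, x2⟩, o⟩ := e
  have q1 := ZMod.val_lt x1
  have q2 := ZMod.val_lt x2
  have r1 : fo m x1 ≤ m + 1 := by unfold fo; omega
  have r2 : fo m x2 ≤ m + 1 := by unfold fo; omega
  have hs1 := fo_succ m x1
  have hs2 := fo_succ m x2
  have hf1 := fo_eq m x1
  have hf2 := fo_eq m x2
  have hc1 : fc m x1 = if x1.val < m + 1 then x1.val else (m + 1) * 2 - 1 - x1.val := rfl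
  have hc2 : fc m x2 = if x2.val < m + 1 then x2.val else (m + 1) * 2 - 1 - x2.val := rfl
  cases o
  · have a1 : eT ((m + 1) * 2) ((x1, x2), false) = (x1 + 1, x2) := by simp [eT]
    have a2 : eS ((m + 1) * 2) ((x1, x2), false) = (x1, x2) := rfl
    rw [a1, a2]
    unfold foG foE
    simp only [trD_pt, Bool.false_eq_true, if_false]
    by_cases c1 : x1.val < m + 1
    · simp only [c1, if_true] at hc1 hs1 hf1 ⊢
      rw [hs1, hf1, hc1, h0 _ _ c1 r2]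
      ring
    · simp only [c1, if_false] at hc1 hs1 hf1 ⊢
      rw [hs1, hf1, hc1, h0 _ _ (by omega) r2]
      ring
  · have a1 : eT ((m + 1) * 2) ((x1, x2), true) = (x1, x2 + 1) := by simp [eT]
    have a2 : eS ((m + 1) * 2) ((x1, x2), true) = (x1, x2) := rfl
    rw [a1, a2]
    unfold foG foE
    simp only [trD_pt, if_true]
    by_cases c1 : x2.val < m + 1
    · simp only [c1, if_true] at hc2 hs2 hf2 ⊢
      rw [hs2, hf2, hc2, h1 _ _ r1 c1]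
      ring
    · simp only [c1, if_false] at hc2 hs2 hf2 ⊢
      rw [hs2, hf2, hc2, h1 _ _ r1 (by omega)]
      ring

lemma foG_pt (s : Tor ((m + 1) * n)) (φ : Tor ((m + 1) * n) → ℤ) (a c : Fin (m + 2)) :
    foG m s φ (pt 0 a c) = φ (pt s a c) := by
  have h : ∀ a : Fin (m + 2), fo m ((a : ℕ) : ZMod ((m + 1) * 2)) = a := by
    intro a
    unfold fo
    have ha := a.2
    rcases Nat.lt_or_ge (a : ℕ) ((m + 1) * 2) with h | h
    · rw [ZMod.val_natCast, Nat.mod_eq_of_lt h]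
      omega
    · have e : (a : ℕ) = (m + 1) * 2 := by omega
      omega
  unfold foG pt
  simp only [add_zero]
  rw [h, h]

/-- the gauged functional -/
def Ggf {m : ℕ} {N : ℕ} (s : Tor N) (φ : Tor N → ℤ) (G : GF m) : GF m := fun x y =>
  G (fun a c => x a c - φ (pt s a c)) fun a c => y a c - φ (pt s a c)

end fold

section main

variable {m n : ℕ} [NeZero ((m + 1) * (n + 2))] [NeZero ((m + 1) * 2)] {b : ℝ}

/-- event numbers for data which agree on the block with a flat base -/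
lemma ev_gauge (hb : 0 < b) {ξ : ℕ} (hξ : 0 < ξ) {X A1 A2 : GE ((m + 1) * (n + 2))}
    {s : Tor ((m + 1) * (n + 2))} (hA1 : Agr m s A1 X) (hA2 : Agr m s A2 X)
    {v : Tor ((m + 1) * (n + 2)) → ℝ} {φ : Tor ((m + 1) * (n + 2)) → ℤ} {c0 : ℝ}
    (hF : ∀ a c : ℕ, a ≤ m + 1 → c ≤ m + 1 → X.2 (pt s a c) = v (pt s a c) + c0 + φ (pt s a c))
    (h0 : ∀ a c : ℕ, a < m + 1 → c ≤ m + 1 →
      X.1 (pt s a c, false) = -(φ (pt s (a + 1) c) - φ (pt s a c)))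
    (h1 : ∀ a c : ℕ, a ≤ m + 1 → c < m + 1 →
      X.1 (pt s a c, true) = -(φ (pt s a (c + 1)) - φ (pt s a c)))
    {p : VB m m} {ρ0 ρ : ℕ} (hr : ρ0 ≤ ρ) (hp : Dp p ρ) {ε : ℝ} (hε : 0 ≤ ε)
    (h : ArmLe ((m + 1) * 2) b hb.le ξ (fun x => foF m (trF s v) 0 0 x + c0) (pt 0 p.1 p.2) ρ0 ρ ε) :
    Evn m n b (1 / (ξ : ℝ) ^ 2) A1 A2 s
      (Ggf s φ (Gb m m (wI_pos hb) (logC_wI hb.le) p ρ0 ρ)) ε := by
  unfold Evn
  rw [hA1.foE, hA2.foE, hA1.foF, hA2.foF]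
  set φh := foG m s φ with hφh
  have e1 : (fun e => foE m (trD s X.1) 0 0 e + (φh (eT _ e) - φh (eS _ e))) =
      (0 : Ed ((m + 1) * 2) → ℤ) := by
    funext e
    exact foE_grad h0 h1 e
  have e2 : (fun x => foF m (trF s X.2) 0 0 x - (φh x : ℝ)) =
      fun x => foF m (trF s v) 0 0 x + c0 := by
    funext x
    have q1 := ZMod.val_lt x.1
    have q2 := ZMod.val_lt x.2
    have r1 : fo m x.1 ≤ m + 1 := by unfold fo; omega
    have r2 : fo m x.2 ≤ m + 1 := by unfold fo; omega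
    have e3 : foF m (trF s X.2) 0 0 x = X.2 (pt s (fo m x.1) (fo m x.2)) := trF_pt s X.2 _ _
    have e4 : foF m (trF s v) 0 0 x = v (pt s (fo m x.1) (fo m x.2)) := trF_pt s v _ _
    rw [e3, e4, hF _ _ r1 r2, hφh]
    unfold foG
    ring
  have e5 : ∀ τ : Tor ((m + 1) * 2) → ℤ,
      wDC _ b (1 / (ξ : ℝ) ^ 2) (foE m (trD s X.1) 0 0) (foF m (trF s X.2) 0 0) τ =
        wDC _ b (1 / (ξ : ℝ) ^ 2) 0 (fun x => foF m (trF s v) 0 0 x + c0) (τ - φh) := by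
    intro τ
    rw [← wDC_gauge φh (foE m (trD s X.1) 0 0) (foF m (trF s X.2) 0 0) τ, e1, e2]
    rfl
  have e6 : ∀ τ τ' : Tor ((m + 1) * 2) → ℤ,
      Ggf s φ (Gb m m (wI_pos hb) (logC_wI hb.le) p ρ0 ρ) (fun a c => τ (pt 0 a c))
        (fun a c => τ' (pt 0 a c)) =
      Gb m m (wI_pos hb) (logC_wI hb.le) p ρ0 ρ (fun a c => (τ - φh) (pt 0 a c))
        (fun a c => (τ' - φh) (pt 0 a c)) := by
    intro τ τ'
    unfold Ggf
    simp only [Pi.sub_apply, hφh, foG_pt]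
  simp only [e5, e6]
  have e7 := ev_arm (M := (m + 1) * 2) (by omega) hb hξ
    (fun x => foF m (trF s v) 0 0 x + c0) 0 hr hp hε h
  refine le_trans (le_of_eq ?_) e7
  rw [← (Equiv.subRight φh).tsum_eq fun τ : Tor ((m + 1) * 2) → ℤ =>
    ∑' τ' : Tor ((m + 1) * 2) → ℤ,
      ENNReal.ofReal (wDC _ b (1 / (ξ : ℝ) ^ 2) 0 (fun x => foF m (trF s v) 0 0 x + c0) τ) *
        ENNReal.ofReal (wDC _ b (1 / (ξ : ℝ) ^ 2) 0 (fun x => foF m (trF s v) 0 0 x + c0) τ') *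
        Gb m m (wI_pos hb) (logC_wI hb.le) p ρ0 ρ (fun a c => τ (pt 0 a c))
          (fun a c => τ' (pt 0 a c))]
  refine tsum_congr fun τ => ?_
  rw [← (Equiv.subRight φh).tsum_eq fun τ' : Tor ((m + 1) * 2) → ℤ =>
      ENNReal.ofReal (wDC _ b (1 / (ξ : ℝ) ^ 2) 0 (fun x => foF m (trF s v) 0 0 x + c0)
        ((Equiv.subRight φh) τ)) *
        ENNReal.ofReal (wDC _ b (1 / (ξ : ℝ) ^ 2) 0 (fun x => foF m (trF s v) 0 0 x + c0) τ') *
        Gb m m (wI_pos hb) (logC_wI hb.le) p ρ0 ρ (fun a c => ((Equiv.subRight φh) τ) (pt 0 a c))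
          (fun a c => τ' (pt 0 a c))]
  rfl

section place

variable {w : Tor ((m + 1) * (n + 2))} {R0 l : ℕ} {X P W : GE ((m + 1) * (n + 2))}

/-- the value of the arm functional at a point of the gap, flat base -/
lemma val_flat (hb : 0 < b) {ρ0 ρ : ℕ} (h1 : ρ0 ≤ ρ)
    (hP : Sup P (ball w R0)) (hW : Sup W (Far w (R0 + l)))
    {s : Tor ((m + 1) * (n + 2))} {φ : Tor ((m + 1) * (n + 2)) → ℤ}
    (hg0 : ∀ a c : ℕ, a < m + 1 → c ≤ m + 1 →
      X.1 (pt s a c, false) = -(φ (pt s (a + 1) c) - φ (pt s a c)))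
    (hg1 : ∀ a c : ℕ, a ≤ m + 1 → c < m + 1 →
      X.1 (pt s a c, true) = -(φ (pt s a (c + 1)) - φ (pt s a c)))
    {p : VB m m} (hp : Dp p ρ)
    (hreg : ∀ v, sd (pt s p.1 p.2) v ≤ ρ + 1 → R0 < sd w v ∧ sd w v < R0 + l)
    (h h' : Tor ((m + 1) * (n + 2)) → ℤ) :
    Cb.qa (sgF (eS _) (eT _) (I := fun _ => wI b) (fun _ => wI_pos hb)
        (fun _ => logC_wI hb.le) (Efr (ball w R0) (Far w (R0 + l)))
        (X + P + W).1) (ball (pt s p.1 p.2) ρ0) (ball (pt s p.1 p.2) ρ) (fun v => (h v, h' v)) =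
      Ggf s φ (Gb m m (wI_pos hb) (logC_wI hb.le) p ρ0 ρ) (fun a c' => h (pt s a c'))
        (fun a c' => h' (pt s a c')) := by
  have hma : m + 2 ≤ (m + 1) * (n + 2) := by nlinarith [Nat.zero_le (m * n)]
  rw [← qa_gauge (eS _) (eT _) (fun _ => wI_pos hb) (fun _ => logC_wI hb.le)
    (Efr (ball w R0) (Far w (R0 + l))) (X + P + W).1 φ]
  have hE : ∀ e : Ed ((m + 1) * (n + 2)), (eS _ e ∈ ball (cs m m s p) ρ ∨
      eT _ e ∈ ball (cs m m s p) ρ) → e ∈ Efr (ball w R0) (Far w (R0 + l)) ∧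
        (fun e => (X + P + W).1 e + (φ (eT _ e) - φ (eS _ e))) e = 0 := by
    intro e he
    have he' : eS _ e ∈ ball (pt s p.1 p.2) ρ ∨ eT _ e ∈ ball (pt s p.1 p.2) ρ := he
    obtain ⟨a, c, ha, hc, e1⟩ := edge_blk hp he'
    rw [mem_ball, mem_ball] at he'
    have t0 := sd_eS_eT e
    have t1 := sd_tri (pt s p.1 p.2) (eT _ e) (eS _ e)
    rw [sd_symm (eT _ e) (eS _ e)] at t1
    have hs : R0 < sd w (eS _ e) ∧ sd w (eS _ e) < R0 + l :=
      hreg _ (by rcases he' with he | he <;> omega)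
    refine ⟨?_, ?_⟩
    · unfold Efr
      rw [Finset.mem_filter]
      refine ⟨Finset.mem_univ _, fun h => ?_, fun h => ?_⟩
      · have := mem_ball.1 h.1
        omega
      · have := mem_Far.1 h.1
        omega
    · have hP0 := P_e hP hs.1
      have hW0 := W_e hW hs.2
      show X.1 e + P.1 e + W.1 e + (φ (eT _ e) - φ (eS _ e)) = 0
      rw [hP0, hW0, add_zero, add_zero]
      rcases ho : e.2 with _ | _
      · rw [ho] at e1
        rw [e1, hg0 a c ha hc.le, eT_pt_false]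
        show -(φ (pt s (a + 1) c) - φ (pt s a c)) + (φ (pt s (a + 1) c) - φ (pt s a c)) = 0
        ring
      · rw [ho] at e1
        rw [e1, hg1 a c ha.le hc, eT_pt_true]
        show -(φ (pt s a (c + 1)) - φ (pt s a c)) + (φ (pt s a (c + 1)) - φ (pt s a c)) = 0
        ring
  exact qa_sgF (N := (m + 1) * (n + 2)) hma hma hb s h1 hp hE
    (fun v => (h v - φ v, h' v - φ v))

/-- the base is flat and slowly varying on the blocks of the gap, in the form used by the arms -/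
def ArmG (m n : ℕ) [NeZero ((m + 1) * (n + 2))] [NeZero ((m + 1) * 2)] (b : ℝ) (hb : 0 < b)
    (ξ ρ0 ρ : ℕ) (w : Tor ((m + 1) * (n + 2))) (R0 l : ℕ) (X : GE ((m + 1) * (n + 2)))
    (ε : ℝ) : Prop :=
  ∀ s : Tor ((m + 1) * (n + 2)), Gap w R0 l s → ∃ v : Tor ((m + 1) * (n + 2)) → ℝ, Flt m s X v ∧
    ∀ (c0 : ℝ) (p : VB m m), Dp p ρ →
      ArmLe ((m + 1) * 2) b hb.le ξ (fun x => foF m (trF s v) 0 0 x + c0) (pt 0 p.1 p.2) ρ0 ρ ε

/-- **the arm at a point of the gap, flat base** -/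
lemma arm_flat (hb : 0 < b) {ξ : ℕ} (hξ : 0 < ξ) {ρ0 ρ κ : ℕ} (h1 : ρ0 ≤ ρ) (h2 : ρ + 1 ≤ κ)
    (hP : Sup P (ball w R0)) (hW : Sup W (Far w (R0 + l)))
    (Pc : Finset (Tor ((m + 1) * (n + 2)))) (hPc : (Pc.card + 1) * (2 * κ) < m + 1)
    (hPg : ∀ p ∈ Pc, sd w p ≤ R0 ∨ R0 + l ≤ sd w p)
    {ε : ℝ} (hε : 0 ≤ ε) (harm : ArmG m n b hb ξ ρ0 ρ w R0 l X ε)
    (c : Tor ((m + 1) * (n + 2)))
    (hreg : ∀ v, sd c v ≤ m + 1 → R0 < sd w v ∧ sd w v < R0 + l) :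
    ∃ (s : Tor ((m + 1) * (n + 2))) (G : GF m), (∀ x y, G x y ≤ 1) ∧ GOK m n κ Pc s ∧
      (∀ h h' : Tor ((m + 1) * (n + 2)) → ℤ,
        Cb.qa (sgF (eS _) (eT _) (I := fun _ => wI b) (fun _ => wI_pos hb)
        (fun _ => logC_wI hb.le) (Efr (ball w R0) (Far w (R0 + l)))
        (X + P + W).1) (ball c ρ0) (ball c ρ) (fun v => (h v, h' v)) =
          G (fun a c' => h (pt s a c')) (fun a c' => h' (pt s a c'))) ∧
      Evn m n b (1 / (ξ : ℝ) ^ 2) (X + P + W) X s G ε ∧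
      Evn m n b (1 / (ξ : ℝ) ^ 2) (X + P) (X + W) s G ε := by
  have h4 : κ ≤ m := by nlinarith [Nat.zero_le (Pc.card * (2 * κ))]
  obtain ⟨s, p, e1, e2, e3⟩ := grid_at h2 Pc hPc c fun p hp => by
    by_contra hcon
    have e7 := hreg p (by omega)
    rcases hPg p hp with h | h <;> omega
  have hgap : Gap w R0 l s := by
    intro a a' ha ha'
    refine hreg _ ?_
    have b1 := p.1.2
    have b2 := p.2.2
    rw [← e1]
    exact sd_pt _ _ _ _ _ (by omega) (by omega) (by omega) (by omega)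
  obtain ⟨v, hv, hA⟩ := harm s hgap
  obtain ⟨φ, c0, g1, g2, g3⟩ := int_lift hv
  have hA' := hA c0 p e2
  have kP := agr_P hP hgap X
  have kW := agr_W hW hgap X
  have kPW : Agr m s (X + P + W) X := (agr_W hW hgap (X + P)).trans kP
  have kX : Agr m s X X :=
    ⟨fun _ _ _ _ => rfl, fun _ _ _ _ => rfl, fun _ _ _ _ => rfl⟩
  refine ⟨s, Ggf s φ (Gb m m (wI_pos hb) (logC_wI hb.le) p ρ0 ρ),
    fun x y => Gb_le_one m m (wI_pos hb) (logC_wI hb.le) p ρ0 ρ _ _, e3, fun h h' => ?_,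
    ev_gauge hb hξ kPW kX g1 g2 g3 h1 e2 hε hA', ev_gauge hb hξ kP kW g1 g2 g3 h1 e2 hε hA'⟩
  rw [← e1]
  exact val_flat hb h1 hP hW g2 g3 e2 (fun v hv => hreg v (by rw [← e1]; omega)) h h'

end place

/-- **two group elements at distance `l`, the base may be dislocated in the gap** -/
theorem loc_base (hb : 0 < b) {ξ : ℕ} (hξ : 0 < ξ) (w : Tor ((m + 1) * (n + 2)))
    {R0 l ρ0 ρ κ : ℕ} (h0 : 1 ≤ ρ0) (h1 : ρ0 ≤ ρ) (h2 : ρ + 1 ≤ κ) (h3 : 2 * (ρ0 + m + 3) ≤ l)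
    {X P W : GE ((m + 1) * (n + 2))} (hP : Sup P (ball w R0)) (hW : Sup W (Far w (R0 + l)))
    (Pc : Finset (Tor ((m + 1) * (n + 2)))) (hPc : (Pc.card + 1) * (2 * κ) < m + 1)
    (hPg : ∀ p ∈ Pc, sd w p ≤ R0 ∨ R0 + l ≤ sd w p)
    {ε : ℝ} (hε : 0 ≤ ε) (harm : ArmG m n b hb ξ ρ0 ρ w R0 l X ε)
    {Q0 QP QW QPW Q dl : ℝ}
    (q0 : ∀ s, GOK m n κ Pc s → QB m n b (1 / (ξ : ℝ) ^ 2) X s Q0)
    (qP : ∀ s, GOK m n κ Pc s → QB m n b (1 / (ξ : ℝ) ^ 2) (X + P) s QP)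
    (qW : ∀ s, GOK m n κ Pc s → QB m n b (1 / (ξ : ℝ) ^ 2) (X + W) s QW)
    (qPW : ∀ s, GOK m n κ Pc s → QB m n b (1 / (ξ : ℝ) ^ 2) (X + P + W) s QPW)
    (hQ1 : QPW * Q0 ≤ Q) (hQ2 : QP * QW ≤ Q) (hQ : 0 ≤ Q)
    (hV : Vol m n b (1 / (ξ : ℝ) ^ 2) dl) :
    |ZG _ b (1 / (ξ : ℝ) ^ 2) (X + P + W) * ZG _ b (1 / (ξ : ℝ) ^ 2) X -
        ZG _ b (1 / (ξ : ℝ) ^ 2) (X + P) * ZG _ b (1 / (ξ : ℝ) ^ 2) (X + W)| ≤
      (((m + 1) * (n + 2) / ρ0 + 1 : ℕ) : ℝ) ^ 2 * (ε ^ (1 / 4 : ℝ) * Q * Real.exp (2 * dl) *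
        Z0 ((m + 1) * (n + 2)) b (1 / (ξ : ℝ) ^ 2) ^ 2) := by
  classical
  have ht : 0 < 1 / (ξ : ℝ) ^ 2 := by positivity
  have h4 : κ ≤ m := by nlinarith [Nat.zero_le (Pc.card * (2 * κ))]
  -- the net
  obtain ⟨C, hC, hCn⟩ := net (N := (m + 1) * (n + 2)) ρ0 h0
  set k : ℕ := R0 + l / 2 with hk
  set J : Finset (Tor ((m + 1) * (n + 2))) :=
    C.filter fun c => ∃ z, sd w z = k ∧ z ∈ ball c ρ0 with hJ
  have hJc : (J.card : ℝ) ≤ (((m + 1) * (n + 2) / ρ0 + 1 : ℕ) : ℝ) ^ 2 := by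
    have : J.card ≤ ((m + 1) * (n + 2) / ρ0 + 1) ^ 2 := (Finset.card_filter_le _ _).trans hC
    exact_mod_cast this
  -- the region around a point of the net
  have hreg : ∀ c ∈ J, ∀ v, sd c v ≤ m + 1 → R0 < sd w v ∧ sd w v < R0 + l := by
    intro c hc v hv
    rw [hJ, Finset.mem_filter] at hc
    obtain ⟨_, z, hz, hzc⟩ := hc
    rw [mem_ball] at hzc
    have t1 := sd_tri w z c
    have t2 := sd_tri w c z
    rw [sd_symm z c] at t1
    have t3 := sd_tri w c v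
    have t4 := sd_tri w v c
    rw [sd_symm v c] at t4
    omega
  -- the grids
  have hgrid : ∀ c : Tor ((m + 1) * (n + 2)), ∃ (s : Tor ((m + 1) * (n + 2))) (G : GF m), c ∈ J →
      (∀ x y, G x y ≤ 1) ∧ GOK m n κ Pc s ∧
      (∀ h h' : Tor ((m + 1) * (n + 2)) → ℤ,
        Cb.qa (sgF (eS _) (eT _) (I := fun _ => wI b) (fun _ => wI_pos hb)
        (fun _ => logC_wI hb.le) (Efr (ball w R0) (Far w (R0 + l)))
        (X + P + W).1) (ball c ρ0) (ball c ρ) (fun v => (h v, h' v)) =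
          G (fun a c' => h (pt s a c')) (fun a c' => h' (pt s a c'))) ∧
      Evn m n b (1 / (ξ : ℝ) ^ 2) (X + P + W) X s G ε ∧
      Evn m n b (1 / (ξ : ℝ) ^ 2) (X + P) (X + W) s G ε := by
    intro c
    by_cases hc : c ∈ J
    · obtain ⟨s, G, hh⟩ := arm_flat hb hξ h1 h2 hP hW Pc hPc hPg hε harm c (hreg c hc)
      exact ⟨s, G, fun _ => hh⟩
    · exact ⟨0, fun _ _ => 0, fun h => absurd h hc⟩
  choose s G hsG using hgrid
  -- swap
  have hdis : Disjoint (ball w R0) (Far w (R0 + l)) := by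
    rw [Finset.disjoint_left]
    intro v a1 a2
    rw [mem_ball] at a1
    rw [mem_Far] at a2
    omega
  have hD := swD_of hdis (X := X) hP hW
  have gδ : ∀ e : Ed ((m + 1) * (n + 2)), sd w (eS _ e) ≤ sd w (eT _ e) + 1 ∧
      sd w (eT _ e) ≤ sd w (eS _ e) + 1 := by
    intro e
    have t0 := sd_eS_eT e
    have t1 := sd_tri w (eT _ e) (eS _ e)
    have t2 := sd_tri w (eS _ e) (eT _ e)
    rw [sd_symm (eT _ e) (eS _ e)] at t1
    omega
  have g1 : ∀ v ∈ ball w R0, sd w v < k := by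
    intro v hv
    rw [mem_ball] at hv
    omega
  have g2 : ∀ v ∈ Far w (R0 + l), k ≤ sd w v := by
    intro v hv
    rw [mem_Far] at hv
    omega
  have g3 : ∀ z, sd w z = k → ∃ c ∈ J, z ∈ ball c ρ0 := by
    intro z hz
    obtain ⟨c, hc, hzc⟩ := hCn z
    exact ⟨c, Finset.mem_filter.2 ⟨hc, z, hz, hzc⟩, hzc⟩
  have g4 : ∀ c ∈ J, ∀ v ∈ ball w R0, v ∉ ball c ρ := by
    intro c hc v hv hv'
    rw [mem_ball] at hv hv'
    have := hreg c hc v (by omega)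
    omega
  have hc0 : 0 ≤ ε ^ (1 / 4 : ℝ) * Q * Real.exp (2 * dl) *
      Z0 ((m + 1) * (n + 2)) b (1 / (ξ : ℝ) ^ 2) ^ 2 := by positivity
  have hfin : ∀ {q : ℝ}, q ≤ Q → (J.card : ℝ) * (ε ^ (1 / 4 : ℝ) * q * Real.exp (2 * dl) *
      Z0 ((m + 1) * (n + 2)) b (1 / (ξ : ℝ) ^ 2) ^ 2) ≤
      (((m + 1) * (n + 2) / ρ0 + 1 : ℕ) : ℝ) ^ 2 * (ε ^ (1 / 4 : ℝ) * Q * Real.exp (2 * dl) *
        Z0 ((m + 1) * (n + 2)) b (1 / (ξ : ℝ) ^ 2) ^ 2) := by
    intro q hq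
    have z1 : ε ^ (1 / 4 : ℝ) * q * Real.exp (2 * dl) *
        Z0 ((m + 1) * (n + 2)) b (1 / (ξ : ℝ) ^ 2) ^ 2 ≤ ε ^ (1 / 4 : ℝ) * Q *
          Real.exp (2 * dl) * Z0 ((m + 1) * (n + 2)) b (1 / (ξ : ℝ) ^ 2) ^ 2 := by
      have := Real.rpow_nonneg hε (1 / 4 : ℝ)
      gcongr
    exact (mul_le_mul_of_nonneg_left z1 (Nat.cast_nonneg _)).trans
      (mul_le_mul_of_nonneg_right hJc hc0)
  have u1 := two_le hb ht (fun _ => wI_pos hb) (fun _ => logC_wI hb.le) hD J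
    (fun c => ball c ρ0) (fun c => ball c ρ) gδ g1 g2 g3 g4 s G
    (fun c hc => (hsG c hc).1) (fun c hc => (hsG c hc).2.2.1)
    (fun c hc => qPW _ (hsG c hc).2.1) (fun c hc => q0 _ (hsG c hc).2.1) hε
    (fun c hc => (hsG c hc).2.2.2.1) hV
  have u2 := two_ge hb ht (fun _ => wI_pos hb) (fun _ => logC_wI hb.le) hD J
    (fun c => ball c ρ0) (fun c => ball c ρ) gδ g1 g2 g3 g4 s G
    (fun c hc => (hsG c hc).1) (fun c hc => (hsG c hc).2.2.1)
    (fun c hc => qP _ (hsG c hc).2.1) (fun c hc => qW _ (hsG c hc).2.1) hε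
    (fun c hc => (hsG c hc).2.2.2.2) hV
  have u3 := hfin hQ1
  have u4 := hfin hQ2
  rw [abs_le]
  constructor <;> linarith

/-- the base in the gap: on each block the edge field is the gradient of `v`,
`|v x - v y| ≤ (2 L₀ / ξ) sd x y` -/
def FltG (m n : ℕ) [NeZero ((m + 1) * (n + 2))] (w : Tor ((m + 1) * (n + 2))) (R0 l : ℕ)
    (X : GE ((m + 1) * (n + 2))) (L : ℝ) : Prop :=
  ∀ s : Tor ((m + 1) * (n + 2)), Gap w R0 l s → ∃ v : Tor ((m + 1) * (n + 2)) → ℝ, Flt m s X v ∧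
    ∀ a c a' c' k : ℕ, a ≤ m + 1 → c ≤ m + 1 → a' ≤ m + 1 → c' ≤ m + 1 → a' ≤ a + k →
      a ≤ a' + k → c' ≤ c + k → c ≤ c' + k → |v (pt s a c) - v (pt s a' c')| ≤ L * k

/-- **`loc_base` with numbers** -/
theorem loc_base_num (hb : 0 < b) {ξ A K κ l : ℕ} {L₀ c C : ℝ} (hc : 0 < c)
    (hC : 0 < C) (H : LN m n b hb ξ A L₀ c C) (g : Geo m n ξ A K κ l c)
    (w : Tor ((m + 1) * (n + 2))) {R0 : ℕ}
    {X P W : GE ((m + 1) * (n + 2))} (hP : Sup P (ball w R0)) (hW : Sup W (Far w (R0 + l)))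
    (hX : FltG m n w R0 l X (2 * L₀ / ξ))
    (Pc : Finset (Tor ((m + 1) * (n + 2)))) (hPc : Pc.card ≤ K)
    (hPg : ∀ p ∈ Pc, sd w p ≤ R0 ∨ R0 + l ≤ sd w p)
    {Q0 QP QW QPW Q : ℝ}
    (q0 : ∀ s, GOK m n κ Pc s → QB m n b (1 / (ξ : ℝ) ^ 2) X s Q0)
    (qP : ∀ s, GOK m n κ Pc s → QB m n b (1 / (ξ : ℝ) ^ 2) (X + P) s QP)
    (qW : ∀ s, GOK m n κ Pc s → QB m n b (1 / (ξ : ℝ) ^ 2) (X + W) s QW)
    (qPW : ∀ s, GOK m n κ Pc s → QB m n b (1 / (ξ : ℝ) ^ 2) (X + P + W) s QPW)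
    (hQ1 : QPW * Q0 ≤ Q) (hQ2 : QP * QW ≤ Q) (hQ : 0 ≤ Q) :
    |ZG _ b (1 / (ξ : ℝ) ^ 2) (X + P + W) * ZG _ b (1 / (ξ : ℝ) ^ 2) X -
        ZG _ b (1 / (ξ : ℝ) ^ 2) (X + P) * ZG _ b (1 / (ξ : ℝ) ^ 2) (X + W)| ≤
      KL A c C * ((((m + 1) * (n + 2) : ℕ) : ℝ) / ξ) ^ 2 * Real.exp (-(c * κ / (4 * ξ))) * Q *
        Z0 ((m + 1) * (n + 2)) b (1 / (ξ : ℝ) ^ 2) ^ 2 := by
  have hn := g.num hc hC
  obtain ⟨hA, hAξ, hκ, hK, hl, hv⟩ := g
  have hξ : 0 < ξ := by omega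
  have hA0 : 1 ≤ ξ / A := (Nat.one_le_div_iff (by omega)).2 hAξ
  have hA1 : ξ / A ≤ ξ / 2 := Nat.div_le_div_left hA (by norm_num)
  have hcard : (Pc.card + 1) * (2 * κ) < m + 1 :=
    lt_of_le_of_lt (Nat.mul_le_mul_right _ (by omega)) hK
  have hκm : 2 * κ < m + 1 := by nlinarith [Nat.zero_le (K * (2 * κ))]
  have hρ : ξ / A ≤ κ - 1 := by omega
  have hε : 0 ≤ C * Real.exp (-(c * ((κ - 1 : ℕ) : ℝ) / ξ)) := by positivity
  have harm : ArmG m n b hb ξ (ξ / A) (κ - 1) w R0 l X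
      (C * Real.exp (-(c * ((κ - 1 : ℕ) : ℝ) / ξ))) := by
    intro s hs
    obtain ⟨v, hv1, hv2⟩ := hX s hs
    refine ⟨v, hv1, fun c0 p hp => H.arm _ ?_ _ _⟩
    have h5 := H764.lipS_foF m s hv2
    intro z z'
    have := h5 z z'
    simpa only [add_sub_add_right_eq_sub] using this
  have h := loc_base hb hξ w hA0 hρ (by omega) (by omega) hP hW Pc hcard hPg hε harm
    q0 qP qW qPW hQ1 hQ2 hQ H.vol
  refine h.trans ?_
  have hZ := Z0_pos (N := (m + 1) * (n + 2)) hb (show 0 < 1 / (ξ : ℝ) ^ 2 by positivity)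
  calc _ = ((((m + 1) * (n + 2)) / (ξ / A) + 1 : ℕ) : ℝ) ^ 2 *
        ((C * Real.exp (-(c * ((κ - 1 : ℕ) : ℝ) / ξ))) ^ (1 / 4 : ℝ) *
        Real.exp (2 * (((n : ℝ) + 2) ^ 2 / 4 *
          (C * Real.exp (-(c * (2 * ((m : ℝ) + 1)) / ξ)))))) *
        (Q * Z0 ((m + 1) * (n + 2)) b (1 / (ξ : ℝ) ^ 2) ^ 2) := by ring
    _ ≤ _ := mul_le_mul_of_nonneg_right hn (by positivity)
    _ = _ := by ring

end main

end

end Vale.Agent.P159.H474.Cb
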