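import Vale.Agent.P159.H474.Cb13
import Vale.Agent.P159.H529.Qf4

/-!
P159, helper474, module CB, part 14: the block numbers `QB` from helper529's wired correlations.

`Qc b X z ρ` : wired correlation of the charges of `X` in the box of radius `ρ` around the face `z`;
`QB_EQ` : for centres with separated boxes, every grid which keeps the distance `κ` from the centres,
`QB X s (∏ Qc b X z (r z))`.
-/

set_option linter.unusedSectionVars false

namespace Vale.Agent.P159.H474.Cb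

open scoped ENNReal
open Finset
open Vale.Agent.P159.H37
open Vale.Agent.P159.H770 (Ed eS eT wTD)
open Vale.Agent.P159.TM.SpecC (Tor wT)
open Vale.Agent.P159.TM.H459 (ball mem_ball sd sn sd_symm sd_tri)
open Vale.Agent.P159.H513 (cuZ)
open Vale.Agent.P159.H529.Qf (EQ EQ_union EQ_tr EQ_congr EQ_zero EQ_nonneg EQ_mono EQ_le_one EQ_one
  InB fold_Z0 root_EQ)
open Vale.Agent.P159.H773 (mm)

noncomputable section

section chg

variable {N : ℕ} [NeZero N]

/-- the charges of `X` seen from the face `z` -/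
def chg (X : GE N) (z : Tor N) (v : ℤ × ℤ) : ℤ := cuZ X.1 (z + ((v.1 : ZMod N), (v.2 : ZMod N)))

/-- wired correlation of the charges of `X` in the box of radius `ρ` around the face `z` -/
def Qc (b : ℝ) (X : GE N) (z : Tor N) (ρ : ℕ) : ℝ := EQ b (box ρ) (chg X z)

end chg

lemma EQ_biUnion {b : ℝ} {ι : Type*} [DecidableEq ι] (K : Finset ι) (f : ι → Finset (ℤ × ℤ))
    (q : ℤ × ℤ → ℤ) (h : ∀ z ∈ K, ∀ z' ∈ K, z ≠ z' → H773.Sep (f z) (f z')) :
    EQ b (K.biUnion f) q = ∏ z ∈ K, EQ b (f z) q := by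
  induction K using Finset.induction_on with
  | empty =>
    rw [Finset.biUnion_empty, Finset.prod_empty]
    exact EQ_zero b fun v hv => absurd hv (Finset.notMem_empty v)
  | insert z K hz ih =>
    rw [Finset.biUnion_insert, Finset.prod_insert hz, EQ_union, ih]
    · exact fun a ha a' ha' => h a (Finset.mem_insert_of_mem ha) a' (Finset.mem_insert_of_mem ha')
    · intro u hu v hv
      obtain ⟨a, ha, hv'⟩ := Finset.mem_biUnion.1 hv
      exact h z (Finset.mem_insert_self _ _) a (Finset.mem_insert_of_mem ha)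
        (fun e => hz (e ▸ ha)) u hu v hv'

section main

variable {m n : ℕ} [NeZero ((m + 1) * (n + 2))] [NeZero ((m + 1) * 2)] {b t : ℝ}

/-- local coordinates -/
def lcx (m : ℕ) {N : ℕ} (s z : Tor N) : ℤ × ℤ :=
  ((((z - s).1.val % (m + 1) : ℕ) : ℤ), (((z - s).2.val % (m + 1) : ℕ) : ℤ))

lemma blk_lt {m n : ℕ} [NeZero ((m + 1) * (n + 2))] (x : ZMod ((m + 1) * (n + 2))) :
    x.val / (m + 1) < n + 2 := by
  rw [Nat.div_lt_iff_lt_mul (Nat.succ_pos m)]
  have := ZMod.val_lt x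
  rw [mul_comm (n + 2)]
  exact this

/-- the block -/
def blkz (m n : ℕ) [NeZero ((m + 1) * (n + 2))] (s z : Tor ((m + 1) * (n + 2))) :
    Fin (n + 2) × Fin (n + 2) :=
  (⟨(z - s).1.val / (m + 1), blk_lt _⟩, ⟨(z - s).2.val / (m + 1), blk_lt _⟩)

lemma loc1 {N : ℕ} [NeZero N] (m : ℕ) (x : ZMod N) (w : ℤ)
    (h : 0 ≤ w + ((x.val % (m + 1) : ℕ) : ℤ)) :
    (((m + 1) * (x.val / (m + 1)) + (w + ((x.val % (m + 1) : ℕ) : ℤ)).toNat : ℕ) : ZMod N) =
      x + (w : ZMod N) := by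
  have l1 : (((m + 1) * (x.val / (m + 1)) + (w + ((x.val % (m + 1) : ℕ) : ℤ)).toNat : ℕ) : ℤ) =
      (x.val : ℤ) + w := by
    rw [Nat.cast_add, Int.toNat_of_nonneg h]
    have h1 : (((m + 1) * (x.val / (m + 1)) : ℕ) : ℤ) + ((x.val % (m + 1) : ℕ) : ℤ) = x.val := by
      rw [← Nat.cast_add, Nat.div_add_mod]
    linarith
  have l2 := congrArg (Int.cast : ℤ → ZMod N) l1
  rw [Int.cast_natCast, Int.cast_add, Int.cast_natCast, ZMod.natCast_zmod_val] at l2
  exact l2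

lemma loc2 {N : ℕ} [NeZero N] (m : ℕ) {x y : ZMod N} (h : x.val / (m + 1) = y.val / (m + 1)) :
    (y - x).valMinAbs.natAbs ≤
      (((y.val % (m + 1) : ℕ) : ℤ) - ((x.val % (m + 1) : ℕ) : ℤ)).natAbs := by
  have e : y - x = (((((y.val % (m + 1) : ℕ) : ℤ) - ((x.val % (m + 1) : ℕ) : ℤ)) : ℤ) : ZMod N) := by
    have l1 : (((y.val % (m + 1) : ℕ) : ℤ) - ((x.val % (m + 1) : ℕ) : ℤ)) =
        (y.val : ℤ) - (x.val : ℤ) := by
      have o1 := Nat.div_add_mod x.val (m + 1)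
      have o2 := Nat.div_add_mod y.val (m + 1)
      rw [h] at o1
      omega
    rw [l1]
    push_cast
    rw [ZMod.natCast_zmod_val, ZMod.natCast_zmod_val]
  rw [e]
  exact H764.vma_le _

/-- the region of a centre -/
def rgn (m : ℕ) {N : ℕ} (s : Tor N) (r : Tor N → ℕ) (z : Tor N) : Finset (ℤ × ℤ) :=
  H773.tr (box (r z)) (lcx m s z)

/-- the charges of a block -/
def qblk (m n : ℕ) (s : Tor ((m + 1) * (n + 2))) (η : Ed ((m + 1) * (n + 2)) → ℤ)
    (p : Fin (n + 2) × Fin (n + 2)) (v : ℤ × ℤ) : ℤ :=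
  cuZ (trD s η) ((((m + 1) * p.1 + v.1.toNat : ℕ) : ZMod ((m + 1) * (n + 2))),
      (((m + 1) * p.2 + v.2.toNat : ℕ) : ZMod ((m + 1) * (n + 2))))

lemma mem_rgn {N : ℕ} {s : Tor N} {r : Tor N → ℕ} {z : Tor N} {v : ℤ × ℤ}
    (hv : v ∈ rgn m s r z) : (v.1 - (((z - s).1.val % (m + 1) : ℕ) : ℤ)).natAbs ≤ r z ∧
      (v.2 - (((z - s).2.val % (m + 1) : ℕ) : ℤ)).natAbs ≤ r z := by
  unfold rgn at hv
  rw [H773.mem_tr, XY.mem_box] at hv
  exact hv

lemma rgn_in {κ : ℕ} {K : Finset (Tor ((m + 1) * (n + 2)))} {s : Tor ((m + 1) * (n + 2))}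
    (hs : GOK m n κ K s) {r : Tor ((m + 1) * (n + 2)) → ℕ} (hr : ∀ z ∈ K, r z + 1 ≤ κ)
    {z : Tor ((m + 1) * (n + 2))} (hz : z ∈ K) {v : ℤ × ℤ} (hv : v ∈ rgn m s r z) :
    (1 ≤ v.1 ∧ v.1 + 1 ≤ m) ∧ (1 ≤ v.2 ∧ v.2 + 1 ≤ m) := by
  have h1 := mem_rgn hv
  have h2 := (hs z hz).1
  have h3 := hr z hz
  omega

lemma rgn_sep0 {N : ℕ} [NeZero N] {r : Tor N → ℕ} {s z z' : Tor N}
    (h : r z + r z' + 2 ≤ sd z z') (b1 : (z - s).1.val / (m + 1) = (z' - s).1.val / (m + 1))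
    (b2 : (z - s).2.val / (m + 1) = (z' - s).2.val / (m + 1)) :
    H773.Sep (rgn m s r z) (rgn m s r z') := by
  intro u hu v hv
  have a1 := mem_rgn hu
  have a2 := mem_rgn hv
  have d1 := loc2 m b1
  have d2 := loc2 m b2
  have e1 : (z' - s).1 - (z - s).1 = (z' - z).1 := by
    show (z'.1 - s.1) - (z.1 - s.1) = z'.1 - z.1
    ring
  have e2 : (z' - s).2 - (z - s).2 = (z' - z).2 := by
    show (z'.2 - s.2) - (z.2 - s.2) = z'.2 - z.2
    ring
  rw [e1] at d1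
  rw [e2] at d2
  have d3 : sd z z' = max ((z' - z).1).valMinAbs.natAbs ((z' - z).2).valMinAbs.natAbs := rfl
  have d4 : XY.nm (u - v) = max (u.1 - v.1).natAbs (u.2 - v.2).natAbs := rfl
  rw [d3] at h
  rw [d4]
  generalize ((z' - z).1).valMinAbs.natAbs = x1 at *
  generalize ((z' - z).2).valMinAbs.natAbs = x2 at *
  generalize (z - s).1.val % (m + 1) = y1 at *
  generalize (z - s).2.val % (m + 1) = y2 at *
  generalize (z' - s).1.val % (m + 1) = y3 at *
  generalize (z' - s).2.val % (m + 1) = y4 at *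
  rcases le_max_iff.1 h with h | h
  · refine le_max_of_le_left ?_
    omega
  · refine le_max_of_le_right ?_
    omega

lemma rgn_sep {r : Tor ((m + 1) * (n + 2)) → ℕ} {s z z' : Tor ((m + 1) * (n + 2))}
    (h : r z + r z' + 2 ≤ sd z z') (hb : blkz m n s z = blkz m n s z') :
    H773.Sep (rgn m s r z) (rgn m s r z') :=
  rgn_sep0 h (congrArg (fun p : Fin (n + 2) × Fin (n + 2) => (p.1 : ℕ)) hb)
    (congrArg (fun p : Fin (n + 2) × Fin (n + 2) => (p.2 : ℕ)) hb)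

lemma EQ_rgn {κ : ℕ} {K : Finset (Tor ((m + 1) * (n + 2)))} {s : Tor ((m + 1) * (n + 2))}
    (hs : GOK m n κ K s) {r : Tor ((m + 1) * (n + 2)) → ℕ} (hr : ∀ z ∈ K, r z + 1 ≤ κ)
    (X : GE ((m + 1) * (n + 2))) {z : Tor ((m + 1) * (n + 2))} (hz : z ∈ K)
    {p : Fin (n + 2) × Fin (n + 2)} (hzp : blkz m n s z = p) :
    EQ b (rgn m s r z) (qblk m n s X.1 p) = Qc b X z (r z) := by
  have h5 := EQ_tr b (box (r z)) (lcx m s z) (fun v => qblk m n s X.1 p (v + lcx m s z))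
  simp only [sub_add_cancel] at h5
  unfold rgn
  rw [h5]
  unfold Qc
  refine EQ_congr fun v hv => ?_
  rw [XY.mem_box] at hv
  have h2 := (hs z hz).1
  have h3 := hr z hz
  have k1 := loc1 m (z - s).1 v.1 (by omega)
  have k2 := loc1 m (z - s).2 v.2 (by omega)
  have e : qblk m n s X.1 p (v + lcx m s z) =
      cuZ (trD s X.1) ((z - s).1 + (v.1 : ZMod ((m + 1) * (n + 2))),
        (z - s).2 + (v.2 : ZMod ((m + 1) * (n + 2)))) := by
    rw [← k1, ← k2, ← hzp]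
    rfl
  rw [e]
  unfold chg cuZ trD
  have g : (((z - s).1 + (v.1 : ZMod ((m + 1) * (n + 2))),
      (z - s).2 + (v.2 : ZMod ((m + 1) * (n + 2)))) : Tor ((m + 1) * (n + 2))) + s =
      z + ((v.1 : ZMod ((m + 1) * (n + 2))), (v.2 : ZMod ((m + 1) * (n + 2)))) := by
    refine Prod.ext ?_ ?_
    · show z.1 - s.1 + (v.1 : ZMod ((m + 1) * (n + 2))) + s.1 = z.1 + v.1
      ring
    · show z.2 - s.2 + (v.2 : ZMod ((m + 1) * (n + 2))) + s.2 = z.2 + v.2
      ring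
  simp only [add_right_comm _ _ s, g]

/-- **the block numbers from wired correlations** -/
theorem QB_EQ (hb : 0 < b) (ht : 0 < t) (X : GE ((m + 1) * (n + 2))) {κ : ℕ}
    {K : Finset (Tor ((m + 1) * (n + 2)))} {s : Tor ((m + 1) * (n + 2))} (hs : GOK m n κ K s)
    (r : Tor ((m + 1) * (n + 2)) → ℕ) (hr : ∀ z ∈ K, r z + 1 ≤ κ)
    (hsep : ∀ z ∈ K, ∀ z' ∈ K, z ≠ z' → r z + r z' + 2 ≤ sd z z') :
    QB m n b t X s (∏ z ∈ K, Qc b X z (r z)) := by
  classical
  refine ⟨fun p => EQ b ((K.filter fun z => blkz m n s z = p).biUnion (rgn m s r))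
    (qblk m n s X.1 p) ^ 4, fun p => pow_nonneg (EQ_nonneg hb.le _ _) 4, fun p _ => ?_, ?_⟩
  · refine fold_Z0 hb ht (trD s X.1) p.1 p.2 (q := qblk m n s X.1 p) (fun a c _ _ => ?_)
      (fun v hv => ?_) _
    · unfold qblk
      simp only [Int.toNat_natCast]
    · obtain ⟨z, hz, hv'⟩ := Finset.mem_biUnion.1 hv
      exact rgn_in hs hr (Finset.mem_filter.1 hz).1 hv'
  · have e1 : ∀ p ∈ univ.erase ((0, 0) : Fin (n + 2) × Fin (n + 2)),
        (EQ b ((K.filter fun z => blkz m n s z = p).biUnion (rgn m s r))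
          (qblk m n s X.1 p) ^ 4) ^ (1 / 4 : ℝ) =
          ∏ z ∈ K with blkz m n s z = p, Qc b X z (r z) := by
      intro p _
      rw [root_EQ hb.le, EQ_biUnion]
      · refine Finset.prod_congr rfl fun z hz => ?_
        obtain ⟨hz, hzp⟩ := Finset.mem_filter.1 hz
        exact EQ_rgn hs hr X hz hzp
      · intro z hz z' hz' hne
        obtain ⟨hz, hzp⟩ := Finset.mem_filter.1 hz
        obtain ⟨hz', hzp'⟩ := Finset.mem_filter.1 hz'
        exact rgn_sep (hsep z hz z' hz' hne) (hzp.trans hzp'.symm)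
    rw [Finset.prod_congr rfl e1]
    refine le_of_eq (Finset.prod_fiberwise_of_maps_to (fun z hz => ?_) _)
    rw [Finset.mem_erase]
    refine ⟨fun h => (hs z hz).2 ?_, Finset.mem_univ _⟩
    have b1 : (z - s).1.val / (m + 1) = 0 :=
      congrArg (fun p : Fin (n + 2) × Fin (n + 2) => (p.1 : ℕ)) h
    have b2 : (z - s).2.val / (m + 1) = 0 :=
      congrArg (fun p : Fin (n + 2) × Fin (n + 2) => (p.2 : ℕ)) h
    exact ⟨(Nat.div_eq_zero_iff_lt (Nat.succ_pos m)).1 b1,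
      (Nat.div_eq_zero_iff_lt (Nat.succ_pos m)).1 b2⟩

end main

end

end Vale.Agent.P159.H474.Cb
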