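import Vale.Agent.P159.H474.Cb15

/-!
P159, helper474, module CB, part 16: **locality of decorated group elements** (529's route 7216).

`loc_sides` : the two directions with their own numbers; `loc_log` : if for every corner `Y` and every
constant `QB (Y + c) s QY` and `QY * zn 0 ≤ e^pr * zn Y`, then the mixed difference of `log zn` is at
most `4 KL (N / ξ)² e^(-c κ / (4 ξ)) e^(2 pr) + 8 ω²`.
-/

set_option linter.unusedSectionVars false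

namespace Vale.Agent.P159.H474.Cb

open scoped ENNReal
open Finset
open Vale.Agent.P159.H37
open Vale.Agent.P159.TM
open Vale.Agent.P159.H770 (Ed eS eT wTD wI_pos)
open Vale.Agent.P159.TM.SpecC (Tor wT)
open Vale.Agent.P159.H353 (wI)
open Vale.Agent.P159.H764 (VB Dp ArmLe sgF)
open Vale.Agent.P159.TM.H459 (ball mem_ball sd sn sd_symm sd_tri)
open Vale.Agent.P159.T1.H897 (LogC logC_wI)
open Vale.Agent.P159.H612 (zc zn zc_torus omE EdM edM_torus log_rel)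

noncomputable section

section main

variable {m n : ℕ} [NeZero ((m + 1) * (n + 2))] [NeZero ((m + 1) * 2)] {b : ℝ}

/-- **the two directions, each with its own number** -/
theorem loc_sides (hb : 0 < b) {ξ : ℕ} (hξ : 0 < ξ) (w : Tor ((m + 1) * (n + 2)))
    {R0 l ρ0 ρ κ : ℕ} (h0 : 1 ≤ ρ0) (h1 : ρ0 ≤ ρ) (h2 : ρ + 1 ≤ κ) (h3 : 2 * (ρ0 + m + 3) ≤ l)
    {X P W : GE ((m + 1) * (n + 2))} (hP : Sup P (ball w R0)) (hW : Sup W (Far w (R0 + l)))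
    (Pc : Finset (Tor ((m + 1) * (n + 2)))) (hPc : (Pc.card + 1) * (2 * κ) < m + 1)
    (hPg : ∀ p ∈ Pc, sd w p ≤ R0 ∨ R0 + l ≤ sd w p)
    {ε : ℝ} (hε : 0 ≤ ε) (harm : ArmG m n b hb ξ ρ0 ρ w R0 l X ε)
    {Q0 QP QW QPW dl : ℝ}
    (q0 : ∀ s, GOK m n κ Pc s → QB m n b (1 / (ξ : ℝ) ^ 2) X s Q0)
    (qP : ∀ s, GOK m n κ Pc s → QB m n b (1 / (ξ : ℝ) ^ 2) (X + P) s QP)
    (qW : ∀ s, GOK m n κ Pc s → QB m n b (1 / (ξ : ℝ) ^ 2) (X + W) s QW)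
    (qPW : ∀ s, GOK m n κ Pc s → QB m n b (1 / (ξ : ℝ) ^ 2) (X + P + W) s QPW)
    (hQ0 : 0 ≤ Q0) (hQP : 0 ≤ QP) (hQW : 0 ≤ QW) (hQPW : 0 ≤ QPW)
    (hV : Vol m n b (1 / (ξ : ℝ) ^ 2) dl) :
    ZG _ b (1 / (ξ : ℝ) ^ 2) (X + P + W) * ZG _ b (1 / (ξ : ℝ) ^ 2) X ≤
        ZG _ b (1 / (ξ : ℝ) ^ 2) (X + P) * ZG _ b (1 / (ξ : ℝ) ^ 2) (X + W) +
      (((m + 1) * (n + 2) / ρ0 + 1 : ℕ) : ℝ) ^ 2 * (ε ^ (1 / 4 : ℝ) * (QPW * Q0) *
        Real.exp (2 * dl) * Z0 ((m + 1) * (n + 2)) b (1 / (ξ : ℝ) ^ 2) ^ 2) ∧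
    ZG _ b (1 / (ξ : ℝ) ^ 2) (X + P) * ZG _ b (1 / (ξ : ℝ) ^ 2) (X + W) ≤
        ZG _ b (1 / (ξ : ℝ) ^ 2) (X + P + W) * ZG _ b (1 / (ξ : ℝ) ^ 2) X +
      (((m + 1) * (n + 2) / ρ0 + 1 : ℕ) : ℝ) ^ 2 * (ε ^ (1 / 4 : ℝ) * (QP * QW) *
        Real.exp (2 * dl) * Z0 ((m + 1) * (n + 2)) b (1 / (ξ : ℝ) ^ 2) ^ 2) := by
  classical
  have ht : 0 < 1 / (ξ : ℝ) ^ 2 := by positivity
  have h4 : κ ≤ m := by nlinarith [Nat.zero_le (Pc.card * (2 * κ))]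
  -- the net
  obtain ⟨C, hC, hCn⟩ := net (N := (m + 1) * (n + 2)) ρ0 h0
  set k : ℕ := R0 + l / 2 with hk
  set J : Finset (Tor ((m + 1) * (n + 2))) :=
    C.filter fun c => ∃ z, sd w z = k ∧ z ∈ ball c ρ0 with hJ
  have hJc : (J.card : ℝ) ≤ (((m + 1) * (n + 2) / ρ0 + 1 : ℕ) : ℝ) ^ 2 := by
    have : J.card ≤ ((m + 1) * (n + 2) / ρ0 + 1) ^ 2 := (Finset.card_filter_le _ _).trans hC
    exact_mod_cast this
  -- the region around a point of the net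
  have hreg : ∀ c ∈ J, ∀ v, sd c v ≤ m + 1 → R0 < sd w v ∧ sd w v < R0 + l := by
    intro c hc v hv
    rw [hJ, Finset.mem_filter] at hc
    obtain ⟨_, z, hz, hzc⟩ := hc
    rw [mem_ball] at hzc
    have t1 := sd_tri w z c
    have t2 := sd_tri w c z
    rw [sd_symm z c] at t1
    have t3 := sd_tri w c v
    have t4 := sd_tri w v c
    rw [sd_symm v c] at t4
    omega
  -- the grids
  have hgrid : ∀ c : Tor ((m + 1) * (n + 2)), ∃ (s : Tor ((m + 1) * (n + 2))) (G : GF m), c ∈ J →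
      (∀ x y, G x y ≤ 1) ∧ GOK m n κ Pc s ∧
      (∀ h h' : Tor ((m + 1) * (n + 2)) → ℤ,
        Cb.qa (sgF (eS _) (eT _) (I := fun _ => wI b) (fun _ => wI_pos hb)
        (fun _ => logC_wI hb.le) (Efr (ball w R0) (Far w (R0 + l)))
        (X + P + W).1) (ball c ρ0) (ball c ρ) (fun v => (h v, h' v)) =
          G (fun a c' => h (pt s a c')) (fun a c' => h' (pt s a c'))) ∧
      Evn m n b (1 / (ξ : ℝ) ^ 2) (X + P + W) X s G ε ∧
      Evn m n b (1 / (ξ : ℝ) ^ 2) (X + P) (X + W) s G ε := by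
    intro c
    by_cases hc : c ∈ J
    · obtain ⟨s, G, hh⟩ := arm_flat hb hξ h1 h2 hP hW Pc hPc hPg hε harm c (hreg c hc)
      exact ⟨s, G, fun _ => hh⟩
    · exact ⟨0, fun _ _ => 0, fun h => absurd h hc⟩
  choose s G hsG using hgrid
  -- swap
  have hdis : Disjoint (ball w R0) (Far w (R0 + l)) := by
    rw [Finset.disjoint_left]
    intro v a1 a2
    rw [mem_ball] at a1
    rw [mem_Far] at a2
    omega
  have hD := swD_of hdis (X := X) hP hW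
  have gδ : ∀ e : Ed ((m + 1) * (n + 2)), sd w (eS _ e) ≤ sd w (eT _ e) + 1 ∧
      sd w (eT _ e) ≤ sd w (eS _ e) + 1 := by
    intro e
    have t0 := sd_eS_eT e
    have t1 := sd_tri w (eT _ e) (eS _ e)
    have t2 := sd_tri w (eS _ e) (eT _ e)
    rw [sd_symm (eT _ e) (eS _ e)] at t1
    omega
  have g1 : ∀ v ∈ ball w R0, sd w v < k := by
    intro v hv
    rw [mem_ball] at hv
    omega
  have g2 : ∀ v ∈ Far w (R0 + l), k ≤ sd w v := by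
    intro v hv
    rw [mem_Far] at hv
    omega
  have g3 : ∀ z, sd w z = k → ∃ c ∈ J, z ∈ ball c ρ0 := by
    intro z hz
    obtain ⟨c, hc, hzc⟩ := hCn z
    exact ⟨c, Finset.mem_filter.2 ⟨hc, z, hz, hzc⟩, hzc⟩
  have g4 : ∀ c ∈ J, ∀ v ∈ ball w R0, v ∉ ball c ρ := by
    intro c hc v hv hv'
    rw [mem_ball] at hv hv'
    have := hreg c hc v (by omega)
    omega
  have hfin : ∀ {q : ℝ}, 0 ≤ q → (J.card : ℝ) * (ε ^ (1 / 4 : ℝ) * q * Real.exp (2 * dl) *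
      Z0 ((m + 1) * (n + 2)) b (1 / (ξ : ℝ) ^ 2) ^ 2) ≤
      (((m + 1) * (n + 2) / ρ0 + 1 : ℕ) : ℝ) ^ 2 * (ε ^ (1 / 4 : ℝ) * q * Real.exp (2 * dl) *
        Z0 ((m + 1) * (n + 2)) b (1 / (ξ : ℝ) ^ 2) ^ 2) := by
    intro q hq
    have := Real.rpow_nonneg hε (1 / 4 : ℝ)
    exact mul_le_mul_of_nonneg_right hJc (by positivity)
  have u1 := two_le hb ht (fun _ => wI_pos hb) (fun _ => logC_wI hb.le) hD J
    (fun c => ball c ρ0) (fun c => ball c ρ) gδ g1 g2 g3 g4 s G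
    (fun c hc => (hsG c hc).1) (fun c hc => (hsG c hc).2.2.1)
    (fun c hc => qPW _ (hsG c hc).2.1) (fun c hc => q0 _ (hsG c hc).2.1) hε
    (fun c hc => (hsG c hc).2.2.2.1) hV
  have u2 := two_ge hb ht (fun _ => wI_pos hb) (fun _ => logC_wI hb.le) hD J
    (fun c => ball c ρ0) (fun c => ball c ρ) gδ g1 g2 g3 g4 s G
    (fun c hc => (hsG c hc).1) (fun c hc => (hsG c hc).2.2.1)
    (fun c hc => qP _ (hsG c hc).2.1) (fun c hc => qW _ (hsG c hc).2.1) hε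
    (fun c hc => (hsG c hc).2.2.2.2) hV
  exact ⟨u1.trans (by have := hfin (mul_nonneg hQPW hQ0); linarith),
    u2.trans (by have := hfin (mul_nonneg hQP hQW); linarith)⟩

/-- `loc_sides` with numbers -/
theorem loc_sides_num (hb : 0 < b) {ξ A K κ l : ℕ} {L₀ c C : ℝ} (hc : 0 < c)
    (hC : 0 < C) (H : LN m n b hb ξ A L₀ c C) (g : Geo m n ξ A K κ l c)
    (w : Tor ((m + 1) * (n + 2))) {R0 : ℕ}
    {X P W : GE ((m + 1) * (n + 2))} (hP : Sup P (ball w R0)) (hW : Sup W (Far w (R0 + l)))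
    (hX : FltG m n w R0 l X (2 * L₀ / ξ))
    (Pc : Finset (Tor ((m + 1) * (n + 2)))) (hPc : Pc.card ≤ K)
    (hPg : ∀ p ∈ Pc, sd w p ≤ R0 ∨ R0 + l ≤ sd w p)
    {Q0 QP QW QPW : ℝ}
    (q0 : ∀ s, GOK m n κ Pc s → QB m n b (1 / (ξ : ℝ) ^ 2) X s Q0)
    (qP : ∀ s, GOK m n κ Pc s → QB m n b (1 / (ξ : ℝ) ^ 2) (X + P) s QP)
    (qW : ∀ s, GOK m n κ Pc s → QB m n b (1 / (ξ : ℝ) ^ 2) (X + W) s QW)
    (qPW : ∀ s, GOK m n κ Pc s → QB m n b (1 / (ξ : ℝ) ^ 2) (X + P + W) s QPW)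
    (hQ0 : 0 ≤ Q0) (hQP : 0 ≤ QP) (hQW : 0 ≤ QW) (hQPW : 0 ≤ QPW) :
    ZG _ b (1 / (ξ : ℝ) ^ 2) (X + P + W) * ZG _ b (1 / (ξ : ℝ) ^ 2) X ≤
        ZG _ b (1 / (ξ : ℝ) ^ 2) (X + P) * ZG _ b (1 / (ξ : ℝ) ^ 2) (X + W) +
      KL A c C * ((((m + 1) * (n + 2) : ℕ) : ℝ) / ξ) ^ 2 * Real.exp (-(c * κ / (4 * ξ))) *
        ((QPW * Q0) * Z0 ((m + 1) * (n + 2)) b (1 / (ξ : ℝ) ^ 2) ^ 2) ∧
    ZG _ b (1 / (ξ : ℝ) ^ 2) (X + P) * ZG _ b (1 / (ξ : ℝ) ^ 2) (X + W) ≤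
        ZG _ b (1 / (ξ : ℝ) ^ 2) (X + P + W) * ZG _ b (1 / (ξ : ℝ) ^ 2) X +
      KL A c C * ((((m + 1) * (n + 2) : ℕ) : ℝ) / ξ) ^ 2 * Real.exp (-(c * κ / (4 * ξ))) *
        ((QP * QW) * Z0 ((m + 1) * (n + 2)) b (1 / (ξ : ℝ) ^ 2) ^ 2) := by
  have hn := g.num hc hC
  obtain ⟨hA, hAξ, hκ, hK, hl, hv⟩ := g
  have hξ : 0 < ξ := by omega
  have hA0 : 1 ≤ ξ / A := (Nat.one_le_div_iff (by omega)).2 hAξ
  have hA1 : ξ / A ≤ ξ / 2 := Nat.div_le_div_left hA (by norm_num)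
  have hcard : (Pc.card + 1) * (2 * κ) < m + 1 :=
    lt_of_le_of_lt (Nat.mul_le_mul_right _ (by omega)) hK
  have hκm : 2 * κ < m + 1 := by nlinarith [Nat.zero_le (K * (2 * κ))]
  have hρ : ξ / A ≤ κ - 1 := by omega
  have hε : 0 ≤ C * Real.exp (-(c * ((κ - 1 : ℕ) : ℝ) / ξ)) := by positivity
  have harm : ArmG m n b hb ξ (ξ / A) (κ - 1) w R0 l X
      (C * Real.exp (-(c * ((κ - 1 : ℕ) : ℝ) / ξ))) := by
    intro s hs
    obtain ⟨v, hv1, hv2⟩ := hX s hs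
    refine ⟨v, hv1, fun c0 p hp => H.arm _ ?_ _ _⟩
    have h5 := H764.lipS_foF m s hv2
    intro z z'
    have := h5 z z'
    simpa only [add_sub_add_right_eq_sub] using this
  have h := loc_sides hb hξ w hA0 hρ (by omega) (by omega) hP hW Pc hcard hPg hε harm
    q0 qP qW qPW hQ0 hQP hQW hQPW H.vol
  have hZ := Z0_pos (N := (m + 1) * (n + 2)) hb (show 0 < 1 / (ξ : ℝ) ^ 2 by positivity)
  have key : ∀ q : ℝ, 0 ≤ q → ((((m + 1) * (n + 2)) / (ξ / A) + 1 : ℕ) : ℝ) ^ 2 *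
      ((C * Real.exp (-(c * ((κ - 1 : ℕ) : ℝ) / ξ))) ^ (1 / 4 : ℝ) * q *
        Real.exp (2 * (((n : ℝ) + 2) ^ 2 / 4 * (C * Real.exp (-(c * (2 * ((m : ℝ) + 1)) / ξ))))) *
        Z0 ((m + 1) * (n + 2)) b (1 / (ξ : ℝ) ^ 2) ^ 2) ≤
      KL A c C * ((((m + 1) * (n + 2) : ℕ) : ℝ) / ξ) ^ 2 * Real.exp (-(c * κ / (4 * ξ))) *
        (q * Z0 ((m + 1) * (n + 2)) b (1 / (ξ : ℝ) ^ 2) ^ 2) := by
    intro q hq
    calc _ = ((((m + 1) * (n + 2)) / (ξ / A) + 1 : ℕ) : ℝ) ^ 2 *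
          ((C * Real.exp (-(c * ((κ - 1 : ℕ) : ℝ) / ξ))) ^ (1 / 4 : ℝ) *
          Real.exp (2 * (((n : ℝ) + 2) ^ 2 / 4 *
            (C * Real.exp (-(c * (2 * ((m : ℝ) + 1)) / ξ)))))) *
          (q * Z0 ((m + 1) * (n + 2)) b (1 / (ξ : ℝ) ^ 2) ^ 2) := by ring
      _ ≤ _ := mul_le_mul_of_nonneg_right hn (by positivity)
  exact ⟨h.1.trans (by have := key _ (mul_nonneg hQPW hQ0); linarith),
    h.2.trans (by have := key _ (mul_nonneg hQP hQW); linarith)⟩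

/-- the letters of the neutral partition function -/
def zN (m n : ℕ) [NeZero ((m + 1) * (n + 2))] (b : ℝ) (ξ : ℕ) (Y : GE ((m + 1) * (n + 2))) : ℝ :=
  zn (eS ((m + 1) * (n + 2))) (eT _) (fun _ => wI b)
    ((1 / (ξ : ℝ) ^ 2) • (1 : Matrix (Tor ((m + 1) * (n + 2))) _ ℝ)) Y

/-- **the number of a configuration** : block numbers for all grids, against its own partition
function -/
def QZ (m n : ℕ) [NeZero ((m + 1) * (n + 2))] [NeZero ((m + 1) * 2)] (b : ℝ) (ξ κ : ℕ)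
    (Pc : Finset (Tor ((m + 1) * (n + 2)))) (pr : ℝ) (Y : GE ((m + 1) * (n + 2))) : Prop :=
  ∃ q : ℝ, 0 ≤ q ∧ (∀ c1 ∈ Set.Icc (0 : ℝ) 1, ∀ s, GOK m n κ Pc s →
    QB m n b (1 / (ξ : ℝ) ^ 2) (Y + cst _ c1) s q) ∧ q * zN m n b ξ 0 ≤ Real.exp pr * zN m n b ξ Y

lemma log_two {a c x : ℝ} (ha : 0 < a) (hc : 0 < c) (hx0 : 0 ≤ x) (hx : x ≤ 1 / 2)
    (h1 : a ≤ c + x * a) (h2 : c ≤ a + x * c) : |Real.log a - Real.log c| ≤ 2 * x := by
  have h3 : 0 < 1 - x := by linarith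
  have h4 := Vale.Agent.P159.H145.Dz.neg_log_le hx0 hx
  have h5 : Real.log ((1 - x) * a) ≤ Real.log c := Real.log_le_log (by positivity) (by linarith)
  have h6 : Real.log ((1 - x) * c) ≤ Real.log a := Real.log_le_log (by positivity) (by linarith)
  rw [Real.log_mul h3.ne' ha.ne'] at h5
  rw [Real.log_mul h3.ne' hc.ne'] at h6
  rw [abs_le]
  constructor <;> linarith

/-- **locality of decorated group elements** -/
theorem loc_log (hb : 0 < b) {ξ A K κ l : ℕ} {L₀ c C : ℝ} (hc : 0 < c)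
    (hC : 0 < C) (H : LN m n b hb ξ A L₀ c C) (g : Geo m n ξ A K κ l c)
    (w : Tor ((m + 1) * (n + 2))) {R0 : ℕ}
    {X P W : GE ((m + 1) * (n + 2))} (hP : Sup P (ball w R0)) (hW : Sup W (Far w (R0 + l)))
    (hX : FltG m n w R0 l X (2 * L₀ / ξ))
    (Pc : Finset (Tor ((m + 1) * (n + 2)))) (hPc : Pc.card ≤ K)
    (hPg : ∀ p ∈ Pc, sd w p ≤ R0 ∨ R0 + l ≤ sd w p) {pr : ℝ}
    (q0 : QZ m n b ξ κ Pc pr X) (qP : QZ m n b ξ κ Pc pr (X + P))
    (qW : QZ m n b ξ κ Pc pr (X + W)) (qPW : QZ m n b ξ κ Pc pr (X + P + W))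
    (hω : omE (eS ((m + 1) * (n + 2))) (eT _) (fun _ => wI b)
      ((1 / (ξ : ℝ) ^ 2) • (1 : Matrix _ _ ℝ)) ≤ 1 / 16)
    (hη : KL A c C * ((((m + 1) * (n + 2) : ℕ) : ℝ) / ξ) ^ 2 * Real.exp (-(c * κ / (4 * ξ))) *
      Real.exp (2 * pr) ≤ 1 / 4) :
    |Real.log (zN m n b ξ (X + P + W)) - Real.log (zN m n b ξ (X + P)) -
      Real.log (zN m n b ξ (X + W)) + Real.log (zN m n b ξ X)| ≤
      4 * (KL A c C * ((((m + 1) * (n + 2) : ℕ) : ℝ) / ξ) ^ 2 * Real.exp (-(c * κ / (4 * ξ))) *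
        Real.exp (2 * pr)) +
      8 * omE (eS ((m + 1) * (n + 2))) (eT _) (fun _ => wI b)
        ((1 / (ξ : ℝ) ^ 2) • (1 : Matrix _ _ ℝ)) ^ 2 := by
  have hξ : 0 < ξ := by
    have := g.hA
    have := g.hAξ
    omega
  have ht : 0 < 1 / (ξ : ℝ) ^ 2 := by positivity
  have hM : EdM (fun _ : Ed ((m + 1) * (n + 2)) => wI b)
      ((1 / (ξ : ℝ) ^ 2) • (1 : Matrix (Tor ((m + 1) * (n + 2))) _ ℝ)) (1 / (ξ : ℝ) ^ 2) :=
    edM_torus hb (by rw [Matrix.transpose_smul, Matrix.transpose_one]) ht (H789.coer_smul _)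
  obtain ⟨r0, p0, g0, k0⟩ := q0
  obtain ⟨rP, pP, gP, kP⟩ := qP
  obtain ⟨rW, pW, gW, kW⟩ := qW
  obtain ⟨rPW, pPW, gPW, kPW⟩ := qPW
  unfold zN at k0 kP kW kPW ⊢
  set M : Matrix (Tor ((m + 1) * (n + 2))) (Tor ((m + 1) * (n + 2))) ℝ :=
    (1 / (ξ : ℝ) ^ 2) • (1 : Matrix _ _ ℝ) with hMd
  set s := eS ((m + 1) * (n + 2)) with hs
  set t := eT ((m + 1) * (n + 2)) with ht'
  set ω := omE s t (fun _ => wI b) M with hωd
  set D := KL A c C * ((((m + 1) * (n + 2) : ℕ) : ℝ) / ξ) ^ 2 * Real.exp (-(c * κ / (4 * ξ)))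
    with hDd
  have hω0 : 0 ≤ ω := hM.om_nonneg (s := s) (t := t)
  have hD : 0 ≤ D := by
    rw [hDd]
    have := (KL_pos A (c := c) hC).le
    positivity
  refine hM.neu_four (s := s) (t := t) (by linarith) _ _ _ _ fun c1 hc1 => ?_
  set k := Cb.cst ((m + 1) * (n + 2)) c1 with hk
  have hX' : FltG m n w R0 l (X + k) (2 * L₀ / ξ) := by
    intro s hs
    obtain ⟨v, h1, h2⟩ := hX s hs
    exact ⟨v, h1.cst c1, h2⟩
  have e1 : ∀ Y : GE ((m + 1) * (n + 2)), (Y + k).1 = Y.1 := fun Y => by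
    show Y.1 + 0 = Y.1
    rw [add_zero]
  have e : ∀ Y : GE ((m + 1) * (n + 2)),
      ZG _ b (1 / (ξ : ℝ) ^ 2) (Y + k) = zc s t (fun _ => wI b) M Y c1 := by
    intro Y
    rw [hs, ht', zc_torus]
    unfold ZG
    rw [e1]
    rfl
  have e0 : Z0 ((m + 1) * (n + 2)) b (1 / (ξ : ℝ) ^ 2) = zc s t (fun _ => wI b) M 0 0 := by
    rw [hs, ht', zc_torus, H145.cs_zero]
    exact (ZG_zero _ _ _).symm
  have a1 : X + P + W + k = X + k + P + W := by abel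
  have a2 : X + P + k = X + k + P := by abel
  have a3 : X + W + k = X + k + W := by abel
  have h1 := loc_sides_num hb hc hC H g w hP hW hX' Pc hPc hPg (g0 c1 hc1)
    (by rw [← a2]; exact gP c1 hc1) (by rw [← a3]; exact gW c1 hc1)
    (by rw [← a1]; exact gPW c1 hc1) p0 pP pW pPW
  rw [← a1, ← a2, ← a3, e, e, e, e, e0] at h1
  have q1 := hM.zc_pos (X + P + W) c1 (s := s) (t := t)
  have q2 := hM.zc_pos X c1 (s := s) (t := t)
  have q3 := hM.zc_pos (X + P) c1 (s := s) (t := t)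
  have q4 := hM.zc_pos (X + W) c1 (s := s) (t := t)
  have c0 := hM.zc_pos 0 0 (s := s) (t := t)
  have z0 := hM.zn_pos 0 (s := s) (t := t)
  have u0 : zc s t (fun _ => wI b) M 0 0 ≤ (1 + ω) * zn s t (fun _ => wI b) M 0 := by
    have := (abs_le.1 (hM.zc_osc 0 0 (s := s) (t := t))).2
    linarith
  -- one configuration
  have key : ∀ (Y : GE ((m + 1) * (n + 2))) (q : ℝ), 0 ≤ q →
      q * zn s t (fun _ => wI b) M 0 ≤ Real.exp pr * zn s t (fun _ => wI b) M Y →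
      q * zc s t (fun _ => wI b) M 0 0 ≤
        (17 / 15) * (Real.exp pr * zc s t (fun _ => wI b) M Y c1) := by
    intro Y q hq hk
    have lY : (1 - ω) * zn s t (fun _ => wI b) M Y ≤ zc s t (fun _ => wI b) M Y c1 := by
      have := (abs_le.1 (hM.zc_osc Y c1 (s := s) (t := t))).1
      linarith
    have pY := hM.zn_pos Y (s := s) (t := t)
    have hep := Real.exp_pos pr
    calc q * zc s t (fun _ => wI b) M 0 0 ≤ q * ((1 + ω) * zn s t (fun _ => wI b) M 0) :=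
          mul_le_mul_of_nonneg_left u0 hq
      _ = (1 + ω) * (q * zn s t (fun _ => wI b) M 0) := by ring
      _ ≤ (1 + ω) * (Real.exp pr * zn s t (fun _ => wI b) M Y) :=
          mul_le_mul_of_nonneg_left hk (by linarith)
      _ ≤ (17 / 15 * (1 - ω)) * (Real.exp pr * zn s t (fun _ => wI b) M Y) :=
          mul_le_mul_of_nonneg_right (by linarith) (by positivity)
      _ = 17 / 15 * (Real.exp pr * ((1 - ω) * zn s t (fun _ => wI b) M Y)) := by ring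
      _ ≤ _ := by gcongr
  have key2 : ∀ (Y Y' : GE ((m + 1) * (n + 2))) (q q' : ℝ), 0 ≤ q → 0 ≤ q' →
      q * zn s t (fun _ => wI b) M 0 ≤ Real.exp pr * zn s t (fun _ => wI b) M Y →
      q' * zn s t (fun _ => wI b) M 0 ≤ Real.exp pr * zn s t (fun _ => wI b) M Y' →
      D * ((q * q') * zc s t (fun _ => wI b) M 0 0 ^ 2) ≤
        (3 / 2 * (D * Real.exp (2 * pr))) * (zc s t (fun _ => wI b) M Y c1 *
          zc s t (fun _ => wI b) M Y' c1) := by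
    intro Y Y' q q' hq hq' hk hk'
    have h2 := key Y q hq hk
    have h3 := key Y' q' hq' hk'
    have pY := hM.zc_pos Y c1 (s := s) (t := t)
    have pY' := hM.zc_pos Y' c1 (s := s) (t := t)
    have hep := Real.exp_pos pr
    have h4 := mul_le_mul h2 h3 (by positivity) (by positivity)
    have e5 : Real.exp (2 * pr) = Real.exp pr * Real.exp pr := by
      rw [← Real.exp_add]
      congr 1
      ring
    calc D * ((q * q') * zc s t (fun _ => wI b) M 0 0 ^ 2) =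
          D * ((q * zc s t (fun _ => wI b) M 0 0) * (q' * zc s t (fun _ => wI b) M 0 0)) := by ring
      _ ≤ D * (17 / 15 * (Real.exp pr * zc s t (fun _ => wI b) M Y c1) *
          (17 / 15 * (Real.exp pr * zc s t (fun _ => wI b) M Y' c1))) :=
          mul_le_mul_of_nonneg_left h4 hD
      _ = (289 / 225 * (D * Real.exp (2 * pr))) * (zc s t (fun _ => wI b) M Y c1 *
          zc s t (fun _ => wI b) M Y' c1) := by
          rw [e5]
          ring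
      _ ≤ _ := by
          have h5 : 0 ≤ D * Real.exp (2 * pr) := by positivity
          refine mul_le_mul_of_nonneg_right ?_ (by positivity)
          linarith
  have h2 := key2 _ _ rPW r0 pPW p0 kPW k0
  have h3 := key2 _ _ rP rW pP pW kP kW
  have hx0 : 0 ≤ 3 / 2 * (D * Real.exp (2 * pr)) := by positivity
  have h10 := log_two (mul_pos q1 q2) (mul_pos q3 q4) hx0 (by linarith)
    (h1.1.trans (by linarith)) (h1.2.trans (by linarith))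
  rw [Real.log_mul q1.ne' q2.ne', Real.log_mul q3.ne' q4.ne'] at h10
  have h11 : 0 ≤ D * Real.exp (2 * pr) := by positivity
  refine (le_of_eq ?_).trans (h10.trans (by linarith))
  congr 1
  ring

end main

end

end Vale.Agent.P159.H474.Cb
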