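import Vale.Agent.P159.H474.Cb16

/-!
P159, helper474, module CB, part 17: `loc_pr` = `loc_log` with the number of a configuration in the
form of helper280 (6:22 UTC): for every constant and every grid there is `Q` with `QB (Y + c) s Q` and
`Q Z0 ≤ e^pr Z(Y + c)`.
-/

set_option linter.unusedSectionVars false

namespace Vale.Agent.P159.H474.Cb

open scoped ENNReal
open Finset
open Vale.Agent.P159.H37
open Vale.Agent.P159.TM
open Vale.Agent.P159.H770 (Ed eS eT wTD wI_pos)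
open Vale.Agent.P159.TM.SpecC (Tor wT)
open Vale.Agent.P159.H353 (wI)
open Vale.Agent.P159.TM.H459 (ball mem_ball sd sn sd_symm sd_tri)
open Vale.Agent.P159.H612 (zc zn zc_torus omE EdM edM_torus log_rel)

noncomputable section

section main

variable {m n : ℕ} [NeZero ((m + 1) * (n + 2))] [NeZero ((m + 1) * 2)] {b : ℝ}

/-- **(PR)** of a configuration -/
def PR (m n : ℕ) [NeZero ((m + 1) * (n + 2))] [NeZero ((m + 1) * 2)] (b : ℝ) (ξ κ : ℕ)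
    (Pc : Finset (Tor ((m + 1) * (n + 2)))) (pr : ℝ) (Y : GE ((m + 1) * (n + 2))) : Prop :=
  ∀ c1 ∈ Set.Icc (0 : ℝ) 1, ∀ s, GOK m n κ Pc s → ∃ Q : ℝ, 0 ≤ Q ∧
    QB m n b (1 / (ξ : ℝ) ^ 2) (Y + cst _ c1) s Q ∧
    Q * Z0 ((m + 1) * (n + 2)) b (1 / (ξ : ℝ) ^ 2) ≤
      Real.exp pr * ZG _ b (1 / (ξ : ℝ) ^ 2) (Y + cst _ c1)

lemma PR.qb (hb : 0 < b) {ξ κ : ℕ} (hξ : 0 < ξ) {Pc : Finset (Tor ((m + 1) * (n + 2)))} {pr : ℝ}
    {Y : GE ((m + 1) * (n + 2))} (h : PR m n b ξ κ Pc pr Y) {c1 : ℝ} (hc1 : c1 ∈ Set.Icc (0 : ℝ) 1)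
    {Y' : GE ((m + 1) * (n + 2))} (hY : Y + cst _ c1 = Y') :
    ∀ s, GOK m n κ Pc s → QB m n b (1 / (ξ : ℝ) ^ 2) Y' s
      (Real.exp pr * ZG _ b (1 / (ξ : ℝ) ^ 2) Y' /
        Z0 ((m + 1) * (n + 2)) b (1 / (ξ : ℝ) ^ 2)) := by
  intro s hs
  obtain ⟨Q, h0, h1, h2⟩ := h c1 hc1 s hs
  rw [hY] at h1 h2
  have hZ := Z0_pos (N := (m + 1) * (n + 2)) hb (show 0 < 1 / (ξ : ℝ) ^ 2 by positivity)
  exact h1.mono (by rw [le_div_iff₀ hZ]; exact h2)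

/-- **locality of decorated group elements from (PR)** -/
theorem loc_pr (hb : 0 < b) {ξ A K κ l : ℕ} {L₀ c C : ℝ} (hc : 0 < c)
    (hC : 0 < C) (H : LN m n b hb ξ A L₀ c C) (g : Geo m n ξ A K κ l c)
    (w : Tor ((m + 1) * (n + 2))) {R0 : ℕ}
    {X P W : GE ((m + 1) * (n + 2))} (hP : Sup P (ball w R0)) (hW : Sup W (Far w (R0 + l)))
    (hX : FltG m n w R0 l X (2 * L₀ / ξ))
    (Pc : Finset (Tor ((m + 1) * (n + 2)))) (hPc : Pc.card ≤ K)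
    (hPg : ∀ p ∈ Pc, sd w p ≤ R0 ∨ R0 + l ≤ sd w p) {pr : ℝ}
    (q0 : PR m n b ξ κ Pc pr X) (qP : PR m n b ξ κ Pc pr (X + P))
    (qW : PR m n b ξ κ Pc pr (X + W)) (qPW : PR m n b ξ κ Pc pr (X + P + W))
    (hω : omE (eS ((m + 1) * (n + 2))) (eT _) (fun _ => wI b)
      ((1 / (ξ : ℝ) ^ 2) • (1 : Matrix _ _ ℝ)) ≤ 1 / 2)
    (hη : KL A c C * ((((m + 1) * (n + 2) : ℕ) : ℝ) / ξ) ^ 2 * Real.exp (-(c * κ / (4 * ξ))) *
      Real.exp (2 * pr) ≤ 1 / 2) :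
    |Real.log (zN m n b ξ (X + P + W)) - Real.log (zN m n b ξ (X + P)) -
      Real.log (zN m n b ξ (X + W)) + Real.log (zN m n b ξ X)| ≤
      2 * (KL A c C * ((((m + 1) * (n + 2) : ℕ) : ℝ) / ξ) ^ 2 * Real.exp (-(c * κ / (4 * ξ))) *
        Real.exp (2 * pr)) +
      8 * omE (eS ((m + 1) * (n + 2))) (eT _) (fun _ => wI b)
        ((1 / (ξ : ℝ) ^ 2) • (1 : Matrix _ _ ℝ)) ^ 2 := by
  have hξ : 0 < ξ := by
    have := g.hA
    have := g.hAξ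
    omega
  have ht : 0 < 1 / (ξ : ℝ) ^ 2 := by positivity
  have hM : EdM (fun _ : Ed ((m + 1) * (n + 2)) => wI b)
      ((1 / (ξ : ℝ) ^ 2) • (1 : Matrix (Tor ((m + 1) * (n + 2))) _ ℝ)) (1 / (ξ : ℝ) ^ 2) :=
    edM_torus hb (by rw [Matrix.transpose_smul, Matrix.transpose_one]) ht (H789.coer_smul _)
  unfold zN
  refine hM.neu_four hω _ _ _ _ fun c1 hc1 => ?_
  set D := KL A c C * ((((m + 1) * (n + 2) : ℕ) : ℝ) / ξ) ^ 2 * Real.exp (-(c * κ / (4 * ξ)))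
    with hDd
  have hD : 0 ≤ D := by
    rw [hDd]
    have := (KL_pos A (c := c) hC).le
    positivity
  set k := Cb.cst ((m + 1) * (n + 2)) c1 with hk
  have hX' : FltG m n w R0 l (X + k) (2 * L₀ / ξ) := by
    intro s hs
    obtain ⟨v, h1, h2⟩ := hX s hs
    exact ⟨v, h1.cst c1, h2⟩
  have e1 : ∀ Y : GE ((m + 1) * (n + 2)), (Y + k).1 = Y.1 := fun Y => by
    show Y.1 + 0 = Y.1
    rw [add_zero]
  have e : ∀ Y : GE ((m + 1) * (n + 2)),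
      zc (eS ((m + 1) * (n + 2))) (eT _) (fun _ => wI b)
        ((1 / (ξ : ℝ) ^ 2) • (1 : Matrix _ _ ℝ)) Y c1 = ZG _ b (1 / (ξ : ℝ) ^ 2) (Y + k) := by
    intro Y
    rw [zc_torus]
    unfold ZG
    rw [e1]
    rfl
  rw [e, e, e, e]
  have a1 : X + P + W + k = X + k + P + W := by abel
  have a2 : X + P + k = X + k + P := by abel
  have a3 : X + W + k = X + k + W := by abel
  rw [a1, a2, a3]
  have hZ := Z0_pos (N := (m + 1) * (n + 2)) hb ht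
  have z1 := ZG_pos hb ht (X + k + P + W)
  have z2 := ZG_pos hb ht (X + k)
  have z3 := ZG_pos hb ht (X + k + P)
  have z4 := ZG_pos hb ht (X + k + W)
  have hep := Real.exp_pos pr
  have h1 := loc_sides_num hb hc hC H g w hP hW hX' Pc hPc hPg (q0.qb hb hξ hc1 rfl)
    (qP.qb hb hξ hc1 a2) (qW.qb hb hξ hc1 a3) (qPW.qb hb hξ hc1 a1) (by positivity)
    (by positivity) (by positivity) (by positivity)
  have e5 : Real.exp (2 * pr) = Real.exp pr * Real.exp pr := by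
    rw [← Real.exp_add]
    congr 1
    ring
  have key : ∀ x y : ℝ, D * ((Real.exp pr * x / Z0 ((m + 1) * (n + 2)) b (1 / (ξ : ℝ) ^ 2)) *
      (Real.exp pr * y / Z0 ((m + 1) * (n + 2)) b (1 / (ξ : ℝ) ^ 2)) *
      Z0 ((m + 1) * (n + 2)) b (1 / (ξ : ℝ) ^ 2) ^ 2) = (D * Real.exp (2 * pr)) * (x * y) := by
    intro x y
    rw [e5]
    field_simp
  rw [key, key] at h1
  have h10 := log_two (mul_pos z1 z2) (mul_pos z3 z4) (by positivity) hη h1.1 h1.2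
  rw [Real.log_mul z1.ne' z2.ne', Real.log_mul z3.ne' z4.ne'] at h10
  refine (le_of_eq ?_).trans h10
  congr 1
  ring

end main

end

end Vale.Agent.P159.H474.Cb
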