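import Vale.Agent.P159.H474.Cb1

/-!
P159, helper474, module CB, part 2: two dimensional chessboard for arbitrary functions of closed
blocks, torus data with site and edge weights, folded data, and the chessboard inequality with a
local functional.
-/

namespace Vale.Agent.P159.H474.Cb

open Finset
open scoped ENNReal
open Vale.Agent.P159.H963.Chess

noncomputable section

variable {A : Type*}

/-- the closed block `(i, j)` of a configuration on a torus -/
def blk {n n' : ℕ} (m m' : ℕ) (σ : ZMod ((m + 1) * n) → ZMod ((m' + 1) * n') → A) (i j : ℕ) :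
    Fin (m + 2) → Fin (m' + 2) → A :=
  fun a b => σ (((m + 1) * i + a : ℕ) : ZMod ((m + 1) * n))
    (((m' + 1) * j + b : ℕ) : ZMod ((m' + 1) * n'))

/-- the four closed quadrants of a configuration on the small torus -/
def W4 (m m' : ℕ) (W : (Fin (m + 2) → Fin (m' + 2) → A) → ℝ≥0∞)
    (τ : ZMod ((m + 1) * 2) → ZMod ((m' + 1) * 2) → A) : ℝ≥0∞ :=
  (W (fun a b => τ ((a : ℕ) : ZMod ((m + 1) * 2)) ((b : ℕ) : ZMod ((m' + 1) * 2))) *
    W (fun a b => τ (-((a : ℕ) : ZMod ((m + 1) * 2))) ((b : ℕ) : ZMod ((m' + 1) * 2)))) *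
  (W (fun a b => τ ((a : ℕ) : ZMod ((m + 1) * 2)) (-((b : ℕ) : ZMod ((m' + 1) * 2)))) *
    W (fun a b => τ (-((a : ℕ) : ZMod ((m + 1) * 2))) (-((b : ℕ) : ZMod ((m' + 1) * 2)))))

/-- **two dimensional chessboard with arbitrary block functions** -/
theorem hs2 (m n m' n' : ℕ) [NeZero ((m + 1) * (n + 2))] [NeZero ((m + 1) * 2)]
    [NeZero ((m' + 1) * (n' + 2))] [NeZero ((m' + 1) * 2)]
    (W : Fin (n + 2) → Fin (n' + 2) → (Fin (m + 2) → Fin (m' + 2) → A) → ℝ≥0∞) :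
    ∑' σ : ZMod ((m + 1) * (n + 2)) → ZMod ((m' + 1) * (n' + 2)) → A,
      ∏ i : Fin (n + 2), ∏ j : Fin (n' + 2), W i j (blk m m' σ i j) ≤
    ∏ i : Fin (n + 2), ∏ j : Fin (n' + 2),
      (∑' τ : ZMod ((m + 1) * 2) → ZMod ((m' + 1) * 2) → A, W4 m m' (W i j) τ) ^ (1 / 4 : ℝ) := by
  have h1 := hs1 (S := ZMod ((m' + 1) * (n' + 2)) → A) m n fun i f =>
    ∏ j : Fin (n' + 2), W i j fun a b => f a (((m' + 1) * j + b : ℕ) : ZMod ((m' + 1) * (n' + 2)))
  refine h1.trans (Finset.prod_le_prod' fun i _ => ?_)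
  have h2 := hs1 (S := ZMod ((m + 1) * 2) → A) m' n' fun j f =>
    W i j (fun a b => f b ((a : ℕ) : ZMod ((m + 1) * 2))) *
      W i j fun a b => f b (-((a : ℕ) : ZMod ((m + 1) * 2)))
  rw [← (Equiv.piComm fun (_ : ZMod ((m' + 1) * (n' + 2))) (_ : ZMod ((m + 1) * 2)) => A).tsum_eq]
  have e : ∀ τ : ZMod ((m' + 1) * (n' + 2)) → ZMod ((m + 1) * 2) → A,
      ((∏ j : Fin (n' + 2), W i j fun a b => (Equiv.piComm fun _ _ => A) τ
          ((a : ℕ) : ZMod ((m + 1) * 2))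
          (((m' + 1) * j + b : ℕ) : ZMod ((m' + 1) * (n' + 2)))) *
        ∏ j : Fin (n' + 2), W i j fun a b => (Equiv.piComm fun _ _ => A) τ
          (-((a : ℕ) : ZMod ((m + 1) * 2)))
          (((m' + 1) * j + b : ℕ) : ZMod ((m' + 1) * (n' + 2)))) =
      ∏ j : Fin (n' + 2), (W i j (fun a b => slb m' τ j b ((a : ℕ) : ZMod ((m + 1) * 2))) *
        W i j fun a b => slb m' τ j b (-((a : ℕ) : ZMod ((m + 1) * 2)))) := by
    intro τ
    rw [← Finset.prod_mul_distrib]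
    rfl
  simp only [e]
  refine (ENNReal.rpow_le_rpow h2 (by norm_num)).trans (le_of_eq ?_)
  rw [← ENNReal.prod_rpow_of_nonneg (by norm_num)]
  refine Finset.prod_congr rfl fun j _ => ?_
  rw [← ENNReal.rpow_mul]
  rw [← (Equiv.piComm fun (_ : ZMod ((m' + 1) * 2)) (_ : ZMod ((m + 1) * 2)) => A).tsum_eq]
  norm_num
  rfl

/-! ### products over slabs -/

/-- exponents : `1/2` at the two ends -/
def ex (m : ℕ) (a : Fin (m + 2)) : ℝ := if a = 0 ∨ a = Fin.last (m + 1) then 1 / 2 else 1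

lemma ex_nonneg (m : ℕ) (a : Fin (m + 2)) : 0 ≤ ex m a := by
  unfold ex
  split_ifs <;> norm_num

lemma ex_rev (m : ℕ) (a : Fin (m + 2)) : ex m a.rev = ex m a := by
  unfold ex
  congr 1
  rw [Fin.rev_eq_iff, Fin.rev_eq_iff, Fin.rev_zero, Fin.rev_last, or_comm]

lemma prod_ex (m : ℕ) (g : Fin (m + 2) → ℝ≥0∞) :
    ∏ a, g a ^ ex m a = g 0 ^ (1 / 2 : ℝ) * (∏ a : Fin m, g a.succ.castSucc) *
      g (Fin.last (m + 1)) ^ (1 / 2 : ℝ) := by
  rw [Fin.prod_univ_castSucc, Fin.prod_univ_succ]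
  have h0 : ex m (Fin.castSucc 0) = 1 / 2 := by
    unfold ex
    rw [if_pos (Or.inl Fin.castSucc_zero)]
  have h1 : ex m (Fin.last (m + 1)) = 1 / 2 := by
    unfold ex
    rw [if_pos (Or.inr rfl)]
  have h2 : ∀ a : Fin m, ex m a.succ.castSucc = 1 := by
    intro a
    unfold ex
    rw [if_neg]
    rintro (h | h)
    · have := congrArg Fin.val h
      simp at this
    · have := congrArg Fin.val h
      have h3 := a.2
      simp only [Fin.val_castSucc, Fin.val_succ, Fin.val_last] at this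
      omega
  rw [h0, h1, Fin.castSucc_zero]
  simp only [h2, ENNReal.rpow_one]

/-- product over a cycle by slabs -/
lemma prod_slab (m n : ℕ) [NeZero ((m + 1) * n)] (g : ZMod ((m + 1) * n) → ℝ≥0∞) :
    ∏ i : Fin n, ∏ a : Fin (m + 1), g (((m + 1) * i + a : ℕ) : ZMod ((m + 1) * n)) = ∏ x, g x := by
  rw [← (slabE m n).prod_comp, Fintype.prod_prod_type]
  rfl

/-- product over a cycle by closed slabs -/
lemma prod_slab_ex (m n : ℕ) [NeZero ((m + 1) * (n + 1))] (g : ZMod ((m + 1) * (n + 1)) → ℝ≥0∞) :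
    ∏ i : Fin (n + 1), ∏ a : Fin (m + 2),
      g (((m + 1) * i + a : ℕ) : ZMod ((m + 1) * (n + 1))) ^ ex m a = ∏ x, g x := by
  rw [← prod_slab]
  simp only [prod_ex, Fin.prod_univ_succ (n := m), Fin.val_zero, add_zero, Fin.val_last,
    Fin.val_castSucc]
  rw [Finset.prod_mul_distrib, Finset.prod_mul_distrib, Finset.prod_mul_distrib]
  have h : ∏ i : Fin (n + 1), g (((m + 1) * i + (m + 1) : ℕ) : ZMod ((m + 1) * (n + 1))) ^ (1 / 2 : ℝ)
      = ∏ i : Fin (n + 1), g (((m + 1) * i : ℕ) : ZMod ((m + 1) * (n + 1))) ^ (1 / 2 : ℝ) := by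
    rw [← Finset.prod_range fun i => g (((m + 1) * i + (m + 1) : ℕ) :
        ZMod ((m + 1) * (n + 1))) ^ (1 / 2 : ℝ),
      ← Finset.prod_range fun i => g (((m + 1) * i : ℕ) : ZMod ((m + 1) * (n + 1))) ^ (1 / 2 : ℝ),
      Finset.prod_range_succ, Finset.prod_range_succ']
    congr 1
    have e : (m + 1) * n + (m + 1) = (m + 1) * (n + 1) := by ring
    rw [e, ZMod.natCast_self]
    simp
  rw [h, mul_right_comm, ← Finset.prod_mul_distrib]
  simp only [half_mul_half]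

/-! ### folding in one direction -/

/-- the folded index -/
def fo (m : ℕ) (x : ZMod ((m + 1) * 2)) : ℕ := min x.val ((m + 1) * 2 - x.val)

lemma fo_pos (m : ℕ) [NeZero ((m + 1) * 2)] (a : Fin (m + 2)) :
    fo m ((a : ℕ) : ZMod ((m + 1) * 2)) = a := by
  unfold fo
  have h := a.2
  by_cases h0 : m = 0 ∧ (a : ℕ) = 2
  · omega
  rw [ZMod.val_natCast_of_lt (by omega)]
  omega

lemma fo_neg (m : ℕ) [NeZero ((m + 1) * 2)] (a : Fin (m + 2)) :
    fo m (-((a : ℕ) : ZMod ((m + 1) * 2))) = a := by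
  unfold fo
  have h := a.2
  rcases Nat.eq_zero_or_pos (a : ℕ) with h0 | h0
  · rw [h0]
    simp
  · rw [ZMod.neg_val, if_neg, ZMod.val_natCast_of_lt (by omega)]
    · omega
    · intro h1
      have h2 := congrArg ZMod.val h1
      rw [ZMod.val_natCast_of_lt (by omega), ZMod.val_zero] at h2
      omega

/-- sites -/
lemma fold_sites (m : ℕ) [NeZero ((m + 1) * 2)] {B : Type*} (G : ℕ → B → ℝ≥0∞)
    (τ : ZMod ((m + 1) * 2) → B) :
    (∏ a : Fin (m + 2), G a (τ ((a : ℕ) : ZMod ((m + 1) * 2))) ^ ex m a) *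
      (∏ a : Fin (m + 2), G a (τ (-((a : ℕ) : ZMod ((m + 1) * 2)))) ^ ex m a) =
    ∏ x : ZMod ((m + 1) * 2), G (fo m x) (τ x) := by
  have h := prod_slab_ex m 1 fun x : ZMod ((m + 1) * 2) => G (fo m x) (τ x)
  rw [← h, Fin.prod_univ_two]
  congr 1
  · refine Finset.prod_congr rfl fun a _ => ?_
    have e : ((m + 1) * ((0 : Fin (1 + 1)) : ℕ) + (a : ℕ)) = (a : ℕ) := by simp
    rw [e, fo_pos]
  · rw [← Equiv.prod_comp (Fin.revPerm (n := m + 2))]
    refine Finset.prod_congr rfl fun a _ => ?_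
    have e : (((m + 1) * ((1 : Fin (1 + 1)) : ℕ) + (a : ℕ) : ℕ) : ZMod ((m + 1) * 2)) =
        -(((a.rev : Fin (m + 2)) : ℕ) : ZMod ((m + 1) * 2)) := by
      rw [eq_neg_iff_add_eq_zero, ← Nat.cast_add]
      have h1 : (m + 1) * ((1 : Fin (1 + 1)) : ℕ) + (a : ℕ) + ((a.rev : Fin (m + 2)) : ℕ) =
          (m + 1) * 2 := by
        rw [Fin.val_rev]
        have := a.2
        simp only [Fin.val_one]
        omega
      rw [h1, ZMod.natCast_self]
    rw [e, fo_neg, Fin.revPerm_apply, ex_rev]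

/-- the folded edge weight -/
def fe {B : Type*} (m : ℕ) (K : ℕ → B → B → ℝ≥0∞) (x : ZMod ((m + 1) * 2)) (s s' : B) : ℝ≥0∞ :=
  if x.val < m + 1 then K x.val s s' else K ((m + 1) * 2 - 1 - x.val) s' s

/-- edges -/
lemma fold_edges (m : ℕ) [NeZero ((m + 1) * 2)] {B : Type*} (K : ℕ → B → B → ℝ≥0∞)
    (τ : ZMod ((m + 1) * 2) → B) :
    (∏ a : Fin (m + 1), K a (τ ((a : ℕ) : ZMod ((m + 1) * 2)))
        (τ (((a : ℕ) + 1 : ℕ) : ZMod ((m + 1) * 2)))) *
      (∏ a : Fin (m + 1), K a (τ (-((a : ℕ) : ZMod ((m + 1) * 2))))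
        (τ (-(((a : ℕ) + 1 : ℕ) : ZMod ((m + 1) * 2))))) =
    ∏ x : ZMod ((m + 1) * 2), fe m K x (τ x) (τ (x + 1)) := by
  have h := prod_slab m 2 fun x : ZMod ((m + 1) * 2) => fe m K x (τ x) (τ (x + 1))
  rw [← h, Fin.prod_univ_two]
  congr 1
  · refine Finset.prod_congr rfl fun a _ => ?_
    have e : ((m + 1) * ((0 : Fin 2) : ℕ) + (a : ℕ)) = (a : ℕ) := by simp
    have e1 : ((a : ℕ) : ZMod ((m + 1) * 2)).val = a := ZMod.val_natCast_of_lt (by
      have := a.2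
      omega)
    rw [e]
    unfold fe
    rw [e1, if_pos a.2]
    push_cast
    rfl
  · rw [← Equiv.prod_comp (Fin.revPerm (n := m + 1))]
    refine Finset.prod_congr rfl fun a _ => ?_
    have h2 := a.2
    have e : (((m + 1) * ((1 : Fin 2) : ℕ) + (a : ℕ) : ℕ) : ZMod ((m + 1) * 2)) =
        ((m + 1 + a : ℕ) : ZMod ((m + 1) * 2)) := by
      congr 1
      simp
    have e1 : ((m + 1 + a : ℕ) : ZMod ((m + 1) * 2)).val = m + 1 + a := ZMod.val_natCast_of_lt (by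
      omega)
    have e2 : ((m + 1 + a : ℕ) : ZMod ((m + 1) * 2)) =
        -((((a.rev : Fin (m + 1)) : ℕ) + 1 : ℕ) : ZMod ((m + 1) * 2)) := by
      rw [eq_neg_iff_add_eq_zero, ← Nat.cast_add]
      have h1 : m + 1 + (a : ℕ) + (((a.rev : Fin (m + 1)) : ℕ) + 1) = (m + 1) * 2 := by
        rw [Fin.val_rev]
        omega
      rw [h1, ZMod.natCast_self]
    have e3 : ((m + 1 + a : ℕ) : ZMod ((m + 1) * 2)) + 1 =
        -(((a.rev : Fin (m + 1)) : ℕ) : ZMod ((m + 1) * 2)) := by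
      rw [e2]
      push_cast
      ring
    rw [e]
    unfold fe
    rw [e1, if_neg (by omega), e3, e2, Fin.revPerm_apply]
    have e4 : (m + 1) * 2 - 1 - (m + 1 + (a : ℕ)) = ((a.rev : Fin (m + 1)) : ℕ) := by
      rw [Fin.val_rev]
      omega
    rw [e4]

end

end Vale.Agent.P159.H474.Cb
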