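import Vale.Agent.P159.H764.Sw0

/-!
P159, helper474, module CB, part 5: charts. The arm functional `H764.Arm1` of a system depends only
on the heights in a neighbourhood of the ball; it is the same for two systems which look alike there.

`arm_chart` : two systems and a chart of the edges which touch `Λ`.
`AG D ρ y` : the arm functional of the lattice (`y : ℤ × ℤ → ℤ × ℤ` the heights around the centre).
`arm_AG` : on every torus of side at least `2 ρ + 3` the arm functional at `z` is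
`AG D ρ fun u => x (z + u)`.
-/

set_option linter.unusedSectionVars false
set_option linter.unusedDecidableInType false

namespace Vale.Agent.P159.H474.Cb

open scoped ENNReal
open Finset Vale.Agent.P159.TM.H60 Vale.Agent.P159.TM.H576
open Vale.Agent.P159.H145.Dz (touch mem_touch VR ER σR rS rT)
open Vale.Agent.P159.H764 (Arm1 Out)

section chart

variable {V E V' E' S : Type*} [Fintype V] [DecidableEq V] [Fintype E] [DecidableEq E]
variable [Fintype V'] [DecidableEq V'] [Fintype E'] [DecidableEq E']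
variable (σ : Sys V E S) (σ' : Sys V' E' S)

lemma cp_chart {T0 : Finset E} {φE : E → E'} (hi : ∀ e ∈ T0, ∀ e' ∈ T0, φE e = φE e' → e = e')
    (G' : Finset E' → ℝ≥0∞) {x : V → S} {x' : V' → S}
    (hp : ∀ e ∈ T0, H145.Dz.pe σ' (φE e) (x' (σ'.s (φE e))) (x' (σ'.t (φE e))) =
      H145.Dz.pe σ e (x (σ.s e)) (x (σ.t e)))
    (hq : ∀ e ∈ T0, H145.Dz.qe σ' (φE e) (x' (σ'.s (φE e))) (x' (σ'.t (φE e))) =
      H145.Dz.qe σ e (x (σ.s e)) (x (σ.t e))) :
    H145.Dz.cp σ' (T0.image φE) G' x' = H145.Dz.cp σ T0 (fun T => G' (T.image φE)) x := by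
  unfold H145.Dz.cp
  rw [Finset.powerset_image, Finset.sum_image]
  · refine Finset.sum_congr rfl fun T hT => ?_
    rw [Finset.mem_powerset] at hT
    have e1 : ∏ e ∈ T.image φE, H145.Dz.pe σ' e (x' (σ'.s e)) (x' (σ'.t e)) =
        ∏ e ∈ T, H145.Dz.pe σ e (x (σ.s e)) (x (σ.t e)) := by
      rw [Finset.prod_image fun e he e' he' h => hi e (hT he) e' (hT he') h]
      exact Finset.prod_congr rfl fun e he => hp e (hT he)
    have e0 : T0.image φE \ T.image φE = (T0 \ T).image φE := by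
      ext e'
      simp only [Finset.mem_sdiff, Finset.mem_image]
      constructor
      · rintro ⟨⟨e, he, rfl⟩, h2⟩
        exact ⟨e, ⟨he, fun h => h2 ⟨e, h, rfl⟩⟩, rfl⟩
      · rintro ⟨e, ⟨he, h2⟩, rfl⟩
        refine ⟨⟨e, he, rfl⟩, ?_⟩
        rintro ⟨e2, he2, h3⟩
        exact h2 (hi e2 (hT he2) e he h3 ▸ he2)
    have e2 : ∏ e ∈ T0.image φE \ T.image φE, H145.Dz.qe σ' e (x' (σ'.s e)) (x' (σ'.t e)) =
        ∏ e ∈ T0 \ T, H145.Dz.qe σ e (x (σ.s e)) (x (σ.t e)) := by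
      rw [e0, Finset.prod_image fun e he e' he' h => hi e (Finset.mem_sdiff.1 he).1 e'
        (Finset.mem_sdiff.1 he').1 h]
      exact Finset.prod_congr rfl fun e he => hq e (Finset.mem_sdiff.1 he).1
    rw [e1, e2]
  · intro T hT T' hT' h
    rw [Finset.mem_coe, Finset.mem_powerset] at hT hT'
    have key : ∀ {A B : Finset E}, A ⊆ T0 → B ⊆ T0 → A.image φE = B.image φE → A ⊆ B := by
      intro A B hA hB hAB e he
      have h1 : φE e ∈ B.image φE := hAB ▸ Finset.mem_image_of_mem _ he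
      obtain ⟨e', he', h2⟩ := Finset.mem_image.1 h1
      exact hi e' (hB he') e (hA he) h2 ▸ he'
    exact Finset.Subset.antisymm (key hT hT' h) (key hT' hT h.symm)

/-- the set and the end points of the edges which touch it -/
def Cl (Λ : Finset V) (u : V) : Prop := u ∈ Λ ∨ ∃ e ∈ touch σ Λ, u = σ.s e ∨ u = σ.t e

/-- a chart near `Λ` -/
structure Chart (Λ : Finset V) (Λ' : Finset V') (φ : V → V') (φE : E → E') : Prop where
  s : ∀ e ∈ touch σ Λ, σ'.s (φE e) = φ (σ.s e)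
  t : ∀ e ∈ touch σ Λ, σ'.t (φE e) = φ (σ.t e)
  fl : ∀ e ∈ touch σ Λ, σ'.fl (φE e) = σ.fl e
  im : touch σ' Λ' = (touch σ Λ).image φE
  injE : ∀ e ∈ touch σ Λ, ∀ e' ∈ touch σ Λ, φE e = φE e' → e = e'
  injV : ∀ u v, Cl σ Λ u → Cl σ Λ v → φ u = φ v → u = v
  mem : ∀ u, Cl σ Λ u → (φ u ∈ Λ' ↔ u ∈ Λ)
  sw : σ'.sw = σ.sw

variable {σ σ'}

lemma out_chart {Λ : Finset V} {Λ' : Finset V'} {φ : V → V'} {φE : E → E'}
    (H : Chart σ σ' Λ Λ' φ φE) {z : V} (hz : z ∈ Λ) {T : Finset E} (hT : T ⊆ touch σ Λ) :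
    Out σ' Λ' (φ z) (T.image φE) ↔ Out σ Λ z T := by
  constructor
  · rintro ⟨z', h1, h2⟩
    have key : ∀ w, Conn σ'.s σ'.t (T.image φE) (φ z) w →
        ∃ u, w = φ u ∧ Cl σ Λ u ∧ Conn σ.s σ.t T z u := by
      intro w h
      induction h with
      | refl => exact ⟨z, rfl, Or.inl hz, Conn.refl z⟩
      | @tail y w _ h4 ih =>
        obtain ⟨u, rfl, hu, h3⟩ := ih
        obtain ⟨e', he', h5⟩ := h4
        obtain ⟨e, he, rfl⟩ := Finset.mem_image.1 he'
        have hs := H.s e (hT he)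
        have ht := H.t e (hT he)
        have cs : Cl σ Λ (σ.s e) := Or.inr ⟨e, hT he, Or.inl rfl⟩
        have ct : Cl σ Λ (σ.t e) := Or.inr ⟨e, hT he, Or.inr rfl⟩
        rw [hs, ht] at h5
        rcases h5 with ⟨h6, h7⟩ | ⟨h6, h7⟩
        · exact ⟨σ.t e, h7.symm, ct, Relation.ReflTransGen.tail h3
            ⟨e, he, Or.inl ⟨H.injV _ _ cs hu h6, rfl⟩⟩⟩
        · exact ⟨σ.s e, h6.symm, cs, Relation.ReflTransGen.tail h3
            ⟨e, he, Or.inr ⟨rfl, H.injV _ _ ct hu h7⟩⟩⟩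
    obtain ⟨u, rfl, hu, h3⟩ := key z' h2
    exact ⟨u, fun h => h1 ((H.mem u hu).2 h), h3⟩
  · rintro ⟨z', h1, h2⟩
    have key : ∀ w, Conn σ.s σ.t T z w → Cl σ Λ w ∧
        Conn σ'.s σ'.t (T.image φE) (φ z) (φ w) := by
      intro w h
      induction h with
      | refl => exact ⟨Or.inl hz, Conn.refl _⟩
      | @tail y w _ h4 ih =>
        obtain ⟨e, he, h5⟩ := h4
        have hs := H.s e (hT he)
        have ht := H.t e (hT he)
        have cs : Cl σ Λ (σ.s e) := Or.inr ⟨e, hT he, Or.inl rfl⟩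
        have ct : Cl σ Λ (σ.t e) := Or.inr ⟨e, hT he, Or.inr rfl⟩
        rcases h5 with ⟨h6, h7⟩ | ⟨h6, h7⟩
        · refine ⟨h7 ▸ ct, Relation.ReflTransGen.tail ih.2 ⟨φE e, Finset.mem_image_of_mem _ he,
            Or.inl ⟨by rw [hs, h6], by rw [ht, h7]⟩⟩⟩
        · refine ⟨h6 ▸ cs, Relation.ReflTransGen.tail ih.2 ⟨φE e, Finset.mem_image_of_mem _ he,
            Or.inr ⟨by rw [hs, h6], by rw [ht, h7]⟩⟩⟩
    obtain ⟨h3, h4⟩ := key z' h2
    exact ⟨φ z', fun h => h1 ((H.mem z' h3).1 h), h4⟩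

/-- **the arm functional in a chart** -/
theorem arm_chart {Λ : Finset V} {Λ' : Finset V'} {φ : V → V'} {φE : E → E'}
    (H : Chart σ σ' Λ Λ' φ φE) {z : V} (hz : z ∈ Λ) {x : V → S} {x' : V' → S}
    (hx : ∀ u, Cl σ Λ u → x' (φ u) = x u) : Arm1 σ' Λ' (φ z) x' = Arm1 σ Λ z x := by
  unfold Arm1
  have hop : ∀ e ∈ touch σ Λ, σ'.op (φE e) = σ.op e := fun e he => by
    funext a c
    unfold Sys.op
    rw [H.fl e he, H.sw]
  have hcl : ∀ e ∈ touch σ Λ, σ'.cl (φE e) = σ.cl e := fun e he => by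
    funext a c
    unfold Sys.cl
    rw [H.fl e he, H.sw]
  have h1 : ∀ e ∈ touch σ Λ, x' (σ'.s (φE e)) = x (σ.s e) ∧ x' (σ'.t (φE e)) = x (σ.t e) := by
    intro e he
    rw [H.s e he, H.t e he]
    exact ⟨hx _ (Or.inr ⟨e, he, Or.inl rfl⟩), hx _ (Or.inr ⟨e, he, Or.inr rfl⟩)⟩
  rw [H.im, cp_chart σ σ' H.injE (x := x)]
  · unfold H145.Dz.cp
    refine Finset.sum_congr rfl fun T hT => ?_
    rw [Finset.mem_powerset] at hT
    congr 1
    exact ind_congr (out_chart H hz hT)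
  · intro e he
    unfold H145.Dz.pe
    rw [(h1 e he).1, (h1 e he).2, hop e he, H.fl e he]
  · intro e he
    unfold H145.Dz.qe
    rw [(h1 e he).1, (h1 e he).2, hcl e he, H.fl e he]

end chart

/-! ### the torus -/

section torus

open Vale.Agent.P159.TM.H459 (ball mem_ball ball_mono sd sn)

variable {L N : ℕ} [NeZero L] [NeZero N]

/-- cast of a lattice vector -/
def cz5 (N : ℕ) (u : ℤ × ℤ) : VR N N := ((u.1 : ZMod N), (u.2 : ZMod N))

/-- the shortest representative -/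
def lf (v : VR N N) : ℤ × ℤ := (v.1.valMinAbs, v.2.valMinAbs)

/-- sup norm of a lattice vector -/
def nz (u : ℤ × ℤ) : ℕ := max u.1.natAbs u.2.natAbs

lemma cz5_lf (v : VR N N) : cz5 N (lf v) = v := by
  unfold cz5 lf
  simp

lemma nz_lf (v : VR N N) : nz (lf v) = sn v := rfl

lemma cz5_add (u v : ℤ × ℤ) : cz5 N (u + v) = cz5 N u + cz5 N v := by
  unfold cz5
  simp

lemma vma_cast {k : ℤ} (h : 2 * k.natAbs < N) : ((k : ℤ) : ZMod N).valMinAbs = k := by
  rw [ZMod.valMinAbs_spec]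
  refine ⟨rfl, ?_⟩
  constructor <;> omega

lemma lf_cz5 {u : ℤ × ℤ} (h : 2 * nz u < N) : lf (cz5 N u) = u := by
  unfold nz at h
  unfold lf cz5
  rw [vma_cast (by omega), vma_cast (by omega)]

lemma sn_cz5 {u : ℤ × ℤ} (h : 2 * nz u < N) : sn (cz5 N u) = nz u := by
  rw [← nz_lf, lf_cz5 h]

/-- unit vector of an edge -/
def ev (b : Bool) : ℤ × ℤ := if b then (1, 0) else (0, 1)

lemma cz5_ev (b : Bool) : cz5 N (ev b) = (if b then (1, 0) else (0, 1) : VR N N) := by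
  unfold cz5 ev
  cases b <;> simp

lemma nz_add_ev (u : ℤ × ℤ) (b : Bool) : nz (u + ev b) ≤ nz u + 1 := by
  unfold nz ev
  cases b <;> simp <;> omega

lemma nz_sub_ev (u : ℤ × ℤ) (b : Bool) : nz (u - ev b) ≤ nz u + 1 := by
  unfold nz ev
  cases b <;> simp <;> omega

variable (D : H145.Dz.Dat)

/-- the edges which touch the ball, seen from the centre -/
lemma touch_iff {z : VR N N} {ρ : ℕ} (hN : 2 * ρ + 3 ≤ N) {v : VR N N} {b : Bool} :
    (v, b) ∈ touch (σR D N N) (ball z ρ) ↔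
      ∃ u : ℤ × ℤ, v = z + cz5 N u ∧ (nz u ≤ ρ ∨ nz (u + ev b) ≤ ρ) := by
  rw [mem_touch]
  have hs : (σR D N N).s (v, b) = v := rfl
  have ht : (σR D N N).t (v, b) = v + cz5 N (ev b) := by
    rw [cz5_ev]
    rfl
  rw [hs, ht, mem_ball, mem_ball]
  unfold sd
  constructor
  · rintro (h | h)
    · refine ⟨lf (v - z), ?_, Or.inl ?_⟩
      · rw [cz5_lf]; abel
      · rw [nz_lf]; exact h
    · refine ⟨lf (v + cz5 N (ev b) - z) - ev b, ?_, Or.inr ?_⟩
      · have h1 : cz5 N (lf (v + cz5 N (ev b) - z) - ev b) + cz5 N (ev b) =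
            v + cz5 N (ev b) - z := by
          rw [← cz5_add, sub_add_cancel, cz5_lf]
        have h2 : cz5 N (lf (v + cz5 N (ev b) - z) - ev b) = v - z := by
          have := eq_sub_of_add_eq h1
          rw [this]; abel
        rw [h2]; abel
      · rw [sub_add_cancel, nz_lf]; exact h
  · rintro ⟨u, rfl, h | h⟩
    · left
      have : z + cz5 N u - z = cz5 N u := by abel
      rw [this, sn_cz5 (by omega)]
      exact h
    · right
      have : z + cz5 N u + cz5 N (ev b) - z = cz5 N (u + ev b) := by rw [cz5_add]; abel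
      rw [this, sn_cz5 (by omega)]
      exact h

/-- the chart between two tori -/
lemma chart_torus {z : VR L L} {z' : VR N N} {ρ : ℕ} (hL : 2 * ρ + 3 ≤ L) (hN : 2 * ρ + 3 ≤ N) :
    Chart (σR D L L) (σR D N N) (ball z ρ) (ball z' ρ) (fun v => z' + cz5 N (lf (v - z)))
      (fun e => (z' + cz5 N (lf (e.1 - z)), e.2)) := by
  -- points of the closure
  have hcl : ∀ u, Cl (σR D L L) (ball z ρ) u → ∃ w : ℤ × ℤ, u = z + cz5 L w ∧ nz w ≤ ρ + 1 := by
    rintro u (h | ⟨⟨v, b⟩, h, h'⟩)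
    · rw [mem_ball] at h
      refine ⟨lf (u - z), by rw [cz5_lf]; abel, ?_⟩
      rw [nz_lf]
      unfold sd at h
      omega
    · obtain ⟨w, rfl, h2⟩ := (touch_iff D hL).1 h
      rcases h' with h' | h'
      · refine ⟨w, h', ?_⟩
        rcases h2 with h2 | h2
        · omega
        · have := nz_sub_ev (w + ev b) b
          rw [add_sub_cancel_right] at this
          omega
      · refine ⟨w + ev b, ?_, ?_⟩
        · rw [h', cz5_add, cz5_ev, ← add_assoc]
          rfl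
        · rcases h2 with h2 | h2
          · have := nz_add_ev w b
            omega
          · omega
  have hlf : ∀ w : ℤ × ℤ, nz w ≤ ρ + 1 → lf (z + cz5 L w - z) = w := by
    intro w hw
    have : z + cz5 L w - z = cz5 L w := by abel
    rw [this, lf_cz5 (by omega)]
  have hw1 : ∀ {w : ℤ × ℤ} {b : Bool}, (nz w ≤ ρ ∨ nz (w + ev b) ≤ ρ) →
      nz w ≤ ρ + 1 ∧ nz (w + ev b) ≤ ρ + 1 := by
    rintro w b (h | h)
    · exact ⟨by omega, by have := nz_add_ev w b; omega⟩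
    · refine ⟨?_, by omega⟩
      have := nz_sub_ev (w + ev b) b
      rw [add_sub_cancel_right] at this
      omega
  refine ⟨?_, ?_, ?_, ?_, ?_, ?_, ?_, rfl⟩
  · intro e _
    rfl
  · rintro ⟨v, b⟩ h
    obtain ⟨w, rfl, h2⟩ := (touch_iff D hL).1 h
    have h3 := hw1 h2
    have e1 : (σR D L L).t (z + cz5 L w, b) = z + cz5 L (w + ev b) := by
      rw [cz5_add, cz5_ev, ← add_assoc]
      rfl
    have e2 : (σR D N N).t (z' + cz5 N (lf (z + cz5 L w - z)), b) = z' + cz5 N (w + ev b) := by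
      rw [hlf w h3.1, cz5_add, cz5_ev, ← add_assoc]
      rfl
    show (σR D N N).t (z' + cz5 N (lf (z + cz5 L w - z)), b) = _
    rw [e1, e2]
    show _ = z' + cz5 N (lf (z + cz5 L (w + ev b) - z))
    rw [hlf _ h3.2]
  · intro e _
    rfl
  · ext ⟨v', b⟩
    rw [Finset.mem_image]
    constructor
    · intro h
      obtain ⟨w, rfl, h2⟩ := (touch_iff D hN).1 h
      refine ⟨(z + cz5 L w, b), (touch_iff D hL).2 ⟨w, rfl, h2⟩, ?_⟩
      show (z' + cz5 N (lf (z + cz5 L w - z)), b) = _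
      rw [hlf w (hw1 h2).1]
    · rintro ⟨⟨v, b'⟩, h, h'⟩
      obtain ⟨w, rfl, h2⟩ := (touch_iff D hL).1 h
      have h3 : (z' + cz5 N (lf (z + cz5 L w - z)), b') = (v', b) := h'
      rw [hlf w (hw1 h2).1, Prod.mk.injEq] at h3
      obtain ⟨h4, rfl⟩ := h3
      exact (touch_iff D hN).2 ⟨w, h4.symm, h2⟩
  · rintro ⟨v, b⟩ h ⟨v2, b2⟩ h' h3
    obtain ⟨w, rfl, h2⟩ := (touch_iff D hL).1 h
    obtain ⟨w2, rfl, h22⟩ := (touch_iff D hL).1 h'
    have h4 : (z' + cz5 N (lf (z + cz5 L w - z)), b) = (z' + cz5 N (lf (z + cz5 L w2 - z)), b2) := h3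
    rw [hlf w (hw1 h2).1, hlf w2 (hw1 h22).1, Prod.mk.injEq] at h4
    obtain ⟨h5, rfl⟩ := h4
    have h6 := congrArg lf (add_left_cancel h5)
    have q1 := (hw1 h2).1
    have q2 := (hw1 h22).1
    rw [lf_cz5 (by omega), lf_cz5 (by omega)] at h6
    rw [h6]
  · intro u v hu hv h
    obtain ⟨w, rfl, q1⟩ := hcl u hu
    obtain ⟨w2, rfl, q2⟩ := hcl v hv
    have h5 : z' + cz5 N (lf (z + cz5 L w - z)) = z' + cz5 N (lf (z + cz5 L w2 - z)) := h
    rw [hlf w q1, hlf w2 q2] at h5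
    have h6 := congrArg lf (add_left_cancel h5)
    rw [lf_cz5 (by omega), lf_cz5 (by omega)] at h6
    rw [h6]
  · intro u hu
    obtain ⟨w, rfl, q1⟩ := hcl u hu
    rw [mem_ball, mem_ball]
    unfold sd
    rw [hlf w q1]
    have e1 : z' + cz5 N w - z' = cz5 N w := by abel
    have e2 : z + cz5 L w - z = cz5 L w := by abel
    rw [e1, e2, sn_cz5 (by omega), sn_cz5 (by omega)]

instance (ρ : ℕ) : NeZero (2 * ρ + 3) := ⟨by omega⟩

/-- **the arm functional of the lattice**: conditional probability, given the heights `y`, that the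
open cluster of the origin leaves the ball of radius `ρ` -/
noncomputable def AG (ρ : ℕ) (y : ℤ × ℤ → ℤ × ℤ) : ℝ≥0∞ :=
  Arm1 (σR D (2 * ρ + 3) (2 * ρ + 3)) (ball 0 ρ) 0 fun v => y (lf v)

/-- **the arm functional on a torus** -/
theorem arm_AG {ρ : ℕ} (hN : 2 * ρ + 3 ≤ N) (z : VR N N) (x : VR N N → ℤ × ℤ) :
    Arm1 (σR D N N) (ball z ρ) z x = AG D ρ fun u => x (z + cz5 N u) := by
  have H := chart_torus (L := 2 * ρ + 3) (N := N) D (z := 0) (z' := z) (ρ := ρ) le_rfl hN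
  have h0 : (0 : VR (2 * ρ + 3) (2 * ρ + 3)) ∈ ball (0 : VR (2 * ρ + 3) (2 * ρ + 3)) ρ := by
    rw [mem_ball]
    unfold sd
    rw [sub_zero, TM.H459.sn_zero]
    exact Nat.zero_le _
  have h := arm_chart H h0 (x := fun v => x (z + cz5 N (lf v))) (x' := x) (fun u _ => by
    rw [sub_zero])
  have e : z + cz5 N (lf ((0 : VR (2 * ρ + 3) (2 * ρ + 3)) - 0)) = z := by
    rw [sub_zero]
    unfold lf cz5
    simp
  rw [e] at h
  exact h

lemma AG_le_one (ρ : ℕ) (y : ℤ × ℤ → ℤ × ℤ) : AG D ρ y ≤ 1 := by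
  unfold AG
  exact H764.Arm1_le_one _ (H145.Dz.fl_pos_R D _ _) _ _ _

/-- the functional depends only on the heights at distance at most `ρ + 1` -/
lemma AG_congr {ρ : ℕ} {y y' : ℤ × ℤ → ℤ × ℤ} (h : ∀ u, nz u ≤ ρ + 1 → y u = y' u) :
    AG D ρ y = AG D ρ y' := by
  unfold AG
  congr 1
  funext v
  refine h _ ?_
  unfold nz lf
  have h1 := ZMod.natAbs_valMinAbs_le v.1
  have h2 := ZMod.natAbs_valMinAbs_le v.2
  simp only
  omega

end torus

end Vale.Agent.P159.H474.Cb
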