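import Vale.Agent.P159.H474.Cb11
import Vale.Agent.P159.H801.ParEv
import Vale.Agent.P159.H415.NumD

/-!
P159, helper474: **the cluster inputs `LN` of LOC at the states** (`ev_ln`): for a state at level `n`,
size `e`, blocks `m + 1 = 2 ^ j` with `n + kE e ≤ j + 1` and a torus `2 ^ r`, `r = j + J + 1`, in the
range of the state.
-/

set_option linter.unusedSectionVars false

namespace Vale.Agent.P159.H474.Cb

open Finset Filter Topology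
open Vale.Agent.P159.TM
open Vale.Agent.P159.TM.Spec (Rng)
open Vale.Agent.P159.H972 (lg tn Par RNG GP Good)
open Vale.Agent.P159.H801 (Ev PS)

noncomputable section

/-- the tori of a state are small against the activity `e ^ (1 / 4)` -/
lemma tor_ev {th thp η : ℝ} (q1 : ℕ) (h1 : 0 ≤ th) (h2 : 0 ≤ thp) (hη : 0 < η)
    (hq : th + 4 * q1 * thp ≤ 1 / 16) :
    ∀ᶠ e in 𝓝[>] (0 : ℝ), ∀ k : ℕ, k ≤ lg th e + q1 * (4 * lg thp e) →
      ((2 : ℝ) ^ k) ^ 2 * e ^ (1 / 4 : ℝ) ≤ η := by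
  filter_upwards [H415.ev_half, H415.ev_pow (A := η / 2 ^ (2 * (1 + 4 * q1))) (c := 1 / 8)
    (by positivity) (by norm_num)] with e he hη'
  intro k hk
  have he1 : e ≤ 1 := he.2.trans (by norm_num)
  have g1 := H415.lg_le' (c := th) h1 he.1 he1
  have g2 := H415.lg_le' (c := thp) h2 he.1 he1
  obtain ⟨u, hu⟩ : ∃ u : ℝ, u = Real.logb 2 (1 / e) := ⟨_, rfl⟩
  rw [← hu] at g1 g2
  have u0 : 0 ≤ u := by
    rw [hu]
    exact Real.logb_nonneg one_lt_two ((le_div_iff₀ he.1).2 (by linarith))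
  have pw : ∀ c : ℝ, e ^ (-c) = (2 : ℝ) ^ (c * u) := fun c => by rw [hu, H415.two_rpow_logb he.1]
  have pw' : ∀ c : ℝ, e ^ c = (2 : ℝ) ^ (-(c * u)) := fun c => by
    rw [← neg_neg c, pw (-c)]
    congr 1
    ring
  have hkR : (k : ℝ) ≤ lg th e + q1 * (4 * lg thp e) := by exact_mod_cast hk
  have hk2 : (k : ℝ) ≤ (1 + 4 * q1) + 1 / 16 * u := by
    have h3 : (q1 : ℝ) * (4 * lg thp e) ≤ q1 * (4 * (thp * u + 1)) := by gcongr
    have h4 : (th + 4 * q1 * thp) * u ≤ 1 / 16 * u := mul_le_mul_of_nonneg_right hq u0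
    linarith
  rw [le_div_iff₀ (by positivity)] at hη'
  refine le_trans ?_ hη'
  rw [pw', pw', ← pow_mul, ← Real.rpow_natCast, ← Real.rpow_natCast, ← Real.rpow_add two_pos,
    ← Real.rpow_add two_pos]
  refine Real.rpow_le_rpow_of_exponent_le (by norm_num) ?_
  push_cast
  linarith

/-- the order of constants: `th + 4 q0 thp` is small -/
lemma tor_q {Q : ℕ} {x1 thp th ρ : ℝ} (hρ : 0 < ρ) (hx1 : 0 < x1) (hx1' : x1 ≤ ρ / 16)
    (ht1 : 0 < thp) (ht2 : thp ≤ ρ / (16 * ((Q : ℝ) + 3))) (hth : th ≤ ρ / 4) :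
    th + 4 * ((Q + ⌈x1 / thp⌉₊ + 2 : ℕ) : ℝ) * thp ≤ ρ := by
  have h2 : (⌈x1 / thp⌉₊ : ℝ) ≤ x1 / thp + 1 := (Nat.ceil_lt_add_one (by positivity)).le
  have h3 : (⌈x1 / thp⌉₊ : ℝ) * thp ≤ x1 + thp := by
    calc (⌈x1 / thp⌉₊ : ℝ) * thp ≤ (x1 / thp + 1) * thp := by gcongr
      _ = x1 + thp := by field_simp
  have h4 : ((Q : ℝ) + 3) * thp ≤ ρ / 16 := by
    rw [le_div_iff₀ (by positivity)] at ht2
    linarith
  push_cast
  nlinarith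

/-- the cluster inputs of LOC at the states, with the constants `L₀, c, C, A` -/
structure LocC (P : Par) (L₀ c C : ℝ) (A : ℕ) : Prop where
  hL : 0 < L₀
  hc : 0 < c
  hC : 0 < C
  hA : 8 ≤ A
  ln : ∀ (b : ℝ) (hb : 0 < b) (n : ℕ) (e : ℝ), 0 < e → e ≤ P.es →
      (∀ r, P.TT n e r → RNG P b n r e) → ∀ (m n' j J : ℕ) [NeZero ((m + 1) * (n' + 2))]
      [NeZero ((m + 1) * 2)], m + 1 = 2 ^ j → n' + 2 = 2 ^ (J + 1) → n + P.kE e ≤ j + 1 →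
        P.TT n e (j + J + 1) → A ≤ 2 ^ n ∧ LN m n' b hb (2 ^ n) A L₀ c C

/-- **the cluster inputs of LOC at the states** -/
def LNP (P : Par) : Prop := ∃ (L₀ c C : ℝ) (A : ℕ), LocC P L₀ c C A

/-- **`LNP` in the order of constants** -/
theorem ev_ln {b1 b2 : ℝ} (hb1 : 0 < b1) (hA6 : Spec.ThmA6 b1 b2 (5 / 2)) (pf : ℝ) (Q : ℕ) :
    Ev b1 b2 pf Q fun P _ => LNP P := by
  obtain ⟨W₀, h⟩ := ln_T (b2 := b2) (a := 5 / 2) hb1 hA6
  refine H801.Ev.of ⟨W₀, fun W hW => ?_⟩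
  obtain ⟨L₀, c, C, η, ys0, A, X, hL₀, hc, hC, hη, hys0, hA, hAX, h⟩ := h W hW
  refine ⟨ys0, hys0, fun ys hy1 hy2 => ⟨X, fun X0 hX0 => ⟨1 / 256, by norm_num,
    fun x1 hx1 hx1' => ⟨(1 / 16) / (16 * ((Q : ℝ) + 3)), by positivity,
    fun thp ht1 ht2 => ⟨1 / 64, by norm_num, fun th hs1 hs2 => ⟨1, fun C0 hC0 => ?_⟩⟩⟩⟩⟩⟩
  obtain ⟨q1, hq1⟩ : ∃ q1 : ℕ, q1 = Q + ⌈x1 / thp⌉₊ + 2 := ⟨_, rfl⟩
  have hq : th + 4 * q1 * thp ≤ 1 / 16 := by
    rw [hq1]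
    exact tor_q (by norm_num) hx1 (by linarith) ht1 ht2 (by linarith)
  obtain ⟨Ea, hEa, hEa2, ha⟩ := H415.le_of_ev (tor_ev q1 hs1.le ht1.le hη hq)
  refine ⟨1, one_pos, fun c1 _ _ => ⟨Ea, hEa, fun P hP => ?_⟩⟩
  refine ⟨L₀, c, C, A, hL₀, hc, hC, hA, fun b hb n e he hes hR m n' j J _ _ hj hJ hkE hTT => ?_⟩
  have hkE' : P.kE e = lg th e := by
    unfold Par.kE
    rw [hP.eth]
  have hw' : P.w e = lg thp e := by
    unfold Par.w
    rw [hP.ethp]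
  have hq0 : P.q0 = q1 := by rw [hP.eq0, hq1]
  -- the range at the torus `2 ^ r`
  have hrng : ∀ r, P.TT n e r → Rng b1 b2 (5 / 2) W ys0 X (2 ^ r) b (2 ^ n) (e ^ (1 / 4 : ℝ)) := by
    intro r hr
    have h3 := hR r hr
    unfold RNG at h3
    rw [hP.eb1, hP.eb2, hP.eW, hP.eys, hP.eX0] at h3
    exact H857.rng_mono h3 le_rfl hy2 hX0
  have hTk : ∀ k ≤ J, P.TT n e (j + 1 + k) := fun k hk => by
    unfold Par.TT at hTT ⊢
    exact ⟨by omega, by omega⟩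
  have hX2 : X ≤ 2 ^ n := (hrng _ hTT).hX
  refine ⟨hAX.trans hX2, ?_⟩
  refine h m n' J b hb (2 ^ n) hJ fun k hk => ⟨e ^ (1 / 4 : ℝ), ?_, ?_⟩
  · refine rng_cast ?_ (hrng _ (hTk k hk))
    rw [hj]
    ring
  · have h3 := ha e he (hes.trans hP.ees) (j + 1 + k - n) (by
      have h4 := hTk k hk
      unfold Par.TT at h4
      rw [hkE', hw', hq0] at h4
      omega)
    have hnj : n ≤ j + 1 + k := by omega
    have e1 : ((2 ^ k * (2 * (m + 1)) : ℕ) : ℝ) = 2 ^ (j + 1 + k - n) * 2 ^ n := by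
      rw [hj]
      push_cast
      rw [← pow_add, Nat.sub_add_cancel hnj]
      ring
    rw [e1]
    push_cast
    have h5 : (0 : ℝ) ≤ (2 ^ n) ^ 2 := by positivity
    calc (2 ^ (j + 1 + k - n) * 2 ^ n) ^ 2 * e ^ (1 / 4 : ℝ) =
        ((2 : ℝ) ^ (j + 1 + k - n)) ^ 2 * e ^ (1 / 4 : ℝ) * (2 ^ n) ^ 2 := by ring
      _ ≤ η * (2 ^ n) ^ 2 := mul_le_mul_of_nonneg_right h3 h5

end

end Vale.Agent.P159.H474.Cb
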