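import Vale.Agent.P159.H474.Ev1
import Vale.Agent.P159.H612.LocN1
import Vale.Agent.P159.H43.OscP
import Vale.Agent.P159.H801.SFlow

/-!
P159, helper474: **helper612's `LocI` along the flow**, in helper145's letters: scale `j` with
`lg ck (y n) ≤ j` and `j + i + 1 ≤ 8 w`, the tori `2 ^ (n + j + i')`, `i ≤ i' ≤ i + 1`, blocks
`2 ^ (n + 11 j / 16)`, gap `2 ^ (n + 5 j / 8)`, `l = 2 ^ (n + 3 j / 4)`, and `epsL ≤ y ^ u`.
-/

set_option linter.unusedSectionVars false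

namespace Vale.Agent.P159.H474.Cb

open Finset Filter Topology
open Vale.Agent.P159.H37 (ZM Zn)
open Vale.Agent.P159.H145 (OscZ)
open Vale.Agent.P159.H612 (om0)
open Vale.Agent.P159.H612.LocK (LocI epsL locI_num big)
open Vale.Agent.P159.H817 (Dec SuppD GB)
open Vale.Agent.P159.H280.Hs (PRS)
open Vale.Agent.P159.H864 (yt)
open Vale.Agent.P159.TM
open Vale.Agent.P159.TM.Spec (V)
open Vale.Agent.P159.TM.SpecC (Tor wT)
open Vale.Agent.P159.H972 (lg tn Par RNG GP Good YBn)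
open Vale.Agent.P159.H801 (SFlow)

noncomputable section

/-! ### logarithms -/

lemma lb_eq {y : ℝ} : Real.logb 2 (1 / y) = -Real.log y / Real.log 2 := by
  rw [Real.logb, one_div, Real.log_inv]

lemma le_lg (c y : ℝ) : c * Real.logb 2 (1 / y) ≤ lg c y := Nat.le_ceil _

lemma lg_le {c y : ℝ} (h : 0 ≤ c * Real.logb 2 (1 / y)) :
    (lg c y : ℝ) ≤ c * Real.logb 2 (1 / y) + 1 :=
  (Nat.ceil_lt_add_one h).le

lemma lb_tend {y : ℕ → ℝ} (hy : ∀ n, 0 < y n) (ht : Tendsto y atTop (𝓝 0)) :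
    Tendsto (fun n => Real.logb 2 (1 / y n)) atTop atTop := by
  have h1 : Tendsto y atTop (𝓝[>] 0) :=
    tendsto_nhdsWithin_iff.2 ⟨ht, Eventually.of_forall hy⟩
  have h2 := Real.tendsto_log_nhdsGT_zero.comp h1
  have h3 : (fun n => Real.logb 2 (1 / y n)) = fun n => (Real.log 2)⁻¹ * -(Real.log (y n)) := by
    funext n
    rw [lb_eq]
    ring
  rw [h3]
  refine Tendsto.const_mul_atTop (inv_pos.2 (Real.log_pos one_lt_two)) ?_
  exact tendsto_neg_atBot_atTop.comp h2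

/-- `om0` from `OscZ` -/
lemma om0_osc {N : ℕ} [NeZero N] {b t ω : ℝ} (hb : 0 < b) (ht : 0 < t)
    (h : OscZ (wT b N) (H145.mt N t) ω) : om0 N b (H145.mt N t) ≤ ω := by
  have h1 := h 0 0 ⟨le_rfl, zero_le_one⟩
  rw [H145.cs_zero] at h1
  have h0 := H145.Zn_pos (H145.mt_symm (N := N) (t := t)) (H145.em_mt hb.le ht) (0 : Tor N → ℝ)
  unfold om0
  rw [sub_le_iff_le_add, div_le_iff₀ h0]
  have h2 := (abs_le.1 h1).2
  linarith

/-- **the oscillation constant from `yt`** -/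
lemma om0_le {b : ℝ} (hb : 0 < b) {n r N : ℕ} [NeZero N] (hN : N = 2 ^ r) (hr : n ≤ r) {Y : ℝ}
    (hy : yt (2 ^ r) b (4 * tn n) ≤ Y) (hs : 4 * ((2 ^ (r - n)) ^ 2 * Y) ≤ 1) :
    om0 N b ((1 / ((2 ^ n : ℕ) : ℝ) ^ 2) • (1 : Matrix (Tor N) (Tor N) ℝ)) ≤
      2 * ((2 ^ (r - n)) ^ 2 * Y) := by
  subst hN
  have e : 1 / ((2 ^ n : ℕ) : ℝ) ^ 2 = tn n := by
    unfold tn
    push_cast
    rw [← pow_mul, mul_comm n 2, pow_mul, one_div]
    norm_num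
  have ht : 0 < tn n := by unfold tn; positivity
  rw [e]
  exact om0_osc hb ht (H43.osc_post hb hr le_rfl (by linarith) hy hs)

/-- the oscillation constant of the level, scale `j` (both tori) -/
def omS (y ε cc : ℝ) (i j : ℕ) : ℝ := 2 * (((2 : ℝ) ^ (j + i + 1)) ^ 2 * (ε ^ (-cc) * y))

section flow

variable {P : Par} {b σ cc c1 q2 qx : ℝ} {a y ε xs : ℕ → ℝ} {c' r q A' : ℝ} {N0 : ℕ}

lemma sf_eps (h : SFlow P b σ cc c1 q2 qx a y ε xs c' r q A' N0) {n : ℕ} (hn : N0 ≤ n) :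
    0 < ε n := (Real.rpow_pos_of_pos (h.fl.y0 n) _).trans_le (h.lo n hn)

/-- `log2 (1 / ε) ≤ (2 - σ) log2 (1 / y)` -/
lemma sf_ub (h : SFlow P b σ cc c1 q2 qx a y ε xs c' r q A' N0) {n : ℕ} (hn : N0 ≤ n) :
    Real.logb 2 (1 / ε n) ≤ (2 - σ) * Real.logb 2 (1 / y n) := by
  have hl : 0 < Real.log 2 := Real.log_pos one_lt_two
  have h1 := h.lo n hn
  have h2 := Real.log_le_log (Real.rpow_pos_of_pos (h.fl.y0 n) _) h1
  rw [Real.log_rpow (h.fl.y0 n)] at h2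
  rw [lb_eq, lb_eq, mul_div_assoc']
  refine div_le_div_of_nonneg_right ?_ hl.le
  linarith

lemma y_two {u : ℝ} (hu : 0 < u) (s : ℝ) :
    u ^ s = (2 : ℝ) ^ (-(s * Real.logb 2 (1 / u))) := by
  have h1 : Real.logb 2 (1 / u) = -Real.logb 2 u := by
    rw [one_div, Real.logb_inv]
  rw [h1, mul_neg, neg_neg, mul_comm, Real.rpow_mul (by norm_num),
    Real.rpow_logb (by norm_num) (by norm_num) hu]

/-- the numbers of the scale `j`: oscillation -/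
lemma om_num (h : SFlow P b σ cc c1 q2 qx a y ε xs c' r q A' N0) (hσ : 0 ≤ σ) (hcc : 0 ≤ cc)
    {u : ℝ} (hu0 : 0 ≤ u) (hu : u + 4 * cc + 64 * P.thp < 2) (i : ℕ) :
    ∀ᶠ n in atTop, ∀ j, j + i + 1 ≤ 8 * P.w (ε n) →
      4 * (((2 : ℝ) ^ (j + i + 1)) ^ 2 * (ε n ^ (-cc) * y n)) ≤ 1 ∧
      omS (y n) (ε n) cc i j ≤ 1 / 4 ∧ 8 * omS (y n) (ε n) cc i j ^ 2 ≤ 1 / 2 * y n ^ u := by
  have hth := P.thp0
  have hl := (lb_tend h.fl.y0 h.fl.yt).eventually_ge_atTop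
    (40 / (2 - u - 4 * cc - 64 * P.thp))
  have hl2 := (lb_tend h.fl.y0 h.fl.yt).eventually_ge_atTop 1
  filter_upwards [hl, hl2, eventually_ge_atTop N0] with n hn hn1 hN j hj
  obtain ⟨L, hL⟩ : ∃ L, L = Real.logb 2 (1 / y n) := ⟨_, rfl⟩
  rw [← hL] at hn hn1
  have hy0 := h.fl.y0 n
  have hε0 := sf_eps h hN
  have d0 : 0 < 2 - u - 4 * cc - 64 * P.thp := by linarith
  rw [div_le_iff₀ d0] at hn
  have hub := sf_ub h hN
  rw [← hL] at hub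
  have hub2 : Real.logb 2 (1 / ε n) ≤ 2 * L := by nlinarith
  have hε1 : ε n ≤ 1 := (h.es n hN).trans (P.es1.trans (by norm_num))
  have hlb0 : 0 ≤ Real.logb 2 (1 / ε n) :=
    Real.logb_nonneg one_lt_two ((le_div_iff₀ hε0).2 (by linarith))
  have hw : (P.w (ε n) : ℝ) ≤ 2 * P.thp * L + 1 := by
    have h1 : (P.w (ε n) : ℝ) ≤ P.thp * Real.logb 2 (1 / ε n) + 1 :=
      lg_le (mul_nonneg hth.le hlb0)
    have h2 : P.thp * Real.logb 2 (1 / ε n) ≤ P.thp * (2 * L) :=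
      mul_le_mul_of_nonneg_left hub2 hth.le
    linarith
  have hjR : ((j : ℝ) + i + 1) ≤ 8 * P.w (ε n) := by exact_mod_cast hj
  have hj2 : (j : ℝ) + i + 1 ≤ 16 * P.thp * L + 8 := by linarith
  -- `Y`
  have hY : ε n ^ (-cc) * y n ≤ (2 : ℝ) ^ (2 * cc * L - L) := by
    rw [y_two hε0]
    have e1 : y n = (2 : ℝ) ^ (-L) := by
      have := y_two hy0 1
      rw [Real.rpow_one, ← hL, one_mul] at this
      exact this
    rw [e1, ← Real.rpow_add two_pos]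
    refine Real.rpow_le_rpow_of_exponent_le one_le_two ?_
    have : cc * Real.logb 2 (1 / ε n) ≤ cc * (2 * L) := mul_le_mul_of_nonneg_left hub2 hcc
    linarith
  have hY0 : 0 < ε n ^ (-cc) * y n := mul_pos (Real.rpow_pos_of_pos hε0 _) hy0
  have hp : ((2 : ℝ) ^ (j + i + 1)) ^ 2 ≤ (2 : ℝ) ^ (32 * P.thp * L + 16) := by
    rw [← pow_mul, ← Real.rpow_natCast]
    refine Real.rpow_le_rpow_of_exponent_le one_le_two ?_
    push_cast
    linarith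
  have hZ : ((2 : ℝ) ^ (j + i + 1)) ^ 2 * (ε n ^ (-cc) * y n) ≤
      (2 : ℝ) ^ (32 * P.thp * L + 16 + (2 * cc * L - L)) := by
    rw [Real.rpow_add two_pos]
    exact mul_le_mul hp hY hY0.le (Real.rpow_nonneg two_pos.le _)
  have hZ2 : (2 : ℝ) ^ (32 * P.thp * L + 16 + (2 * cc * L - L)) ≤ (2 : ℝ) ^ (-4 - u / 2 * L) := by
    refine Real.rpow_le_rpow_of_exponent_le one_le_two ?_
    nlinarith
  set Z := ((2 : ℝ) ^ (j + i + 1)) ^ 2 * (ε n ^ (-cc) * y n) with hZd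
  have hZ0 : 0 ≤ Z := by positivity
  have hZ3 : Z ≤ (2 : ℝ) ^ (-4 - u / 2 * L) := hZ.trans hZ2
  have hZ4 : Z ≤ 1 / 16 := by
    refine hZ3.trans ?_
    have e1 : (1 / 16 : ℝ) = (2 : ℝ) ^ (-4 : ℝ) := by
      rw [Real.rpow_neg two_pos.le]
      norm_num
    rw [e1]
    refine Real.rpow_le_rpow_of_exponent_le one_le_two ?_
    have : 0 ≤ u / 2 * L := mul_nonneg (by linarith) (by linarith)
    linarith
  refine ⟨by linarith, ?_, ?_⟩
  · unfold omS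
    rw [← hZd]
    linarith
  · unfold omS
    rw [← hZd, y_two hy0 u, ← hL]
    have h5 : Z ^ 2 ≤ (2 : ℝ) ^ (-4 - u / 2 * L) * (2 : ℝ) ^ (-4 - u / 2 * L) := by
      rw [pow_two]
      exact mul_le_mul hZ3 hZ3 hZ0 (Real.rpow_nonneg two_pos.le _)
    rw [← Real.rpow_add two_pos] at h5
    have e2 : (2 : ℝ) ^ (-4 - u / 2 * L + (-4 - u / 2 * L)) = 1 / 256 * (2 : ℝ) ^ (-(u * L)) := by
      have e3 : -4 - u / 2 * L + (-4 - u / 2 * L) = -8 + -(u * L) := by ring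
      rw [e3, Real.rpow_add two_pos]
      congr 1
      rw [Real.rpow_neg two_pos.le]
      norm_num
    rw [e2] at h5
    have h6 : 0 ≤ (2 : ℝ) ^ (-(u * L)) := Real.rpow_nonneg two_pos.le _
    nlinarith

/-- the numbers of the scale `j`: the small exponential -/
lemma exp_num (h : SFlow P b σ cc c1 q2 qx a y ε xs c' r q A' N0) {c ck u : ℝ} (hc : 0 < c)
    (hck : 0 < ck) (hu0 : 0 ≤ u) :
    ∀ᶠ n in atTop, ∀ j, lg ck (y n) ≤ j →
      Real.exp (-(c / 8 * 2 ^ (5 * j / 8))) ≤ 1 / 2 * y n ^ u := by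
  obtain ⟨J0, hJ0⟩ := eventually_atTop.1 (big (8 / c * (u / ck + 1)))
  have hl := (lb_tend h.fl.y0 h.fl.yt).eventually_ge_atTop ((J0 : ℝ) / ck)
  have hl2 := (lb_tend h.fl.y0 h.fl.yt).eventually_ge_atTop 1
  filter_upwards [hl, hl2, eventually_ge_atTop N0] with n hn hn1 hN j hj
  obtain ⟨L, hL⟩ : ∃ L, L = Real.logb 2 (1 / y n) := ⟨_, rfl⟩
  rw [← hL] at hn hn1
  have hy0 := h.fl.y0 n
  have hkj : ck * L ≤ j := by
    have h1 : ck * Real.logb 2 (1 / y n) ≤ lg ck (y n) := le_lg _ _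
    have h2 : ((lg ck (y n) : ℕ) : ℝ) ≤ j := by exact_mod_cast hj
    rw [← hL] at h1
    linarith
  have hJ : J0 ≤ j := by
    rw [div_le_iff₀ hck] at hn
    have : (J0 : ℝ) ≤ j := by linarith
    exact_mod_cast this
  have hb := hJ0 j hJ
  have h1 : (2 : ℝ) ^ (j / 2) ≤ 2 ^ (5 * j / 8) :=
    pow_le_pow_right₀ (by norm_num) (by omega)
  rw [y_two hy0 u, ← hL]
  have e1 : (1 / 2 : ℝ) * (2 : ℝ) ^ (-(u * L)) = (2 : ℝ) ^ (-(u * L) - 1) := by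
    rw [Real.rpow_sub two_pos, Real.rpow_one]
    ring
  rw [e1]
  have e2 : (2 : ℝ) ^ (-(u * L) - 1) = Real.exp (-((u * L + 1) * Real.log 2)) := by
    rw [Real.rpow_def_of_pos two_pos]
    congr 1
    ring
  rw [e2]
  refine Real.exp_le_exp.2 (neg_le_neg ?_)
  have hl2' : Real.log 2 ≤ 1 := by
    have := Real.log_two_lt_d9
    linarith
  have hj0 : (0 : ℝ) ≤ j := by positivity
  have h3 : (u * L + 1) * Real.log 2 ≤ u * L + 1 :=
    mul_le_of_le_one_right (by positivity) hl2'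
  refine h3.trans ?_
  have h4 : c / 8 * (8 / c * (u / ck + 1) * ((j : ℝ) + 1)) ≤ c / 8 * 2 ^ (5 * j / 8) :=
    mul_le_mul_of_nonneg_left (hb.trans h1) (by positivity)
  refine le_trans ?_ h4
  have e3 : c / 8 * (8 / c * (u / ck + 1) * ((j : ℝ) + 1)) = (u / ck + 1) * (j + 1) := by
    field_simp
  rw [e3]
  have h5 : u / ck * (ck * L) = u * L := by field_simp
  have h6 : 0 ≤ u / ck := by positivity
  have h7 : u / ck * (ck * L) ≤ u / ck * j := mul_le_mul_of_nonneg_left hkj h6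
  nlinarith

/-- **`LocI` along the flow**, both tori of a scale -/
theorem locI_flow (hP : P.Adm) (hb : 0 < b) (hσ : 0 ≤ σ) (hσ1 : σ ≤ 1 / 3) (hcc : 0 ≤ cc)
    (h : SFlow P b σ cc c1 q2 qx a y ε xs c' r q A' N0) {L₀ c C : ℝ} {A : ℕ}
    (H : LocC P L₀ c C A) (i m0 : ℕ) {ck u : ℝ} (hck : 4 * P.th ≤ ck) (hu0 : 0 ≤ u)
    (hu : u + 4 * cc + 64 * P.thp < 2) :
    ∀ᶠ n in atTop, ∀ j, lg ck (y n) ≤ j → j + i + 1 ≤ 8 * P.w (ε n) → ∀ i', i ≤ i' → i' ≤ i + 1 →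
      ∀ (k mb nb N : ℕ) [NeZero N] [NeZero ((mb + 1) * (nb + 2))] [NeZero ((mb + 1) * 2)],
      k ≤ j → mb + 1 = 2 ^ (n + 11 * j / 16) → nb + 2 = 2 ^ (j + i' - 11 * j / 16) →
      N = 2 ^ (n + j + i') →
      ∀ (r l0 : ℕ) (Λ pr : ℝ) (D0 D1 : Dec), l0 ≤ 2 ^ (n + k / 16 + m0) → 0 ≤ Λ →
      Λ ≤ 2 ^ (j / 16) → pr ≤ c / 32 * 2 ^ (5 * j / 8) →
      (∀ F ∈ D0, SuppD l0 F) → (∀ F ∈ D1, SuppD l0 F) →
      (∀ h : V N → ℝ, GB (Λ / ((2 ^ (n + 3 * j / 4) : ℕ) : ℝ)) h →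
        PRS mb nb (2 ^ (n + 5 * j / 8)) b (1 / ((2 ^ n : ℕ) : ℝ) ^ 2) (∅ : Finset (Tor N))
          (H817.gr h) pr) →
      (∀ F0 ∈ D0, ∀ F1 ∈ D1, ∀ (p q : V N) (h : V N → ℝ), H817.Far r p q →
        GB (Λ / ((2 ^ (n + 3 * j / 4) : ℕ) : ℝ)) h →
        PRS mb nb (2 ^ (n + 5 * j / 8)) b (1 / ((2 ^ n : ℕ) : ℝ) ^ 2) ({p, q} : Finset (Tor N))
          (H817.cfg F0 F1 p q h) pr) →
      LocI N mb nb b hb (2 ^ n) A (2 ^ (n + 5 * j / 8)) (2 ^ (n + 3 * j / 4)) r l0 L₀ c C Λ pr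
          (omS (y n) (ε n) cc i j) D0 D1 ∧
        epsL N (2 ^ n) A (2 ^ (n + 5 * j / 8)) c C pr (omS (y n) (ε n) cc i j) ≤ y n ^ u := by
  have hth := P.th0
  have hck0 : 0 < ck := by linarith
  have hA2 : 2 ≤ A := by
    have := H.hA
    omega
  obtain ⟨J1, hJ1⟩ := eventually_atTop.1 (locI_num H.hc H.hC H.hL hA2 i m0)
  obtain ⟨J2, hJ2⟩ := eventually_atTop.1 (locI_num H.hc H.hC H.hL hA2 (i + 1) m0)
  have hl := (lb_tend h.fl.y0 h.fl.yt).eventually_ge_atTop (((max J1 J2 : ℕ) : ℝ) / ck)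
  have hl2 := (lb_tend h.fl.y0 h.fl.yt).eventually_ge_atTop (2 / P.th)
  filter_upwards [om_num h hσ hcc hu0 hu i, exp_num h H.hc hck0 hu0, hl, hl2,
    eventually_ge_atTop N0] with n hom hexp hn hn2 hN
  intro j hj hjw i' hi1 hi2 k mb nb N _ _ _ hkj hm hnb hNN r l0 Λ pr D0 D1 hl0 hΛ0 hΛ hpr s0 s1
    p0 p1
  obtain ⟨L, hL⟩ : ∃ L, L = Real.logb 2 (1 / y n) := ⟨_, rfl⟩
  rw [← hL] at hn hn2
  have hε0 := sf_eps h hN
  have hes := h.es n hN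
  have hkjR : ck * L ≤ j := by
    have h1 : ck * Real.logb 2 (1 / y n) ≤ lg ck (y n) := le_lg _ _
    have h2 : ((lg ck (y n) : ℕ) : ℝ) ≤ j := by exact_mod_cast hj
    rw [← hL] at h1
    linarith
  have hJ : max J1 J2 ≤ j := by
    rw [div_le_iff₀ hck0] at hn
    have : ((max J1 J2 : ℕ) : ℝ) ≤ j := by linarith
    exact_mod_cast this
  -- `16 kE ≤ 11 j`
  have hkE : 16 * P.kE (ε n) ≤ 11 * j := by
    have hub := sf_ub h hN
    rw [← hL] at hub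
    rw [div_le_iff₀ hth] at hn2
    have hL0 : 0 ≤ L := by nlinarith
    have hub2 : Real.logb 2 (1 / ε n) ≤ 2 * L := by nlinarith
    have hε1 : ε n ≤ 1 := hes.trans (P.es1.trans (by norm_num))
    have hlb0 : 0 ≤ Real.logb 2 (1 / ε n) :=
      Real.logb_nonneg one_lt_two ((le_div_iff₀ hε0).2 (by linarith))
    have h1 : (P.kE (ε n) : ℝ) ≤ P.th * Real.logb 2 (1 / ε n) + 1 :=
      lg_le (mul_nonneg hth.le hlb0)
    have h2 : P.th * Real.logb 2 (1 / ε n) ≤ P.th * (2 * L) :=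
      mul_le_mul_of_nonneg_left hub2 hth.le
    have h3 : 4 * P.th * L ≤ ck * L := mul_le_mul_of_nonneg_right hck hL0
    have : (16 : ℝ) * P.kE (ε n) ≤ 11 * j := by linarith
    exact_mod_cast this
  have hq2 := hP.hq
  have hq4 : 2 * (4 * P.w (ε n)) ≤ P.q0 * (4 * P.w (ε n)) := Nat.mul_le_mul_right _ hq2
  have hTT : P.TT n (ε n) (n + j + i') := ⟨by omega, by omega⟩
  obtain ⟨τ, a', -, -, hG⟩ := h.good n hN
  have hGe := hG (ε n) le_rfl hes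
  obtain ⟨J, hJe⟩ : ∃ J, j + i' - 11 * j / 16 = J + 1 := by
    have h1 : 1 ≤ P.kE (ε n) :=
      H972.one_le_lg hth hε0 (hes.trans P.es1)
    exact ⟨j + i' - 11 * j / 16 - 1, by omega⟩
  obtain ⟨hAn, hLN⟩ := H.ln b hb n (ε n) hε0 hes (fun r hr => (hGe.rng r (Or.inl hr)).1) mb nb
    (n + 11 * j / 16) J hm (by rw [hnb, hJe]) (by omega) (by
      have e : n + 11 * j / 16 + J + 1 = n + j + i' := by omega
      rw [e]
      exact hTT)
  -- the oscillation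
  obtain ⟨o1, o2, o3⟩ := hom j hjw
  have hYB := (h.yb n hN).2.2 (ε n) le_rfl hes (n + j + i') hTT.1
  have hYε : ε n ≤ ε n ^ (-cc) * y n := by
    have hε1 : ε n ≤ 1 := hes.trans (P.es1.trans (by norm_num))
    have h1 : (1 : ℝ) ≤ ε n ^ (-cc) := Real.one_le_rpow_of_pos_of_le_one_of_nonpos hε0 hε1
      (by linarith)
    have h2 : ε n ≤ y n := by
      refine (h.up n hN).trans ?_
      have h4 : y n ^ (2 - 3 * σ) ≤ y n ^ (1 : ℝ) :=
        Real.rpow_le_rpow_of_exponent_ge (h.fl.y0 n) (h.y1 n hN) (by linarith)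
      rwa [Real.rpow_one] at h4
    have hy0 := h.fl.y0 n
    nlinarith
  rw [max_eq_left hYε] at hYB
  have hY0 : 0 ≤ ε n ^ (-cc) * y n :=
    mul_nonneg (Real.rpow_nonneg hε0.le _) (h.fl.y0 n).le
  have hp2 : ((2 : ℝ) ^ (n + j + i' - n)) ^ 2 ≤ ((2 : ℝ) ^ (j + i + 1)) ^ 2 :=
    pow_le_pow_left₀ (by positivity) (pow_le_pow_right₀ (by norm_num) (by omega)) 2
  have hω : om0 N b ((1 / ((2 ^ n : ℕ) : ℝ) ^ 2) • (1 : Matrix (Tor N) (Tor N) ℝ)) ≤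
      omS (y n) (ε n) cc i j := by
    refine (om0_le hb hNN (by omega) hYB ?_).trans ?_
    · have := mul_le_mul_of_nonneg_right hp2 hY0
      linarith
    · unfold omS
      have := mul_le_mul_of_nonneg_right hp2 hY0
      linarith
  have key : LocI N mb nb b hb (2 ^ n) A (2 ^ (n + 5 * j / 8)) (2 ^ (n + 3 * j / 4)) r l0 L₀ c C Λ
      pr (omS (y n) (ε n) cc i j) D0 D1 ∧
      epsL N (2 ^ n) A (2 ^ (n + 5 * j / 8)) c C pr (omS (y n) (ε n) cc i j) ≤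
        Real.exp (-(c / 8 * 2 ^ (5 * j / 8))) + 8 * omS (y n) (ε n) cc i j ^ 2 := by
    rcases Nat.eq_or_lt_of_le hi1 with hi | hi
    · subst hi
      exact hJ1 j ((le_max_left _ _).trans hJ) n k mb nb N hAn hkj hm hnb hNN b hb hLN r l0 Λ pr _
        D0 D1 hl0 hΛ0 hΛ hpr hω o2 s0 s1 p0 p1
    · obtain rfl : i' = i + 1 := by omega
      exact hJ2 j ((le_max_right _ _).trans hJ) n k mb nb N hAn hkj hm hnb hNN b hb hLN r l0 Λ pr
        _ D0 D1 hl0 hΛ0 hΛ hpr hω o2 s0 s1 p0 p1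
  refine ⟨key.1, key.2.trans ?_⟩
  have := hexp j hj
  linarith

end flow

end

end Vale.Agent.P159.H474.Cb
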