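import Vale.Agent.P159.H474.Cb17
import Vale.Agent.P159.H817.St12

/-!
P159, helper474: **`FltG` from bounds of the edge field** (text of helper612).

If the edge field `eF X.1 X.2` is closed and at most `S` in the gap, then `FltG m n w R0 l X (2 S)`.
-/

set_option linter.unusedSectionVars false

namespace Vale.Agent.P159.H474.Cb

open Finset
open Vale.Agent.P159.H770 (Ed eS eT)
open Vale.Agent.P159.TM.SpecC (Tor)
open Vale.Agent.P159.H817 (eF gr cu e1 e2 sz)
open Vale.Agent.P159.TM.H459 (ball mem_ball sd sn sd_symm sd_tri)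

noncomputable section

section blk

variable {N : ℕ} [NeZero N]

lemma pt_e1 (s : Tor N) (a c : ℕ) : pt s a c + e1 = pt s (a + 1) c := by
  unfold pt
  refine Prod.ext ?_ ?_
  · show (a : ZMod N) + s.1 + 1 = ((a + 1 : ℕ) : ZMod N) + s.1
    push_cast
    ring
  · show (c : ZMod N) + s.2 + 0 = (c : ZMod N) + s.2
    ring

lemma pt_e2 (s : Tor N) (a c : ℕ) : pt s a c + e2 = pt s a (c + 1) := by
  unfold pt
  refine Prod.ext ?_ ?_
  · show (a : ZMod N) + s.1 + 0 = (a : ZMod N) + s.1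
    ring
  · show (c : ZMod N) + s.2 + 1 = ((c + 1 : ℕ) : ZMod N) + s.2
    push_cast
    ring

/-- the path sum -/
def Vp (s : Tor N) (β : Tor N × Bool → ℝ) (a c : ℕ) : ℝ :=
  ∑ i ∈ range a, β (pt s i 0, false) + ∑ j ∈ range c, β (pt s a j, true)

lemma Vp_v (s : Tor N) (β : Tor N × Bool → ℝ) (a c : ℕ) :
    Vp s β a (c + 1) - Vp s β a c = β (pt s a c, true) := by
  unfold Vp
  rw [Finset.sum_range_succ]
  ring

lemma Vp_h {m : ℕ} {s : Tor N} {β : Tor N × Bool → ℝ}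
    (hcu : ∀ a c : ℕ, a ≤ m → c ≤ m → cu β (pt s a c) = 0) {a : ℕ} (ha : a < m + 1) :
    ∀ c : ℕ, c ≤ m + 1 → Vp s β (a + 1) c - Vp s β a c = β (pt s a c, false) := by
  intro c
  induction c with
  | zero =>
    intro _
    unfold Vp
    rw [Finset.sum_range_succ]
    simp
  | succ c ih =>
    intro hc
    have h1 := ih (by omega)
    have h2 := Vp_v s β (a + 1) c
    have h3 := Vp_v s β a c
    have h4 := hcu a c (by omega) (by omega)
    unfold cu at h4
    rw [pt_e1, pt_e2] at h4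
    linarith

/-- the potential on the torus -/
def vP (s : Tor N) (β : Tor N × Bool → ℝ) (x : Tor N) : ℝ := Vp s β (x - s).1.val (x - s).2.val

lemma vP_pt {m : ℕ} (hm : m + 2 ≤ N) (s : Tor N) (β : Tor N × Bool → ℝ) {a c : ℕ}
    (ha : a ≤ m + 1) (hc : c ≤ m + 1) : vP s β (pt s a c) = Vp s β a c := by
  have h1 : (pt s a c - s).1.val = a := by
    have e : (pt s a c - s).1 = ((a : ℕ) : ZMod N) := by
      unfold pt
      show (a : ZMod N) + s.1 - s.1 = _
      ring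
    rw [e, ZMod.val_natCast, Nat.mod_eq_of_lt (by omega)]
  have h2 : (pt s a c - s).2.val = c := by
    have e : (pt s a c - s).2 = ((c : ℕ) : ZMod N) := by
      unfold pt
      show (c : ZMod N) + s.2 - s.2 = _
      ring
    rw [e, ZMod.val_natCast, Nat.mod_eq_of_lt (by omega)]
  unfold vP
  rw [h1, h2]

lemma lip_h {m : ℕ} {s : Tor N} {β : Tor N × Bool → ℝ} {S : ℝ}
    (hcu : ∀ a c : ℕ, a ≤ m → c ≤ m → cu β (pt s a c) = 0)
    (hS : ∀ a c : ℕ, a ≤ m + 1 → c ≤ m + 1 → ∀ o, |β (pt s a c, o)| ≤ S) {c : ℕ}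
    (hc : c ≤ m + 1) (a k : ℕ) (h : a + k ≤ m + 1) :
    |Vp s β (a + k) c - Vp s β a c| ≤ S * k := by
  induction k with
  | zero => simp
  | succ k ih =>
    have h1 := ih (by omega)
    have h2 := Vp_h hcu (a := a + k) (by omega) c hc
    have h3 := hS (a + k) c (by omega) hc false
    have e : Vp s β (a + (k + 1)) c - Vp s β a c =
        (Vp s β (a + k + 1) c - Vp s β (a + k) c) + (Vp s β (a + k) c - Vp s β a c) := by
      rw [← add_assoc]
      ring
    rw [e, h2]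
    refine (abs_add_le _ _).trans ?_
    push_cast
    linarith

lemma lip_v {m : ℕ} {s : Tor N} {β : Tor N × Bool → ℝ} {S : ℝ}
    (hS : ∀ a c : ℕ, a ≤ m + 1 → c ≤ m + 1 → ∀ o, |β (pt s a c, o)| ≤ S) {a : ℕ}
    (ha : a ≤ m + 1) (c k : ℕ) (h : c + k ≤ m + 1) :
    |Vp s β a (c + k) - Vp s β a c| ≤ S * k := by
  induction k with
  | zero => simp
  | succ k ih =>
    have h1 := ih (by omega)
    have h2 := Vp_v s β a (c + k)
    have h3 := hS a (c + k) ha (by omega) true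
    have e : Vp s β a (c + (k + 1)) - Vp s β a c =
        (Vp s β a (c + k + 1) - Vp s β a (c + k)) + (Vp s β a (c + k) - Vp s β a c) := by
      rw [← add_assoc]
      ring
    rw [e, h2]
    refine (abs_add_le _ _).trans ?_
    push_cast
    linarith

lemma lip_h' {m : ℕ} {s : Tor N} {β : Tor N × Bool → ℝ} {S : ℝ} (hS0 : 0 ≤ S)
    (hcu : ∀ a c : ℕ, a ≤ m → c ≤ m → cu β (pt s a c) = 0)
    (hS : ∀ a c : ℕ, a ≤ m + 1 → c ≤ m + 1 → ∀ o, |β (pt s a c, o)| ≤ S) {c : ℕ}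
    (hc : c ≤ m + 1) {a a' k : ℕ} (ha : a ≤ m + 1) (ha' : a' ≤ m + 1) (h1 : a' ≤ a + k)
    (h2 : a ≤ a' + k) : |Vp s β a c - Vp s β a' c| ≤ S * k := by
  rcases le_total a a' with h | h
  · obtain ⟨j, rfl⟩ := Nat.exists_eq_add_of_le h
    rw [abs_sub_comm]
    refine (lip_h hcu hS hc a j ha').trans ?_
    have : (j : ℝ) ≤ k := by
      have : j ≤ k := by omega
      exact_mod_cast this
    gcongr
  · obtain ⟨j, rfl⟩ := Nat.exists_eq_add_of_le h
    refine (lip_h hcu hS hc a' j ha).trans ?_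
    have : (j : ℝ) ≤ k := by
      have : j ≤ k := by omega
      exact_mod_cast this
    gcongr

lemma lip_v' {m : ℕ} {s : Tor N} {β : Tor N × Bool → ℝ} {S : ℝ} (hS0 : 0 ≤ S)
    (hS : ∀ a c : ℕ, a ≤ m + 1 → c ≤ m + 1 → ∀ o, |β (pt s a c, o)| ≤ S) {a : ℕ}
    (ha : a ≤ m + 1) {c c' k : ℕ} (hc : c ≤ m + 1) (hc' : c' ≤ m + 1) (h1 : c' ≤ c + k)
    (h2 : c ≤ c' + k) : |Vp s β a c - Vp s β a c'| ≤ S * k := by
  rcases le_total c c' with h | h
  · obtain ⟨j, rfl⟩ := Nat.exists_eq_add_of_le h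
    rw [abs_sub_comm]
    refine (lip_v hS ha c j hc').trans ?_
    have : (j : ℝ) ≤ k := by
      have : j ≤ k := by omega
      exact_mod_cast this
    gcongr
  · obtain ⟨j, rfl⟩ := Nat.exists_eq_add_of_le h
    refine (lip_v hS ha c' j hc).trans ?_
    have : (j : ℝ) ≤ k := by
      have : j ≤ k := by omega
      exact_mod_cast this
    gcongr

end blk

section main

variable {m n : ℕ} [NeZero ((m + 1) * (n + 2))]

/-- **`FltG` from the edge field** -/
theorem fltG_of {w : Tor ((m + 1) * (n + 2))} {R0 l : ℕ} {X : GE ((m + 1) * (n + 2))} {S : ℝ}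
    (hS0 : 0 ≤ S)
    (hS : ∀ x b, R0 < sz (x - w) → sz (x - w) < R0 + l → |eF X.1 X.2 (x, b)| ≤ S)
    (hcu : ∀ x, R0 < sz (x - w) → sz (x - w) < R0 + l → cu (eF X.1 X.2) x = 0) :
    FltG m n w R0 l X (2 * S) := by
  intro s hs
  have hma : m + 2 ≤ (m + 1) * (n + 2) := by nlinarith [Nat.zero_le (m * n)]
  have hsd : ∀ x : Tor ((m + 1) * (n + 2)), sd w x = sz (x - w) := fun x => rfl
  set β : Tor ((m + 1) * (n + 2)) × Bool → ℝ := eF X.1 X.2 with hβ
  have hcu' : ∀ a c : ℕ, a ≤ m → c ≤ m → cu β (pt s a c) = 0 := fun a c ha hc => by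
    have := hs a c (by omega) (by omega)
    rw [hsd] at this
    exact hcu _ this.1 this.2
  have hS' : ∀ a c : ℕ, a ≤ m + 1 → c ≤ m + 1 → ∀ o, |β (pt s a c, o)| ≤ S :=
    fun a c ha hc o => by
      have := hs a c ha hc
      rw [hsd] at this
      exact hS _ o this.1 this.2
  have hg : ∀ a c : ℕ, gr X.2 (pt s a c, false) = X.2 (pt s (a + 1) c) - X.2 (pt s a c) := by
    intro a c
    unfold gr
    rw [if_neg (by simp), pt_e1]
  have hg' : ∀ a c : ℕ, gr X.2 (pt s a c, true) = X.2 (pt s a (c + 1)) - X.2 (pt s a c) := by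
    intro a c
    unfold gr
    rw [if_pos rfl, pt_e2]
  refine ⟨vP s β, ⟨fun a c ha hc => ?_, fun a c ha hc => ?_⟩, ?_⟩
  · rw [vP_pt hma s β (a := a + 1) (by omega) hc, vP_pt hma s β (by omega) hc,
      Vp_h hcu' ha c hc, ← hg, hβ]
    rfl
  · rw [vP_pt hma s β (c := c + 1) ha (by omega), vP_pt hma s β ha (by omega), Vp_v, ← hg', hβ]
    rfl
  · intro a c a' c' k h1 h2 h3 h4 h5 h6 h7 h8
    rw [vP_pt hma s β h1 h2, vP_pt hma s β h3 h4]
    have b1 := lip_h' hS0 hcu' hS' h2 h1 h3 h5 h6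
    have b2 := lip_v' hS0 hS' h3 h2 h4 h7 h8
    have e : Vp s β a c - Vp s β a' c' =
        (Vp s β a c - Vp s β a' c) + (Vp s β a' c - Vp s β a' c') := by ring
    rw [e]
    refine (abs_add_le _ _).trans ?_
    linarith

end main

end

end Vale.Agent.P159.H474.Cb
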