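import Vale.Agent.P159.TM.H764.Hyp

/-!
P159, module GREEN (helper474), file 1: exact one dimensional sums over `Z_N`.

`zz s` is the smaller root of `z + 1/z = s + 2`; for `n ≤ N`
`∑_{j ∈ Z_N} cos (2 π j n / N) / (s + 2 - 2 cos (2 π j / N))
   = N (z ^ n + z ^ (N - n)) / ((1 - z ^ N) √(s (s + 4)))`.
-/

namespace Vale.Agent.P159.H474

open Finset Real
open Vale.Agent.P159.TM.H764 (cN sN EE dt ch)

noncomputable section

/-! ### the root `z` -/

/-- the smaller root of `z + 1/z = s + 2` -/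
def zz (s : ℝ) : ℝ := ((√(s + 4) - √s) / 2) ^ 2

/-- `1/z - z = √(s (s + 4))` -/
def rs (s : ℝ) : ℝ := √(s * (s + 4))

lemma sqrt_lt_sqrt4 {s : ℝ} (hs : 0 ≤ s) : √s < √(s + 4) := Real.sqrt_lt_sqrt hs (by linarith)

lemma zz_pos {s : ℝ} (hs : 0 ≤ s) : 0 < zz s := by
  have := sqrt_lt_sqrt4 hs
  unfold zz
  have h : 0 < (√(s + 4) - √s) / 2 := by linarith
  positivity

lemma rs_nonneg (s : ℝ) : 0 ≤ rs s := Real.sqrt_nonneg _

lemma rs_pos {s : ℝ} (hs : 0 < s) : 0 < rs s := Real.sqrt_pos.2 (by positivity)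

lemma rs_sq {s : ℝ} (hs : 0 ≤ s) : rs s ^ 2 = s * (s + 4) := Real.sq_sqrt (by positivity)

lemma zz_eq {s : ℝ} (hs : 0 ≤ s) : zz s = 1 + s / 2 - rs s / 2 := by
  unfold zz rs
  rw [Real.sqrt_mul hs, div_pow, sub_sq, Real.sq_sqrt hs, Real.sq_sqrt (by linarith)]
  ring

/-- the larger root -/
lemma zz_mul {s : ℝ} (hs : 0 ≤ s) : zz s * (1 + s / 2 + rs s / 2) = 1 := by
  rw [zz_eq hs]
  have := rs_sq hs
  nlinarith

lemma zz_inv {s : ℝ} (hs : 0 ≤ s) : (zz s)⁻¹ = 1 + s / 2 + rs s / 2 :=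
  inv_eq_of_mul_eq_one_right (zz_mul hs)

lemma zz_add_inv {s : ℝ} (hs : 0 ≤ s) : zz s + (zz s)⁻¹ = s + 2 := by
  rw [zz_inv hs, zz_eq hs]; ring

lemma zz_inv_sub {s : ℝ} (hs : 0 ≤ s) : (zz s)⁻¹ - zz s = rs s := by
  rw [zz_inv hs, zz_eq hs]; ring

lemma sqrt_le_rs {s : ℝ} (hs : 0 ≤ s) : 2 * √s ≤ rs s := by
  unfold rs
  have h : 2 * √s = √(s * 4) := by
    rw [Real.sqrt_mul hs]
    have : √(4 : ℝ) = 2 := by
      rw [show (4 : ℝ) = 2 ^ 2 by norm_num, Real.sqrt_sq (by norm_num)]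
    rw [this]; ring
  rw [h]
  exact Real.sqrt_le_sqrt (by nlinarith)

/-- `z ≤ 1 / (1 + √s)` -/
lemma zz_le {s : ℝ} (hs : 0 ≤ s) : zz s ≤ 1 / (1 + √s) := by
  rw [le_div_iff₀ (by positivity)]
  have h1 := zz_mul hs
  have h2 := sqrt_le_rs hs
  have h3 := (zz_pos hs).le
  have h4 : zz s * (1 + √s) ≤ zz s * (1 + s / 2 + rs s / 2) :=
    mul_le_mul_of_nonneg_left (by linarith) h3
  linarith

lemma zz_lt_one {s : ℝ} (hs : 0 < s) : zz s < 1 := by
  refine (zz_le hs.le).trans_lt ?_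
  rw [div_lt_one (by positivity)]
  have := Real.sqrt_pos.2 hs
  linarith

lemma zz_le_one {s : ℝ} (hs : 0 ≤ s) : zz s ≤ 1 := by
  refine (zz_le hs).trans ?_
  rw [div_le_one (by positivity)]
  have := Real.sqrt_nonneg s
  linarith

/-- `1 - √s ≤ z` -/
lemma one_sub_zz_le {s : ℝ} (hs : 0 ≤ s) : 1 - zz s ≤ √s := by
  rw [zz_eq hs]
  unfold rs
  have h1 : √(s * (s + 4)) ≤ s + 2 * √s := by
    rw [Real.sqrt_le_left (by positivity)]
    have := Real.sq_sqrt hs
    nlinarith [Real.sqrt_nonneg s, mul_nonneg hs (Real.sqrt_nonneg s)]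
  linarith

/-- powers of `z` decay exponentially, `s ≤ 1` is not needed for the form with `min` -/
lemma zz_pow_le {s : ℝ} (hs : 0 ≤ s) (hs1 : s ≤ 8) (n : ℕ) : zz s ^ n ≤ exp (-(n * √s / 4)) := by
  have h0 := Real.sqrt_nonneg s
  have h3 : √s ≤ 3 := by
    rw [Real.sqrt_le_left (by norm_num)]
    linarith
  have h1 : zz s ≤ exp (-(√s / 4)) := by
    refine (zz_le hs).trans ?_
    rw [Real.exp_neg, one_div]
    refine inv_anti₀ (Real.exp_pos _) ?_
    have h2 : √s / 4 < 1 := by linarith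
    have h4 : exp (√s / 4) ≤ 1 / (1 - √s / 4) := by
      have h6 := Real.add_one_le_exp (-(√s / 4))
      rw [le_div_iff₀ (by linarith)]
      have h7 : exp (√s / 4) * (1 - √s / 4) ≤ exp (√s / 4) * exp (-(√s / 4)) :=
        mul_le_mul_of_nonneg_left (by linarith) (Real.exp_pos _).le
      rw [← Real.exp_add, add_neg_cancel, Real.exp_zero] at h7
      exact h7
    refine h4.trans ?_
    rw [div_le_iff₀ (by linarith)]
    nlinarith
  calc zz s ^ n ≤ exp (-(√s / 4)) ^ n := pow_le_pow_left₀ (zz_pos hs).le h1 n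
    _ = exp (-(n * √s / 4)) := by
        rw [← Real.exp_nat_mul]
        congr 1
        ring

lemma zz_anti {s r : ℝ} (hs : 0 ≤ s) (hr : s ≤ r) : zz r ≤ zz s := by
  have h1 := zz_mul hs
  have h2 := zz_mul (hs.trans hr)
  have h3 : rs s ≤ rs r := Real.sqrt_le_sqrt (by nlinarith)
  have h4 : 0 < 1 + s / 2 + rs s / 2 := by
    have := rs_nonneg s
    positivity
  have h5 : 0 < 1 + r / 2 + rs r / 2 := by
    have := rs_nonneg r
    have : 0 ≤ r := hs.trans hr
    positivity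
  have e1 : zz s = 1 / (1 + s / 2 + rs s / 2) := by
    rw [eq_div_iff h4.ne']; exact h1
  have e2 : zz r = 1 / (1 + r / 2 + rs r / 2) := by
    rw [eq_div_iff h5.ne']; exact h2
  rw [e1, e2]
  exact one_div_le_one_div_of_le h4 (by linarith)

/-! ### sums over `Z_N` -/

variable {N : ℕ} [NeZero N]

lemma sum_ch1 (b : ZMod N) : ∑ x : ZMod N, ch (x * b) = if b = 0 then (N : ℂ) else 0 := by
  have := AddChar.sum_mulShift (ψ := (ZMod.stdAddChar (N := N))) b
    (ZMod.isPrimitive_stdAddChar N)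
  unfold ch
  rw [this]
  simp [ZMod.card]

/-- `∑_j cos (2 π j b / N) = N 1_{b = 0}` -/
lemma sum_cN (b : ZMod N) : ∑ x : ZMod N, cN (x * b) = if b = 0 then (N : ℝ) else 0 := by
  have h := congrArg Complex.re (sum_ch1 b)
  rw [Complex.re_sum] at h
  simp_rw [TM.H764.ch_re] at h
  rw [h]
  split_ifs <;> simp

lemma cN_mul_cN (a b : ZMod N) : cN a * cN b = (cN (a + b) + cN (a - b)) / 2 := by
  rw [TM.H764.cN_add, TM.H764.cN_sub]; ring

lemma sum_cN_cN (a b : ZMod N) : ∑ x : ZMod N, cN (x * a) * cN (x * b) =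
    ((if a + b = 0 then (N : ℝ) else 0) + if a = b then (N : ℝ) else 0) / 2 := by
  simp_rw [cN_mul_cN, ← mul_add, ← mul_sub]
  rw [← Finset.sum_div, Finset.sum_add_distrib, sum_cN, sum_cN]
  simp only [sub_eq_zero]

/-- the telescoping identity -/
lemma geo (z : ℝ) (t : ZMod N) (n : ℕ) :
    (1 - 2 * z * cN t + z ^ 2) * ∑ m ∈ range n, z ^ m * cN ((m : ZMod N) * t) =
      (1 - z * cN t) - (z ^ n * cN ((n : ZMod N) * t) - z ^ (n + 1) * cN ((n : ZMod N) * t - t)) := by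
  induction n with
  | zero => simp [TM.H764.cN_zero, TM.H764.cN_neg]
  | succ n ih =>
    rw [Finset.sum_range_succ, mul_add, ih]
    have h1 : ((n + 1 : ℕ) : ZMod N) * t = (n : ZMod N) * t + t := by push_cast; ring
    rw [h1, add_sub_cancel_right, TM.H764.cN_add, TM.H764.cN_sub]
    ring

/-- closed form of the finite geometric sum -/
lemma geo_N {z : ℝ} (t : ZMod N) :
    (1 - 2 * z * cN t + z ^ 2) * ∑ m ∈ range N, z ^ m * cN ((m : ZMod N) * t) =
      (1 - z * cN t) * (1 - z ^ N) := by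
  rw [geo]
  simp only [CharP.cast_eq_zero, zero_mul, zero_sub, TM.H764.cN_neg, TM.H764.cN_zero]
  ring

/-- partial fractions -/
lemma pf {s : ℝ} (hs : 0 < s) (t : ZMod N) :
    1 / (s + 2 - 2 * cN t) =
      (2 / (1 - zz s ^ N) * ∑ m ∈ range N, zz s ^ m * cN ((m : ZMod N) * t) - 1) / rs s := by
  have hz0 := zz_pos hs.le
  have hz1 := zz_lt_one hs
  have hzN : zz s ^ N < 1 := pow_lt_one₀ hz0.le hz1 (NeZero.ne N)
  have hc := TM.H764.cN_le_one t
  have hA : 0 < s + 2 - 2 * cN t := by linarith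
  have e1 : 1 - 2 * zz s * cN t + zz s ^ 2 = zz s * (s + 2 - 2 * cN t) := by
    rw [← zz_add_inv hs.le]
    field_simp
    ring
  have h := geo_N (z := zz s) t
  rw [e1] at h
  have e2 : ∑ m ∈ range N, zz s ^ m * cN ((m : ZMod N) * t) =
      (1 - zz s * cN t) * (1 - zz s ^ N) / (zz s * (s + 2 - 2 * cN t)) := by
    rw [eq_div_iff (by positivity)]
    linarith
  rw [e2]
  have h1N : 1 - zz s ^ N ≠ 0 := by linarith
  have hr := rs_pos hs
  rw [← zz_inv_sub hs.le] at hr ⊢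
  have hd : (zz s)⁻¹ - zz s ≠ 0 := hr.ne'
  rw [div_eq_div_iff hA.ne' hd]
  have e3 : 2 / (1 - zz s ^ N) * ((1 - zz s * cN t) * (1 - zz s ^ N) /
      (zz s * (s + 2 - 2 * cN t))) = 2 * (1 - zz s * cN t) / (zz s * (s + 2 - 2 * cN t)) := by
    field_simp
  rw [e3]
  have e4 : (2 * (1 - zz s * cN t) / (zz s * (s + 2 - 2 * cN t)) - 1) * (s + 2 - 2 * cN t) =
      (2 * (1 - zz s * cN t) - zz s * (s + 2 - 2 * cN t)) / zz s := by
    field_simp
  rw [e4, ← e1]
  field_simp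
  ring

/-- the kernel `(z ^ n + z ^ (N - n)) / ((1 - z ^ N) √(s (s + 4)))` -/
def kz (N n : ℕ) (s : ℝ) : ℝ := (zz s ^ n + zz s ^ (N - n)) / ((1 - zz s ^ N) * rs s)

/-- **(GR1)** the exact one dimensional sum -/
theorem sum1 {s : ℝ} (hs : 0 < s) {n : ℕ} (hn : n ≤ N) :
    ∑ j : ZMod N, cN (j * (n : ZMod N)) / (s + 2 - 2 * cN j) = N * kz N n s := by
  have hz0 := zz_pos hs.le
  have hz1 := zz_lt_one hs
  have hzN : zz s ^ N < 1 := pow_lt_one₀ hz0.le hz1 (NeZero.ne N)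
  have h1N : 1 - zz s ^ N ≠ 0 := by linarith
  have hr := (rs_pos hs).ne'
  have hNpos : 0 < N := NeZero.pos N
  have h1 : ∀ j : ZMod N, cN (j * (n : ZMod N)) / (s + 2 - 2 * cN j) =
      (2 / (1 - zz s ^ N) * ∑ m ∈ range N, zz s ^ m *
        (cN (j * (m : ZMod N)) * cN (j * (n : ZMod N))) - cN (j * (n : ZMod N))) / rs s := by
    intro j
    rw [div_eq_mul_one_div, pf hs, ← mul_div_assoc, mul_sub, mul_one]
    congr 2
    rw [mul_left_comm, Finset.mul_sum]
    congr 1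
    refine Finset.sum_congr rfl fun m _ => ?_
    rw [mul_comm j (m : ZMod N)]
    ring
  simp_rw [h1]
  rw [← Finset.sum_div, Finset.sum_sub_distrib, ← Finset.mul_sum, Finset.sum_comm, sum_cN]
  simp_rw [← Finset.mul_sum, sum_cN_cN]
  -- the sum over `m`
  have hS : ∑ m ∈ range N, zz s ^ m * (((if (m : ZMod N) + (n : ZMod N) = 0 then (N : ℝ) else 0) +
      if (m : ZMod N) = (n : ZMod N) then (N : ℝ) else 0) / 2) =
      (N : ℝ) / 2 * (if n = 0 ∨ n = N then 2 else zz s ^ n + zz s ^ (N - n)) := by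
    have g1 : ∀ m ∈ range N, ((m : ZMod N) = (n : ZMod N)) ↔ m = n % N := by
      intro m hm
      rw [ZMod.natCast_eq_natCast_iff, Nat.ModEq, Nat.mod_eq_of_lt (Finset.mem_range.1 hm)]
    have g2 : ∀ m ∈ range N, ((m : ZMod N) + (n : ZMod N) = 0) ↔ m = (N - n) % N := by
      intro m hm
      have h3 : ((m : ZMod N) + (n : ZMod N) = 0) ↔ ((m : ZMod N) = ((N - n : ℕ) : ZMod N)) := by
        rw [Nat.cast_sub hn, ZMod.natCast_self, zero_sub, eq_neg_iff_add_eq_zero]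
      rw [h3, ZMod.natCast_eq_natCast_iff, Nat.ModEq, Nat.mod_eq_of_lt (Finset.mem_range.1 hm)]
    have g3 : ∀ m ∈ range N, zz s ^ m * (((if (m : ZMod N) + (n : ZMod N) = 0 then (N : ℝ) else 0) +
      if (m : ZMod N) = (n : ZMod N) then (N : ℝ) else 0) / 2) =
        (if m = (N - n) % N then zz s ^ m * ((N : ℝ) / 2) else 0) +
          if m = n % N then zz s ^ m * ((N : ℝ) / 2) else 0 := by
      intro m hm
      simp only [g1 m hm, g2 m hm]
      split_ifs <;> ring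
    rw [Finset.sum_congr rfl g3, Finset.sum_add_distrib, Finset.sum_ite_eq', Finset.sum_ite_eq',
      if_pos (Finset.mem_range.2 (Nat.mod_lt _ hNpos)),
      if_pos (Finset.mem_range.2 (Nat.mod_lt _ hNpos))]
    by_cases h0 : n = 0
    · subst h0
      simp
    by_cases h2 : n = N
    · subst h2
      simp
    rw [if_neg (by tauto), Nat.mod_eq_of_lt (by omega), Nat.mod_eq_of_lt (by omega)]
    ring
  rw [hS]
  unfold kz
  by_cases h0 : n = 0
  · subst h0
    simp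
    field_simp
    ring
  by_cases h2 : n = N
  · subst h2
    simp
    field_simp
    ring
  have h4 : ¬ ((n : ZMod N) = 0) := by
    intro h
    rw [ZMod.natCast_eq_zero_iff] at h
    exact h2 (le_antisymm hn (Nat.le_of_dvd (Nat.pos_of_ne_zero h0) h))
  rw [if_neg (by tauto), if_neg h4]
  field_simp
  ring

end

end Vale.Agent.P159.H474
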