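import Vale.Agent.P159.H474.Green1

/-!
P159, module GREEN (helper474), file 2: the two dimensional torus kernel and its infinite volume
limit.

`GK N m x = N⁻² ∑_k cos (k x) / (m + λ(k))`, `Gi m n₁ n₂` = the infinite volume kernel,
`Im m = Gi m 0 0`.  For `N √m ≥ 1` the two differ by at most `C exp (- N √m / 8) Im m`.
-/

namespace Vale.Agent.P159.H474

open Finset Real Filter Topology
open Vale.Agent.P159.TM.H764 (cN sN EE dt ch)

noncomputable section

/-! ### Riemann sums -/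

lemma riem {f : ℝ → ℝ} (hf : Continuous f) :
    Tendsto (fun n : ℕ => (∑ i ∈ range (n + 1), f (2 * π * (i : ℝ) / ((n + 1 : ℕ) : ℝ))) /
      ((n + 1 : ℕ) : ℝ)) atTop (𝓝 ((∫ θ in (0 : ℝ)..(2 * π), f θ) / (2 * π))) := by
  have hpi : 0 < 2 * π := by positivity
  have huc : UniformContinuousOn f (Set.Icc 0 (2 * π)) :=
    isCompact_Icc.uniformContinuousOn_of_continuous hf.continuousOn
  rw [Metric.tendsto_atTop]
  intro ε hε
  rw [Metric.uniformContinuousOn_iff] at huc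
  obtain ⟨δ, hδ, huc⟩ := huc (ε / 2) (by positivity)
  obtain ⟨n0, hn0⟩ := exists_nat_gt (2 * π / δ)
  refine ⟨n0, fun n hn => ?_⟩
  set M : ℝ := ((n + 1 : ℕ) : ℝ) with hM
  have hM0 : 0 < M := by rw [hM]; positivity
  have hMn : (n0 : ℝ) < M := by
    rw [hM]
    push_cast
    have : (n0 : ℝ) ≤ n := by exact_mod_cast hn
    linarith
  have hstep : 2 * π / M < δ := by
    rw [div_lt_iff₀ hM0]
    rw [div_lt_iff₀ hδ] at hn0
    nlinarith
  -- split the integral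
  have hsplit : ∫ θ in (0 : ℝ)..(2 * π), f θ =
      ∑ i ∈ range (n + 1), ∫ θ in (2 * π * (i : ℝ) / M)..(2 * π * ((i + 1 : ℕ) : ℝ) / M), f θ := by
    rw [intervalIntegral.sum_integral_adjacent_intervals
      (a := fun i : ℕ => 2 * π * (i : ℝ) / M) fun k _ => hf.intervalIntegrable _ _]
    congr 1
    · simp
    · rw [← hM]
      field_simp
  have hone : ∀ i ∈ range (n + 1),
      |(∫ θ in (2 * π * (i : ℝ) / M)..(2 * π * ((i + 1 : ℕ) : ℝ) / M), f θ) -
        (2 * π / M) * f (2 * π * (i : ℝ) / M)| ≤ (ε / 2) * (2 * π / M) := by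
    intro i hi
    have hi1 : (i : ℝ) + 1 ≤ M := by
      rw [hM]
      have := Finset.mem_range.1 hi
      exact_mod_cast this
    have hlen : 2 * π * ((i + 1 : ℕ) : ℝ) / M - 2 * π * (i : ℝ) / M = 2 * π / M := by
      push_cast
      ring
    have hle : 2 * π * (i : ℝ) / M ≤ 2 * π * ((i + 1 : ℕ) : ℝ) / M := by
      have : 0 < 2 * π / M := by positivity
      linarith
    have hc : (2 * π / M) * f (2 * π * (i : ℝ) / M) =
        ∫ _ in (2 * π * (i : ℝ) / M)..(2 * π * ((i + 1 : ℕ) : ℝ) / M),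
          f (2 * π * (i : ℝ) / M) := by
      rw [intervalIntegral.integral_const, hlen, smul_eq_mul]
    rw [hc, ← intervalIntegral.integral_sub (hf.intervalIntegrable _ _)
      (continuous_const.intervalIntegrable _ _)]
    have hb := intervalIntegral.norm_integral_le_of_norm_le_const
      (a := 2 * π * (i : ℝ) / M) (b := 2 * π * ((i + 1 : ℕ) : ℝ) / M)
      (f := fun θ => f θ - f (2 * π * (i : ℝ) / M)) (C := ε / 2) (fun θ hθ => by
        rw [Set.uIoc_of_le hle] at hθ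
        have h0i : 0 ≤ 2 * π * (i : ℝ) / M := by positivity
        have h2 : 2 * π * ((i + 1 : ℕ) : ℝ) / M ≤ 2 * π := by
          rw [div_le_iff₀ hM0]
          push_cast
          nlinarith
        have h3 := huc θ ⟨h0i.trans hθ.1.le, hθ.2.trans h2⟩ (2 * π * (i : ℝ) / M)
          ⟨h0i, hle.trans h2⟩ (by
            rw [Real.dist_eq, abs_of_nonneg (by linarith [hθ.1])]
            linarith [hθ.2])
        rw [Real.dist_eq] at h3
        rw [Real.norm_eq_abs]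
        exact h3.le)
    rw [hlen, abs_of_pos (show 0 < 2 * π / M by positivity), Real.norm_eq_abs] at hb
    exact hb
  rw [Real.dist_eq, hsplit]
  have hS : (∑ i ∈ range (n + 1), f (2 * π * (i : ℝ) / M)) / M -
      (∑ i ∈ range (n + 1), ∫ θ in (2 * π * (i : ℝ) / M)..(2 * π * ((i + 1 : ℕ) : ℝ) / M), f θ) /
        (2 * π) = -(∑ i ∈ range (n + 1),
        ((∫ θ in (2 * π * (i : ℝ) / M)..(2 * π * ((i + 1 : ℕ) : ℝ) / M), f θ) -
          (2 * π / M) * f (2 * π * (i : ℝ) / M))) / (2 * π) := by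
    rw [Finset.sum_sub_distrib, ← Finset.mul_sum]
    field_simp
    ring
  rw [hS, abs_div, abs_neg, abs_of_pos hpi, div_lt_iff₀ hpi]
  calc |∑ i ∈ range (n + 1),
        ((∫ θ in (2 * π * (i : ℝ) / M)..(2 * π * ((i + 1 : ℕ) : ℝ) / M), f θ) -
          (2 * π / M) * f (2 * π * (i : ℝ) / M))| ≤
        ∑ i ∈ range (n + 1), (ε / 2) * (2 * π / M) :=
        (Finset.abs_sum_le_sum_abs _ _).trans (Finset.sum_le_sum hone)
    _ = ε / 2 * (2 * π) := by
        rw [Finset.sum_const, Finset.card_range, nsmul_eq_mul, ← hM]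
        field_simp
    _ < ε * (2 * π) := by nlinarith

/-! ### sums over `Z_N` as sums over `range N` -/

variable {N : ℕ} [NeZero N]

lemma sum_zmod (g : ℕ → ℝ) : ∑ j : ZMod N, g j.val = ∑ i ∈ range N, g i := by
  obtain ⟨n, rfl⟩ : ∃ n, N = n + 1 := ⟨N - 1, (Nat.succ_pred_eq_of_pos (NeZero.pos N)).symm⟩
  exact Fin.sum_univ_eq_sum_range g (n + 1)

lemma cN_mul_nat (j : ZMod N) (n : ℕ) :
    cN (j * (n : ZMod N)) = Real.cos (n * (2 * π * (j.val : ℝ) / N)) := by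
  have h : j * (n : ZMod N) = (((j.val : ℤ) * (n : ℤ) : ℤ) : ZMod N) := by
    push_cast
    rw [ZMod.natCast_zmod_val]
  rw [h, TM.H764.cN_int]
  congr 1
  push_cast
  ring

lemma cN_eq (j : ZMod N) : cN j = Real.cos (2 * π * (j.val : ℝ) / N) := rfl

/-- Riemann sums on `Z_{n+1}` -/
lemma riem_zmod {F : ℝ → ℝ} (hF : ContinuousOn F (Set.Icc (-1) 1)) (n : ℕ) :
    Tendsto (fun M : ℕ => (∑ j : ZMod (M + 1), cN (j * (n : ZMod (M + 1))) * F (cN j)) /
      ((M + 1 : ℕ) : ℝ)) atTop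
      (𝓝 ((∫ θ in (0 : ℝ)..(2 * π), Real.cos (n * θ) * F (Real.cos θ)) / (2 * π))) := by
  have hc : Continuous fun θ : ℝ => Real.cos (n * θ) * F (Real.cos θ) := by
    refine (Real.continuous_cos.comp (continuous_const.mul continuous_id)).mul ?_
    exact hF.comp_continuous Real.continuous_cos fun θ => ⟨Real.neg_one_le_cos θ, Real.cos_le_one θ⟩
  refine (riem hc).congr fun M => ?_
  congr 1
  rw [← sum_zmod (N := M + 1) fun i : ℕ => Real.cos (n * (2 * π * (i : ℝ) / ((M + 1 : ℕ) : ℝ))) *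
    F (Real.cos (2 * π * (i : ℝ) / ((M + 1 : ℕ) : ℝ)))]
  refine Finset.sum_congr rfl fun j _ => ?_
  rw [cN_mul_nat, cN_eq]

/-! ### the torus kernel -/

/-- the torus kernel -/
def GK (N : ℕ) [NeZero N] (m : ℝ) (x : ZMod N × ZMod N) : ℝ :=
  (∑ k : ZMod N × ZMod N, cN (dt k x) / (m + EE k)) / (N : ℝ) ^ 2

/-- rectangular tori -/
def GR (N₁ N₂ : ℕ) [NeZero N₁] [NeZero N₂] (m : ℝ) (n₁ n₂ : ℕ) : ℝ :=
  (∑ j : ZMod N₁, ∑ l : ZMod N₂, cN (j * (n₁ : ZMod N₁)) * cN (l * (n₂ : ZMod N₂)) /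
    (m + (2 * (1 - cN j) + 2 * (1 - cN l)))) / ((N₁ : ℝ) * N₂)

lemma GK_eq_GR (m : ℝ) (n₁ n₂ : ℕ) : GK N m ((n₁ : ZMod N), (n₂ : ZMod N)) = GR N N m n₁ n₂ := by
  unfold GK GR
  rw [← pow_two]
  congr 1
  rw [← Fintype.sum_prod_type' (f := fun j l : ZMod N => cN (j * (n₁ : ZMod N)) *
    cN (l * (n₂ : ZMod N)) / (m + (2 * (1 - cN j) + 2 * (1 - cN l))))]
  have h1 : ∀ k : ZMod N × ZMod N, cN (dt k ((n₁ : ZMod N), (n₂ : ZMod N))) / (m + EE k) =
      cN (k.1 * (n₁ : ZMod N)) * cN (k.2 * (n₂ : ZMod N)) /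
        (m + (2 * (1 - cN k.1) + 2 * (1 - cN k.2))) -
      sN (k.1 * (n₁ : ZMod N)) * sN (k.2 * (n₂ : ZMod N)) /
        (m + (2 * (1 - cN k.1) + 2 * (1 - cN k.2))) := by
    intro k
    unfold dt EE
    rw [TM.H764.cN_add, sub_div]
  rw [Finset.sum_congr rfl fun k _ => h1 k, Finset.sum_sub_distrib]
  have h2 : ∑ k : ZMod N × ZMod N, sN (k.1 * (n₁ : ZMod N)) * sN (k.2 * (n₂ : ZMod N)) /
        (m + (2 * (1 - cN k.1) + 2 * (1 - cN k.2))) = 0 := by
    have h3 : ∑ k : ZMod N × ZMod N, sN (k.1 * (n₁ : ZMod N)) * sN (k.2 * (n₂ : ZMod N)) /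
        (m + (2 * (1 - cN k.1) + 2 * (1 - cN k.2))) =
        ∑ k : ZMod N × ZMod N, -(sN (k.1 * (n₁ : ZMod N)) * sN (k.2 * (n₂ : ZMod N)) /
        (m + (2 * (1 - cN k.1) + 2 * (1 - cN k.2)))) := by
      rw [← Equiv.sum_comp (TM.H764.refl1 (N := N))]
      refine Finset.sum_congr rfl fun k _ => ?_
      rw [TM.H764.refl1_apply]
      simp only [neg_mul, TM.H764.sN_neg, TM.H764.cN_neg, neg_div]
    rw [Finset.sum_neg_distrib] at h3
    linarith
  rw [h2, sub_zero]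

lemma GR_symm (N₁ N₂ : ℕ) [NeZero N₁] [NeZero N₂] (m : ℝ) (n₁ n₂ : ℕ) :
    GR N₁ N₂ m n₁ n₂ = GR N₂ N₁ m n₂ n₁ := by
  unfold GR
  rw [Finset.sum_comm, mul_comm (N₁ : ℝ)]
  congr 1
  refine Finset.sum_congr rfl fun j _ => Finset.sum_congr rfl fun l _ => ?_
  rw [mul_comm (cN (l * _)), add_comm (2 * (1 - cN l))]

/-- one of the two sums is explicit -/
lemma GR_eq (N₁ N₂ : ℕ) [NeZero N₁] [NeZero N₂] {m : ℝ} (hm : 0 < m) {n₁ : ℕ} (hn : n₁ ≤ N₁)
    (n₂ : ℕ) : GR N₁ N₂ m n₁ n₂ =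
      (∑ l : ZMod N₂, cN (l * (n₂ : ZMod N₂)) * kz N₁ n₁ (m + 2 * (1 - cN l))) / N₂ := by
  unfold GR
  rw [Finset.sum_comm]
  have h1 : ∀ l : ZMod N₂, ∑ j : ZMod N₁, cN (j * (n₁ : ZMod N₁)) * cN (l * (n₂ : ZMod N₂)) /
      (m + (2 * (1 - cN j) + 2 * (1 - cN l))) =
      N₁ * (cN (l * (n₂ : ZMod N₂)) * kz N₁ n₁ (m + 2 * (1 - cN l))) := by
    intro l
    have hs : 0 < m + 2 * (1 - cN l) := by
      have := TM.H764.cN_le_one l
      linarith
    rw [mul_left_comm, ← sum1 hs hn, Finset.mul_sum]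
    refine Finset.sum_congr rfl fun j _ => ?_
    rw [mul_comm (cN (j * _)), mul_div_assoc]
    congr 2
    ring
  simp_rw [h1]
  rw [← Finset.mul_sum]
  have h2 : (N₁ : ℝ) ≠ 0 := by exact_mod_cast NeZero.ne N₁
  have h3 : (N₂ : ℝ) ≠ 0 := by exact_mod_cast NeZero.ne N₂
  field_simp

/-- the infinite volume kernel -/
def Gi (m : ℝ) (n₁ n₂ : ℕ) : ℝ :=
  (∫ θ in (0 : ℝ)..(2 * π), Real.cos (n₂ * θ) *
    (zz (m + 2 * (1 - Real.cos θ)) ^ n₁ / rs (m + 2 * (1 - Real.cos θ)))) / (2 * π)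

/-- the half periodic kernel -/
def Gh2 (N : ℕ) [NeZero N] (m : ℝ) (n₁ n₂ : ℕ) : ℝ :=
  (∑ l : ZMod N, cN (l * (n₂ : ZMod N)) * (zz (m + 2 * (1 - cN l)) ^ n₁ /
    rs (m + 2 * (1 - cN l)))) / N

lemma continuous_zz : Continuous zz := by
  unfold zz
  fun_prop

lemma continuous_rs : Continuous rs := by
  unfold rs
  fun_prop

/-- `kz → z ^ n / rs` -/
lemma kz_tendsto {s : ℝ} (hs : 0 < s) (n : ℕ) :
    Tendsto (fun M : ℕ => kz (M + 1) n s) atTop (𝓝 (zz s ^ n / rs s)) := by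
  have hz0 := zz_pos hs.le
  have hz1 := zz_lt_one hs
  have h1 : Tendsto (fun M : ℕ => zz s ^ (M + 1)) atTop (𝓝 0) :=
    (tendsto_pow_atTop_nhds_zero_of_lt_one hz0.le hz1).comp (tendsto_add_atTop_nat 1)
  have h2 : Tendsto (fun M : ℕ => zz s ^ (M + 1 - n)) atTop (𝓝 0) := by
    refine (tendsto_pow_atTop_nhds_zero_of_lt_one hz0.le hz1).comp ?_
    refine tendsto_atTop_atTop.2 fun b => ⟨b + n, fun a ha => by omega⟩
  have h3 : Tendsto (fun M : ℕ => kz (M + 1) n s) atTop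
      (𝓝 ((zz s ^ n + 0) / ((1 - 0) * rs s))) := by
    unfold kz
    refine (tendsto_const_nhds.add h2).div ((tendsto_const_nhds.sub h1).mul_const _) ?_
    rw [sub_zero, one_mul]
    exact (rs_pos hs).ne'
  simpa using h3

lemma kz_cont (N : ℕ) [NeZero N] (n : ℕ) {m : ℝ} (hm : 0 < m) :
    ContinuousOn (fun c : ℝ => kz N n (m + 2 * (1 - c))) (Set.Icc (-1) 1) := by
  unfold kz
  have hz : Continuous fun c : ℝ => zz (m + 2 * (1 - c)) := continuous_zz.comp (by fun_prop)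
  have hr : Continuous fun c : ℝ => rs (m + 2 * (1 - c)) := continuous_rs.comp (by fun_prop)
  refine ContinuousOn.div ((hz.pow _).add (hz.pow _)).continuousOn
    ((continuous_const.sub (hz.pow _)).mul hr).continuousOn fun c hc => ?_
  have hs : 0 < m + 2 * (1 - c) := by linarith [hc.2]
  have hzN : zz (m + 2 * (1 - c)) ^ N < 1 := pow_lt_one₀ (zz_pos hs.le).le (zz_lt_one hs)
    (NeZero.ne N)
  have := rs_pos hs
  have h1 : 0 < 1 - zz (m + 2 * (1 - c)) ^ N := by linarith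
  positivity

lemma zr_cont (n : ℕ) {m : ℝ} (hm : 0 < m) :
    ContinuousOn (fun c : ℝ => zz (m + 2 * (1 - c)) ^ n / rs (m + 2 * (1 - c)))
      (Set.Icc (-1) 1) := by
  have hz : Continuous fun c : ℝ => zz (m + 2 * (1 - c)) := continuous_zz.comp (by fun_prop)
  have hr : Continuous fun c : ℝ => rs (m + 2 * (1 - c)) := continuous_rs.comp (by fun_prop)
  refine ContinuousOn.div (hz.pow _).continuousOn hr.continuousOn fun c hc => ?_
  have hs : 0 < m + 2 * (1 - c) := by linarith [hc.2]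
  exact (rs_pos hs).ne'

/-- the half periodic kernel, other form -/
lemma Gh2_eq {m : ℝ} (hm : 0 < m) (n₁ : ℕ) {n₂ : ℕ} (hn : n₂ ≤ N) :
    Gh2 N m n₁ n₂ = (∫ θ in (0 : ℝ)..(2 * π), Real.cos (n₁ * θ) *
      kz N n₂ (m + 2 * (1 - Real.cos θ))) / (2 * π) := by
  have h1 : Tendsto (fun M : ℕ => GR (M + 1) N m n₁ n₂) atTop (𝓝 (Gh2 N m n₁ n₂)) := by
    have h2 : (fun M : ℕ => (∑ l : ZMod N, cN (l * (n₂ : ZMod N)) *
        kz (M + 1) n₁ (m + 2 * (1 - cN l))) / (N : ℝ)) =ᶠ[atTop]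
        fun M : ℕ => GR (M + 1) N m n₁ n₂ := by
      filter_upwards [eventually_ge_atTop n₁] with M hM
      rw [GR_eq (M + 1) N hm (by omega) n₂]
    refine Tendsto.congr' h2 ?_
    unfold Gh2
    refine Tendsto.div_const (tendsto_finsetSum _ fun l _ => ?_) _
    refine (kz_tendsto ?_ n₁).const_mul _
    have := TM.H764.cN_le_one l
    linarith
  have h3 : Tendsto (fun M : ℕ => GR (M + 1) N m n₁ n₂) atTop
      (𝓝 ((∫ θ in (0 : ℝ)..(2 * π), Real.cos (n₁ * θ) *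
      kz N n₂ (m + 2 * (1 - Real.cos θ))) / (2 * π))) := by
    refine (riem_zmod (kz_cont N n₂ hm) n₁).congr fun M => ?_
    rw [GR_symm, GR_eq N (M + 1) hm hn n₁]
  exact tendsto_nhds_unique h1 h3

/-- symmetry of the infinite volume kernel -/
lemma Gi_symm {m : ℝ} (hm : 0 < m) (n₁ n₂ : ℕ) : Gi m n₁ n₂ = Gi m n₂ n₁ := by
  have h1 : Tendsto (fun M : ℕ => Gh2 (M + 1) m n₁ n₂) atTop (𝓝 (Gi m n₁ n₂)) :=
    riem_zmod (zr_cont n₁ hm) n₂
  have h2 : Tendsto (fun M : ℕ => Gh2 (M + 1) m n₁ n₂) atTop (𝓝 (Gi m n₂ n₁)) := by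
    have h3 : (fun M : ℕ => (∫ θ in (0 : ℝ)..(2 * π), Real.cos (n₁ * θ) *
      kz (M + 1) n₂ (m + 2 * (1 - Real.cos θ))) / (2 * π)) =ᶠ[atTop]
        fun M : ℕ => Gh2 (M + 1) m n₁ n₂ := by
      filter_upwards [eventually_ge_atTop n₂] with M hM
      rw [Gh2_eq hm n₁ (by omega)]
    refine Tendsto.congr' h3 ?_
    unfold Gi
    refine Tendsto.div_const ?_ _
    refine intervalIntegral.tendsto_integral_filter_of_dominated_convergence
      (fun _ => 2 / ((1 - zz m) * rs m)) (Eventually.of_forall fun M => ?_)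
      (Eventually.of_forall fun M => Eventually.of_forall fun θ _ => ?_)
      intervalIntegrable_const (Eventually.of_forall fun θ _ => ?_)
    · have hc : Continuous fun θ : ℝ => Real.cos (n₁ * θ) *
          kz (M + 1) n₂ (m + 2 * (1 - Real.cos θ)) := by
        refine (Real.continuous_cos.comp (continuous_const.mul continuous_id)).mul ?_
        exact (kz_cont (M + 1) n₂ hm).comp_continuous Real.continuous_cos
          fun θ => ⟨Real.neg_one_le_cos θ, Real.cos_le_one θ⟩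
      exact hc.aestronglyMeasurable
    · have hs : m ≤ m + 2 * (1 - Real.cos θ) := by
        have := Real.cos_le_one θ
        linarith
      have hs0 : 0 < m + 2 * (1 - Real.cos θ) := hm.trans_le hs
      set s := m + 2 * (1 - Real.cos θ)
      have hz0 := zz_pos hs0.le
      have hz1 := zz_lt_one hs0
      have hzm := zz_lt_one hm
      have g1 : zz s ^ (M + 1) ≤ zz m := by
        calc zz s ^ (M + 1) ≤ zz s ^ 1 := pow_le_pow_of_le_one hz0.le hz1.le (by omega)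
          _ = zz s := pow_one _
          _ ≤ zz m := zz_anti hm.le hs
      have g2 : rs m ≤ rs s := Real.sqrt_le_sqrt (by nlinarith)
      have g3 : 0 < rs m := rs_pos hm
      have g4 : (1 - zz m) * rs m ≤ (1 - zz s ^ (M + 1)) * rs s :=
        mul_le_mul (by linarith) g2 g3.le (by linarith)
      have g5 : 0 < (1 - zz m) * rs m := mul_pos (by linarith) g3
      rw [norm_mul, Real.norm_eq_abs, Real.norm_eq_abs]
      have g6 : |kz (M + 1) n₂ s| ≤ 2 / ((1 - zz m) * rs m) := by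
        unfold kz
        rw [abs_div, abs_of_pos (g5.trans_le g4)]
        refine div_le_div₀ (by norm_num) ?_ g5 g4
        rw [abs_of_nonneg (by positivity)]
        have h1 : zz s ^ n₂ ≤ 1 := pow_le_one₀ hz0.le hz1.le
        have h2 : zz s ^ (M + 1 - n₂) ≤ 1 := pow_le_one₀ hz0.le hz1.le
        linarith
      calc |Real.cos (n₁ * θ)| * |kz (M + 1) n₂ s| ≤ 1 * (2 / ((1 - zz m) * rs m)) :=
            mul_le_mul (Real.abs_cos_le_one _) g6 (abs_nonneg _) zero_le_one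
        _ = 2 / ((1 - zz m) * rs m) := one_mul _
    · refine (kz_tendsto ?_ n₂).const_mul _
      have := Real.cos_le_one θ
      linarith
  exact tendsto_nhds_unique h1 h2

end

end Vale.Agent.P159.H474
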