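import Vale.Agent.P159.H474.Green2

/-!
P159, module GREEN (helper474), file 3: torus versus infinite volume, and the logarithm.

`GK_sub_Gi`: `|GK N m (n₁, n₂) - Gi m n₁ n₂| ≤ 120 exp (-(N - max n₁ n₂) √m / 4) Im m`.
`Im_sub`: `|Im m - Im m' - log (m'/m) / (4 π)| ≤ √m' / 4` for `0 < m ≤ m' ≤ 1`.
`TB1`: the same for the torus sums.
-/

namespace Vale.Agent.P159.H474

open Finset Real Filter Topology
open Vale.Agent.P159.TM.H764 (cN sN EE dt ch)

noncomputable section

/-- `Im m = Gi m 0 0` -/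
def Im (m : ℝ) : ℝ := (∫ θ in (0 : ℝ)..(2 * π), 1 / rs (m + 2 * (1 - Real.cos θ))) / (2 * π)

lemma Gi_zero (m : ℝ) : Gi m 0 0 = Im m := by
  unfold Gi Im
  congr 1
  refine intervalIntegral.integral_congr fun θ _ => ?_
  simp

lemma Im_nonneg (m : ℝ) : 0 ≤ Im m := by
  unfold Im
  refine div_nonneg (intervalIntegral.integral_nonneg (by positivity) fun θ _ => ?_)
    (by positivity)
  exact div_nonneg zero_le_one (rs_nonneg _)

variable {N : ℕ} [NeZero N]

/-- the torus correction of one mode -/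
lemma kz_sub_le {s m : ℝ} (hm : 0 < m) (hms : m ≤ s) (hs : s ≤ 8) {n : ℕ} (hn : n ≤ N)
    (hN : 1 ≤ (N : ℝ) * √m) :
    |kz N n s - zz s ^ n / rs s| ≤ 10 * exp (-(((N : ℝ) - n) * √m / 4)) * (1 / rs s) := by
  have hs0 : 0 < s := hm.trans_le hms
  have hz0 := zz_pos hs0.le
  have hz1 := zz_lt_one hs0
  have hzN : zz s ^ N < 1 := pow_lt_one₀ hz0.le hz1 (NeZero.ne N)
  have hr := rs_pos hs0
  have h1N : 0 < 1 - zz s ^ N := by linarith
  have e1 : kz N n s - zz s ^ n / rs s = (zz s ^ (N - n) + zz s ^ (N + n)) / (1 - zz s ^ N) *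
      (1 / rs s) := by
    unfold kz
    rw [pow_add]
    field_simp
    ring
  rw [e1, abs_of_nonneg (by positivity)]
  refine mul_le_mul_of_nonneg_right ?_ (by positivity)
  have hsm : √m ≤ √s := Real.sqrt_le_sqrt hms
  have g1 : zz s ^ (N - n) ≤ exp (-(((N : ℝ) - n) * √m / 4)) := by
    refine (zz_pow_le hs0.le hs (N - n)).trans (Real.exp_le_exp.2 ?_)
    rw [Nat.cast_sub hn]
    have : (0 : ℝ) ≤ (N : ℝ) - n := by
      have : (n : ℝ) ≤ N := by exact_mod_cast hn
      linarith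
    nlinarith
  have g2 : zz s ^ (N + n) ≤ exp (-(((N : ℝ) - n) * √m / 4)) := by
    refine le_trans ?_ g1
    exact pow_le_pow_of_le_one hz0.le hz1.le (by omega)
  have g3 : zz s ^ N ≤ 4 / 5 := by
    refine (zz_pow_le hs0.le hs N).trans ?_
    have h2 : exp (-((N : ℝ) * √s / 4)) ≤ exp (-(1 / 4)) := by
      refine Real.exp_le_exp.2 ?_
      have : (N : ℝ) * √m ≤ N * √s := mul_le_mul_of_nonneg_left hsm (Nat.cast_nonneg _)
      linarith
    refine h2.trans ?_
    rw [Real.exp_neg, inv_le_comm₀ (Real.exp_pos _) (by norm_num)]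
    have := Real.add_one_le_exp (1 / 4 : ℝ)
    linarith
  rw [div_le_iff₀ h1N]
  have h4 : 0 ≤ exp (-(((N : ℝ) - n) * √m / 4)) := (Real.exp_pos _).le
  nlinarith

lemma rs_int_cont {m : ℝ} (hm : 0 < m) :
    Continuous fun θ : ℝ => 1 / rs (m + 2 * (1 - Real.cos θ)) := by
  refine continuous_const.div (continuous_rs.comp (by fun_prop)) fun θ => ?_
  refine (rs_pos ?_).ne'
  have := Real.cos_le_one θ
  linarith

/-- half periodic versus infinite volume -/
theorem Gh2_sub_Gi {m : ℝ} (hm : 0 < m) (hm1 : m ≤ 4) (hN : 1 ≤ (N : ℝ) * √m) (n₁ : ℕ) {n₂ : ℕ}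
    (hn : n₂ ≤ N) :
    |Gh2 N m n₁ n₂ - Gi m n₁ n₂| ≤ 10 * exp (-(((N : ℝ) - n₂) * √m / 4)) * Im m := by
  rw [Gh2_eq hm n₁ hn, Gi_symm hm]
  unfold Gi Im
  have hc1 : Continuous fun θ : ℝ => Real.cos (n₁ * θ) * kz N n₂ (m + 2 * (1 - Real.cos θ)) := by
    refine (Real.continuous_cos.comp (continuous_const.mul continuous_id)).mul ?_
    exact (kz_cont N n₂ hm).comp_continuous Real.continuous_cos
      fun θ => ⟨Real.neg_one_le_cos θ, Real.cos_le_one θ⟩
  have hc2 : Continuous fun θ : ℝ => Real.cos (n₁ * θ) *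
      (zz (m + 2 * (1 - Real.cos θ)) ^ n₂ / rs (m + 2 * (1 - Real.cos θ))) := by
    refine (Real.continuous_cos.comp (continuous_const.mul continuous_id)).mul ?_
    exact (zr_cont n₂ hm).comp_continuous Real.continuous_cos
      fun θ => ⟨Real.neg_one_le_cos θ, Real.cos_le_one θ⟩
  rw [← sub_div, abs_div, abs_of_pos (show 0 < 2 * π by positivity), ← mul_div_assoc,
    div_le_div_iff_of_pos_right (by positivity),
    ← intervalIntegral.integral_sub (hc1.intervalIntegrable _ _) (hc2.intervalIntegrable _ _),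
    ← intervalIntegral.integral_const_mul, ← Real.norm_eq_abs]
  refine intervalIntegral.norm_integral_le_of_norm_le (by positivity)
    (Eventually.of_forall fun θ _ => ?_)
    ((continuous_const.mul (rs_int_cont hm)).intervalIntegrable _ _)
  rw [← mul_sub, norm_mul, Real.norm_eq_abs, Real.norm_eq_abs]
  have h1 := Real.cos_le_one θ
  have h2 := Real.neg_one_le_cos θ
  have h3 := kz_sub_le (N := N) (s := m + 2 * (1 - Real.cos θ)) (m := m) hm (by linarith)
    (by linarith) hn hN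
  calc |Real.cos (n₁ * θ)| * _ ≤ 1 * _ :=
        mul_le_mul (Real.abs_cos_le_one _) h3 (abs_nonneg _) zero_le_one
    _ = _ := one_mul _

lemma Gh2_zero_nonneg (m : ℝ) : 0 ≤ Gh2 N m 0 0 := by
  unfold Gh2
  refine div_nonneg (Finset.sum_nonneg fun l _ => ?_) (Nat.cast_nonneg _)
  simp only [Nat.cast_zero, mul_zero, TM.H764.cN_zero, pow_zero, one_mul]
  exact div_nonneg zero_le_one (rs_nonneg _)

/-- **(GR2)** torus versus infinite volume -/
theorem GK_sub_Gi {m : ℝ} (hm : 0 < m) (hm1 : m ≤ 4) (hN : 1 ≤ (N : ℝ) * √m) {n₁ n₂ n : ℕ}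
    (h1 : n₁ ≤ n) (h2 : n₂ ≤ n) (hn : n ≤ N) :
    |GK N m ((n₁ : ZMod N), (n₂ : ZMod N)) - Gi m n₁ n₂| ≤
      120 * exp (-(((N : ℝ) - n) * √m / 4)) * Im m := by
  have hI := Im_nonneg m
  have hexp : ∀ k : ℕ, k ≤ n → exp (-(((N : ℝ) - k) * √m / 4)) ≤
      exp (-(((N : ℝ) - n) * √m / 4)) := by
    intro k hk
    refine Real.exp_le_exp.2 ?_
    have : (k : ℝ) ≤ n := by exact_mod_cast hk
    have := Real.sqrt_nonneg m
    nlinarith
  have hle1 : exp (-(((N : ℝ) - n) * √m / 4)) ≤ 1 := by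
    rw [Real.exp_le_one_iff]
    have : (n : ℝ) ≤ N := by exact_mod_cast hn
    have := Real.sqrt_nonneg m
    have : 0 ≤ ((N : ℝ) - n) * √m / 4 := by
      refine div_nonneg (mul_nonneg (by linarith) this) (by norm_num)
    linarith
  have hT0 : Gh2 N m 0 0 ≤ 11 * Im m := by
    have h := Gh2_sub_Gi (N := N) hm hm1 hN 0 (n₂ := 0) (Nat.zero_le _)
    rw [Gi_zero, abs_le] at h
    have h4 : exp (-(((N : ℝ) - (0 : ℕ)) * √m / 4)) ≤ 1 := (hexp 0 (Nat.zero_le _)).trans hle1
    nlinarith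
  -- full torus versus half periodic
  have hA : |GK N m ((n₁ : ZMod N), (n₂ : ZMod N)) - Gh2 N m n₁ n₂| ≤
      10 * exp (-(((N : ℝ) - n₁) * √m / 4)) * Gh2 N m 0 0 := by
    rw [GK_eq_GR, GR_eq N N hm (h1.trans hn)]
    unfold Gh2
    have hNp : (0 : ℝ) < N := by exact_mod_cast NeZero.pos N
    rw [← sub_div, abs_div, abs_of_pos hNp, ← mul_div_assoc,
      div_le_div_iff_of_pos_right hNp, ← Finset.sum_sub_distrib, Finset.mul_sum]
    refine (Finset.abs_sum_le_sum_abs _ _).trans (Finset.sum_le_sum fun l _ => ?_)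
    rw [← mul_sub, abs_mul]
    have g1 := TM.H764.cN_le_one l
    have g2 := TM.H764.neg_one_le_cN l
    have g3 := kz_sub_le (N := N) (s := m + 2 * (1 - cN l)) (m := m) hm (by linarith)
      (by linarith) (h1.trans hn) hN
    have g4 : |cN (l * (n₂ : ZMod N))| ≤ 1 := Real.abs_cos_le_one _
    simp only [Nat.cast_zero, mul_zero, TM.H764.cN_zero, pow_zero, one_mul]
    calc |cN (l * (n₂ : ZMod N))| * _ ≤ 1 * _ :=
          mul_le_mul g4 g3 (abs_nonneg _) zero_le_one
      _ = _ := one_mul _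
  have hB := Gh2_sub_Gi (N := N) hm hm1 hN n₁ (h2.trans hn)
  have h5 := hexp n₁ h1
  have h6 := hexp n₂ h2
  have hT1 := Gh2_zero_nonneg (N := N) m
  have e1 : GK N m ((n₁ : ZMod N), (n₂ : ZMod N)) - Gi m n₁ n₂ =
      (GK N m ((n₁ : ZMod N), (n₂ : ZMod N)) - Gh2 N m n₁ n₂) +
        (Gh2 N m n₁ n₂ - Gi m n₁ n₂) := by ring
  rw [e1]
  refine (abs_add_le _ _).trans ((add_le_add hA hB).trans ?_)
  have hE0 := (Real.exp_pos (-(((N : ℝ) - n) * √m / 4))).le
  have h7 : 10 * exp (-(((N : ℝ) - n₁) * √m / 4)) * Gh2 N m 0 0 ≤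
      10 * exp (-(((N : ℝ) - n) * √m / 4)) * (11 * Im m) :=
    mul_le_mul (by linarith) hT0 hT1 (by positivity)
  have h8 : 10 * exp (-(((N : ℝ) - n₂) * √m / 4)) * Im m ≤
      10 * exp (-(((N : ℝ) - n) * √m / 4)) * Im m :=
    mul_le_mul_of_nonneg_right (by linarith) hI
  linarith

/-! ### the logarithm -/

lemma Im_half {m : ℝ} (hm : 0 < m) :
    Im m = (∫ θ in (0 : ℝ)..π, 1 / rs (m + 2 * (1 - Real.cos θ))) / π := by
  have hc := rs_int_cont hm
  unfold Im
  have h1 : ∫ θ in (0 : ℝ)..(2 * π), 1 / rs (m + 2 * (1 - Real.cos θ)) =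
      (∫ θ in (0 : ℝ)..π, 1 / rs (m + 2 * (1 - Real.cos θ))) +
        ∫ θ in π..(2 * π), 1 / rs (m + 2 * (1 - Real.cos θ)) :=
    (intervalIntegral.integral_add_adjacent_intervals (hc.intervalIntegrable _ _)
      (hc.intervalIntegrable _ _)).symm
  have h2 : ∫ θ in π..(2 * π), 1 / rs (m + 2 * (1 - Real.cos θ)) =
      ∫ θ in (0 : ℝ)..π, 1 / rs (m + 2 * (1 - Real.cos θ)) := by
    have h3 := intervalIntegral.integral_comp_sub_left (a := 0) (b := π)
      (fun θ : ℝ => 1 / rs (m + 2 * (1 - Real.cos θ))) (2 * π)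
    rw [show 2 * π - π = π by ring, sub_zero] at h3
    rw [← h3]
    refine intervalIntegral.integral_congr fun θ _ => ?_
    simp only [Real.cos_two_pi_sub]
  rw [h1, h2]
  field_simp
  ring

/-- the main part of the integrand -/
def hh (m θ : ℝ) : ℝ := Real.cos (θ / 2) / 2 / √(m + 2 * (1 - Real.cos θ))

lemma two_sub_cos (θ : ℝ) : 2 * (1 - Real.cos θ) = 4 * Real.sin (θ / 2) ^ 2 := by
  have h : θ = 2 * (θ / 2) := by ring
  conv_lhs => rw [h, Real.cos_two_mul]
  have := Real.sin_sq_add_cos_sq (θ / 2)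
  linarith

lemma hh_cont {m : ℝ} (hm : 0 < m) : Continuous (hh m) := by
  unfold hh
  refine Continuous.div (by fun_prop) (by fun_prop) fun θ => ?_
  have := Real.cos_le_one θ
  exact (Real.sqrt_pos.2 (by linarith)).ne'

lemma int_hh {m : ℝ} (hm : 0 < m) : ∫ θ in (0 : ℝ)..π, hh m θ = Real.arsinh (2 / √m) / 2 := by
  have hsm : 0 < √m := Real.sqrt_pos.2 hm
  have h1 : ∀ θ ∈ Set.uIcc (0 : ℝ) π,
      HasDerivAt (fun θ : ℝ => Real.arsinh (2 * Real.sin (θ / 2) / √m) / 2) (hh m θ) θ := by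
    intro θ _
    have h2 : HasDerivAt (fun θ : ℝ => 2 * Real.sin (θ / 2) / √m)
        (2 * (Real.cos (θ / 2) * (1 / 2)) / √m) θ :=
      (((Real.hasDerivAt_sin (θ / 2)).comp θ ((hasDerivAt_id θ).div_const 2)).const_mul 2).div_const _
    have h3 := (h2.arsinh).div_const 2
    refine h3.congr_deriv ?_
    unfold hh
    rw [two_sub_cos, smul_eq_mul]
    have h4 : √(1 + (2 * Real.sin (θ / 2) / √m) ^ 2) = √(m + 4 * Real.sin (θ / 2) ^ 2) / √m := by
      rw [← Real.sqrt_div' _ hm.le]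
      congr 1
      rw [div_pow, Real.sq_sqrt hm.le]
      field_simp
      ring
    rw [h4]
    have h5 : 0 < √(m + 4 * Real.sin (θ / 2) ^ 2) := Real.sqrt_pos.2 (by positivity)
    field_simp
  rw [intervalIntegral.integral_eq_sub_of_hasDerivAt h1 ((hh_cont hm).intervalIntegrable _ _)]
  simp

lemma arsinh_eq {m : ℝ} (hm : 0 < m) :
    Real.arsinh (2 / √m) = -(Real.log m) / 2 + Real.log (2 + √(m + 4)) := by
  have hsm : 0 < √m := Real.sqrt_pos.2 hm
  unfold Real.arsinh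
  have h1 : √(1 + (2 / √m) ^ 2) = √(m + 4) / √m := by
    rw [← Real.sqrt_div' _ hm.le]
    congr 1
    rw [div_pow, Real.sq_sqrt hm.le]
    field_simp
    ring
  rw [h1, ← add_div, Real.log_div (by positivity) hsm.ne', Real.log_sqrt hm.le]
  ring

/-- the remainder -/
lemma rem_bound {m m' ε c : ℝ} (hm : 0 < m) (hmm : m ≤ m') (hε : 0 ≤ ε) (hc1 : c ≤ 1 / 2)
    (hc2 : 1 / 2 - ε / 8 ≤ c) :
    |(1 / rs (m + ε) - c / √(m + ε)) - (1 / rs (m' + ε) - c / √(m' + ε))| ≤ 3 / 16 * √m' := by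
  have hm' : 0 < m' := hm.trans_le hmm
  set s := m + ε with hs
  set s' := m' + ε with hs'
  have s0 : 0 < s := by positivity
  have s0' : 0 < s' := by positivity
  have hss : s ≤ s' := by linarith
  have r0 : 0 < √s := Real.sqrt_pos.2 s0
  have r0' : 0 < √s' := Real.sqrt_pos.2 s0'
  have rle : √s ≤ √s' := Real.sqrt_le_sqrt hss
  -- `q x = 1 / √(x + 4)`
  have hq : ∀ x : ℝ, 0 ≤ x → 1 / 2 - x / 16 ≤ 1 / √(x + 4) ∧ 1 / √(x + 4) ≤ 1 / 2 := by
    intro x hx
    have h2 : (2 : ℝ) ≤ √(x + 4) := by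
      rw [show (2 : ℝ) = √(2 ^ 2) by rw [Real.sqrt_sq (by norm_num)]]
      exact Real.sqrt_le_sqrt (by linarith)
    have h3 : √(x + 4) ≤ 2 + x / 4 := by
      rw [Real.sqrt_le_left (by positivity)]
      nlinarith
    constructor
    · rw [le_div_iff₀ (by linarith)]
      by_cases h4 : 1 / 2 - x / 16 ≤ 0
      · nlinarith
      · push Not at h4
        nlinarith
    · exact one_div_le_one_div_of_le (by norm_num) h2
  have hqd : ∀ x y : ℝ, 0 ≤ x → x ≤ y → 0 ≤ 1 / √(x + 4) - 1 / √(y + 4) ∧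
      1 / √(x + 4) - 1 / √(y + 4) ≤ (y - x) / 16 := by
    intro x y hx hxy
    have a0 : (2 : ℝ) ≤ √(x + 4) := by
      rw [show (2 : ℝ) = √(2 ^ 2) by rw [Real.sqrt_sq (by norm_num)]]
      exact Real.sqrt_le_sqrt (by linarith)
    have a1 : √(x + 4) ≤ √(y + 4) := Real.sqrt_le_sqrt (by linarith)
    have a2 := Real.sq_sqrt (show 0 ≤ x + 4 by linarith)
    have a3 := Real.sq_sqrt (show 0 ≤ y + 4 by linarith)
    constructor
    · have := one_div_le_one_div_of_le (by linarith) a1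
      linarith
    · rw [div_sub_div _ _ (by linarith) (by linarith), div_le_div_iff₀ (by nlinarith) (by norm_num)]
      have a4 : (√(y + 4) - √(x + 4)) * (√(y + 4) + √(x + 4)) = y - x := by nlinarith
      have a5 : (4 : ℝ) ≤ √(y + 4) + √(x + 4) := by linarith
      have a6 : 0 ≤ √(y + 4) - √(x + 4) := by linarith
      have a7 : 4 ≤ √(x + 4) * √(y + 4) := by nlinarith
      have a8 : 0 ≤ y - x := by linarith
      nlinarith [mul_le_mul_of_nonneg_left a5 a6, mul_le_mul_of_nonneg_left a7 a8]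
  have e1 : 1 / rs s = (1 / √s) * (1 / √(s + 4)) := by
    unfold rs
    rw [Real.sqrt_mul s0.le]
    field_simp
  have e2 : 1 / rs s' = (1 / √s') * (1 / √(s' + 4)) := by
    unfold rs
    rw [Real.sqrt_mul s0'.le]
    field_simp
  have e3 : (1 / rs s - c / √s) - (1 / rs s' - c / √s') =
      (1 / √s - 1 / √s') * (1 / √(s + 4) - c) +
        (1 / √s') * (1 / √(s + 4) - 1 / √(s' + 4)) := by
    rw [e1, e2]
    ring
  rw [e3]
  have b1 : |1 / √(s + 4) - c| ≤ s / 8 := by
    obtain ⟨h1, h2⟩ := hq s s0.le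
    rw [abs_le]
    constructor
    · have : s / 16 ≤ s / 8 := by linarith
      linarith
    · have : ε ≤ s := by linarith
      linarith
  have b2 : |(1 / √s - 1 / √s') * (1 / √(s + 4) - c)| ≤ √m' / 8 := by
    rw [abs_mul]
    have h1 : 0 ≤ 1 / √s - 1 / √s' := by
      have := one_div_le_one_div_of_le r0 rle
      linarith
    rw [abs_of_nonneg h1]
    refine (mul_le_mul_of_nonneg_left b1 h1).trans ?_
    have h2 : (1 / √s - 1 / √s') * (s / 8) = (√s / √s') * (√s' - √s) / 8 := by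
      have h0 : (1 / √s - 1 / √s') * (s / 8) = (1 / √s - 1 / √s') * (√s * √s / 8) := by
        rw [Real.mul_self_sqrt s0.le]
      rw [h0]
      field_simp
    rw [h2]
    have h3 : √s / √s' ≤ 1 := by rw [div_le_one r0']; exact rle
    have h4 : √s' - √s ≤ √m' := by
      have h5 : √s' ≤ √m' + √s := by
        rw [Real.sqrt_le_left (by positivity)]
        have := Real.sq_sqrt hm'.le
        have := Real.sq_sqrt s0.le
        have := mul_nonneg (Real.sqrt_nonneg m') (Real.sqrt_nonneg s)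
        nlinarith
      linarith
    have h6 : 0 ≤ √s' - √s := by linarith
    have h7 : √s / √s' * (√s' - √s) ≤ 1 * (√s' - √s) := mul_le_mul_of_nonneg_right h3 h6
    linarith
  have b3 : |(1 / √s') * (1 / √(s + 4) - 1 / √(s' + 4))| ≤ √m' / 16 := by
    obtain ⟨h1, h2⟩ := hqd s s' s0.le hss
    rw [abs_of_nonneg (mul_nonneg (by positivity) h1)]
    have h3 : s' - s = m' - m := by rw [hs, hs']; ring
    rw [h3] at h2
    have h4 : √m' ≤ √s' := Real.sqrt_le_sqrt (by linarith)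
    have h5 : 1 / √s' * (1 / √(s + 4) - 1 / √(s' + 4)) ≤ 1 / √s' * (m' / 16) :=
      mul_le_mul_of_nonneg_left (h2.trans (by linarith)) (by positivity)
    refine h5.trans ?_
    have h6 : 0 < √m' := Real.sqrt_pos.2 hm'
    rw [div_mul_eq_mul_div, one_mul, div_le_iff₀ r0']
    have h7 : m' = √m' * √m' := (Real.mul_self_sqrt hm'.le).symm
    nlinarith
  refine (abs_add_le _ _).trans ((add_le_add b2 b3).trans (le_of_eq ?_))
  ring

/-- **(GR3), infinite volume** -/
theorem Im_sub {m m' : ℝ} (hm : 0 < m) (hmm : m ≤ m') (hm1 : m' ≤ 1) :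
    |Im m - Im m' - Real.log (m' / m) / (4 * π)| ≤ √m' / 4 := by
  have hm' : 0 < m' := hm.trans_le hmm
  have hpi := Real.pi_pos
  set D : ℝ → ℝ → ℝ := fun m θ => 1 / rs (m + 2 * (1 - Real.cos θ)) - hh m θ with hD
  have hDc : ∀ m : ℝ, 0 < m → Continuous (D m) := fun m hm => (rs_int_cont hm).sub (hh_cont hm)
  have hI : ∀ m : ℝ, 0 < m → Im m = (∫ θ in (0 : ℝ)..π, D m θ) / π +
      Real.arsinh (2 / √m) / (2 * π) := by
    intro m hm
    rw [Im_half hm]
    have h1 : ∫ θ in (0 : ℝ)..π, 1 / rs (m + 2 * (1 - Real.cos θ)) =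
        (∫ θ in (0 : ℝ)..π, D m θ) + ∫ θ in (0 : ℝ)..π, hh m θ := by
      rw [← intervalIntegral.integral_add ((hDc m hm).intervalIntegrable _ _)
        ((hh_cont hm).intervalIntegrable _ _)]
      refine intervalIntegral.integral_congr fun θ _ => ?_
      simp [hD]
    rw [h1, int_hh hm]
    field_simp
  have hlog : Real.log (m' / m) = Real.log m' - Real.log m :=
    Real.log_div hm'.ne' hm.ne'
  rw [hI m hm, hI m' hm', arsinh_eq hm, arsinh_eq hm', hlog]
  have e1 : (∫ θ in (0 : ℝ)..π, D m θ) / π + (-Real.log m / 2 + Real.log (2 + √(m + 4))) / (2 * π) -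
      ((∫ θ in (0 : ℝ)..π, D m' θ) / π + (-Real.log m' / 2 + Real.log (2 + √(m' + 4))) / (2 * π)) -
      (Real.log m' - Real.log m) / (4 * π) =
      (∫ θ in (0 : ℝ)..π, (D m θ - D m' θ)) / π +
        (Real.log (2 + √(m + 4)) - Real.log (2 + √(m' + 4))) / (2 * π) := by
    rw [intervalIntegral.integral_sub ((hDc m hm).intervalIntegrable _ _)
      ((hDc m' hm').intervalIntegrable _ _)]
    field_simp
    ring
  rw [e1]
  have b1 : |(∫ θ in (0 : ℝ)..π, (D m θ - D m' θ)) / π| ≤ 3 / 16 * √m' := by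
    rw [abs_div, abs_of_pos hpi, div_le_iff₀ hpi]
    have h := intervalIntegral.norm_integral_le_of_norm_le_const (a := 0) (b := π)
      (f := fun θ => D m θ - D m' θ) (C := 3 / 16 * √m') (fun θ hθ => by
        rw [Set.uIoc_of_le hpi.le] at hθ
        have hθ2 : θ / 2 ∈ Set.Icc (-(π / 2)) (π / 2) := ⟨by linarith [hθ.1], by linarith [hθ.2]⟩
        have hc0 : 0 ≤ Real.cos (θ / 2) := Real.cos_nonneg_of_mem_Icc hθ2
        rw [Real.norm_eq_abs]
        have := rem_bound (m := m) (m' := m') (ε := 2 * (1 - Real.cos θ))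
          (c := Real.cos (θ / 2) / 2) hm hmm (by linarith [Real.cos_le_one θ])
          (by linarith [Real.cos_le_one (θ / 2)]) (by
            rw [two_sub_cos]
            have h1 := Real.sin_sq_add_cos_sq (θ / 2)
            have h2 := Real.cos_le_one (θ / 2)
            nlinarith)
        exact this)
    rw [Real.norm_eq_abs, sub_zero, abs_of_pos hpi] at h
    exact h
  have b2 : |(Real.log (2 + √(m + 4)) - Real.log (2 + √(m' + 4))) / (2 * π)| ≤ √m' / 16 := by
    have a0 : (0 : ℝ) < √(m + 4) := Real.sqrt_pos.2 (by linarith)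
    have a1 : √(m + 4) ≤ √(m' + 4) := Real.sqrt_le_sqrt (by linarith)
    have a2 : Real.log (2 + √(m + 4)) ≤ Real.log (2 + √(m' + 4)) :=
      Real.log_le_log (by linarith) (by linarith)
    have a3 : Real.log (2 + √(m' + 4)) - Real.log (2 + √(m + 4)) ≤
        (√(m' + 4) - √(m + 4)) / (2 + √(m + 4)) := by
      rw [← Real.log_div (by linarith) (by linarith)]
      have h1 := Real.log_le_sub_one_of_pos (show 0 < (2 + √(m' + 4)) / (2 + √(m + 4)) by positivity)
      refine h1.trans (le_of_eq ?_)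
      field_simp
      ring
    have a4 : (2 : ℝ) ≤ √(m + 4) := by
      rw [show (2 : ℝ) = √(2 ^ 2) by rw [Real.sqrt_sq (by norm_num)]]
      exact Real.sqrt_le_sqrt (by linarith)
    have a5 : √(m' + 4) - √(m + 4) ≤ m' / 4 := by
      have h1 := Real.sq_sqrt (show 0 ≤ m + 4 by linarith)
      have h2 := Real.sq_sqrt (show 0 ≤ m' + 4 by linarith)
      have h3 : (√(m' + 4) - √(m + 4)) * (√(m' + 4) + √(m + 4)) = m' - m := by nlinarith
      nlinarith
    have a6 : (√(m' + 4) - √(m + 4)) / (2 + √(m + 4)) ≤ m' / 16 := by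
      rw [div_le_iff₀ (by linarith)]
      nlinarith
    have a7 : m' ≤ √m' := by
      have : m' = √m' * √m' := (Real.mul_self_sqrt hm'.le).symm
      have h2 : √m' ≤ 1 := by rw [Real.sqrt_le_left (by norm_num)]; linarith
      nlinarith [Real.sqrt_nonneg m']
    rw [abs_div, abs_of_pos (show 0 < 2 * π by positivity), div_le_iff₀ (by positivity),
      abs_le]
    have a8 := Real.pi_gt_three
    have a9 := Real.sqrt_nonneg m'
    constructor <;> nlinarith
  refine (abs_add_le _ _).trans ((add_le_add b1 b2).trans (le_of_eq ?_))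
  ring

lemma Im_one : Im 1 ≤ 1 / 2 := by
  unfold Im
  rw [div_le_iff₀ (by positivity)]
  have h := intervalIntegral.integral_mono_on (μ := MeasureTheory.volume) (a := 0) (b := 2 * π)
    (f := fun θ : ℝ => 1 / rs (1 + 2 * (1 - Real.cos θ))) (g := fun _ => (1 / 2 : ℝ))
    (by positivity)
    ((rs_int_cont one_pos).intervalIntegrable _ _) intervalIntegrable_const (fun θ _ => by
      have h1 : (2 : ℝ) ≤ rs (1 + 2 * (1 - Real.cos θ)) := by
        have h2 := sqrt_le_rs (s := 1 + 2 * (1 - Real.cos θ)) (by linarith [Real.cos_le_one θ])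
        have h3 : (1 : ℝ) ≤ √(1 + 2 * (1 - Real.cos θ)) := by
          rw [Real.le_sqrt (by norm_num) (by linarith [Real.cos_le_one θ])]
          linarith [Real.cos_le_one θ]
        linarith
      exact one_div_le_one_div_of_le (by norm_num) h1)
  refine h.trans (le_of_eq ?_)
  rw [intervalIntegral.integral_const, smul_eq_mul]
  ring

/-- size of `Im` -/
theorem Im_le {m : ℝ} (hm : 0 < m) (hm1 : m ≤ 1) : Im m ≤ 1 + Real.log (1 / m) / (4 * π) := by
  have h := Im_sub hm hm1 le_rfl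
  rw [Real.sqrt_one, abs_le] at h
  have := Im_one
  linarith [h.2]

/-- the torus sum -/
def SN (N : ℕ) [NeZero N] (m : ℝ) : ℝ :=
  (∑ k : ZMod N × ZMod N, 1 / (m + EE k)) / (N : ℝ) ^ 2

lemma SN_eq (m : ℝ) : SN N m = GK N m (0, 0) := by
  unfold SN GK dt
  congr 1
  refine Finset.sum_congr rfl fun k _ => ?_
  simp [TM.H764.cN_zero]

theorem SN_sub_Im {m : ℝ} (hm : 0 < m) (hm1 : m ≤ 4) (hN : 1 ≤ (N : ℝ) * √m) :
    |SN N m - Im m| ≤ 120 * exp (-((N : ℝ) * √m / 4)) * Im m := by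
  have h := GK_sub_Gi (N := N) hm hm1 hN (n₁ := 0) (n₂ := 0) (n := 0) le_rfl le_rfl (Nat.zero_le _)
  rw [Gi_zero] at h
  simp only [Nat.cast_zero, sub_zero] at h
  rw [SN_eq]
  exact h

/-- **(TB1)** `N⁻² ∑_k [1/(m + λ) - 1/(m' + λ)] = (1/4π) log (m'/m) + O(√m') + (exp. small)` -/
theorem TB1 {m m' : ℝ} (hm : 0 < m) (hmm : m ≤ m') (hm1 : m' ≤ 1) (hN : 1 ≤ (N : ℝ) * √m) :
    |SN N m - SN N m' - Real.log (m' / m) / (4 * π)| ≤
      √m' / 4 + 240 * exp (-((N : ℝ) * √m / 4)) * (1 + Real.log (1 / m) / (4 * π)) := by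
  have hm' : 0 < m' := hm.trans_le hmm
  have hs : √m ≤ √m' := Real.sqrt_le_sqrt hmm
  have hN' : 1 ≤ (N : ℝ) * √m' :=
    hN.trans (mul_le_mul_of_nonneg_left hs (Nat.cast_nonneg _))
  have h1 := SN_sub_Im (N := N) hm (by linarith) hN
  have h2 := SN_sub_Im (N := N) hm' (by linarith) hN'
  have h3 := Im_sub hm hmm hm1
  have h4 := Im_le hm (hmm.trans hm1)
  have h5 : Im m' ≤ 1 + Real.log (1 / m) / (4 * π) := by
    refine (Im_le hm' hm1).trans ?_
    have : Real.log (1 / m') ≤ Real.log (1 / m) :=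
      Real.log_le_log (by positivity) (one_div_le_one_div_of_le hm hmm)
    have := div_le_div_of_nonneg_right this (show 0 ≤ 4 * π by positivity)
    linarith
  have h6 : exp (-((N : ℝ) * √m' / 4)) ≤ exp (-((N : ℝ) * √m / 4)) := by
    refine Real.exp_le_exp.2 ?_
    have := mul_le_mul_of_nonneg_left hs (Nat.cast_nonneg N (α := ℝ))
    linarith
  have hE := (Real.exp_pos (-((N : ℝ) * √m / 4))).le
  have h7 : 120 * exp (-((N : ℝ) * √m / 4)) * Im m ≤
      120 * exp (-((N : ℝ) * √m / 4)) * (1 + Real.log (1 / m) / (4 * π)) :=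
    mul_le_mul_of_nonneg_left h4 (by positivity)
  have h8 : 120 * exp (-((N : ℝ) * √m' / 4)) * Im m' ≤
      120 * exp (-((N : ℝ) * √m / 4)) * (1 + Real.log (1 / m) / (4 * π)) :=
    mul_le_mul (by linarith) h5 (Im_nonneg _) (by positivity)
  have e1 : SN N m - SN N m' - Real.log (m' / m) / (4 * π) =
      (SN N m - Im m) - (SN N m' - Im m') + (Im m - Im m' - Real.log (m' / m) / (4 * π)) := by ring
  rw [e1]
  refine (abs_add_le _ _).trans ?_
  have h9 := (abs_sub (SN N m - Im m) (SN N m' - Im m'))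
  linarith

end

end Vale.Agent.P159.H474
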