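import Vale.Agent.P159.H474.Green3

/-!
P159, module GREEN (helper474), file 4: sharper forms without logarithms.

`int1`: `(2π)⁻¹ ∫ dθ / (m + 2 - 2 cos θ) = 1 / √(m (m + 4))`.
`Gi_decay`: `|Gi m n₁ n₂| ≤ 2 / (n √m) exp (- n √m / 8)` for `n = max n₁ n₂ ≥ 1`.
`GK_sub_Gi'`: `|GK N m (n₁, n₂) - Gi m n₁ n₂| ≤ 600 exp (- N √m / 16)` for `n₁, n₂ ≤ N / 2`,
`N √m ≥ 1`.
`TB1'`: TB1 with the error `√m' / 4 + 1200 exp (- N √m / 16)`.
-/

namespace Vale.Agent.P159.H474

open Finset Real Filter Topology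
open Vale.Agent.P159.TM.H764 (cN sN EE dt ch)

noncomputable section

variable {N : ℕ} [NeZero N]

/-- the one dimensional sum of `1 / (m + 2 - 2 cos)` -/
lemma sum1_zero {m : ℝ} (hm : 0 < m) :
    ∑ l : ZMod N, 1 / (m + 2 * (1 - cN l)) = N * kz N 0 m := by
  rw [← sum1 hm (Nat.zero_le N)]
  refine Finset.sum_congr rfl fun l _ => ?_
  rw [Nat.cast_zero, mul_zero, TM.H764.cN_zero]
  congr 1
  ring

/-- the one dimensional integral -/
lemma int1 {m : ℝ} (hm : 0 < m) :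
    (∫ θ in (0 : ℝ)..(2 * π), 1 / (m + 2 * (1 - Real.cos θ))) / (2 * π) = 1 / rs m := by
  have hc : ContinuousOn (fun c : ℝ => 1 / (m + 2 * (1 - c))) (Set.Icc (-1) 1) := by
    refine ContinuousOn.div continuousOn_const (by fun_prop) fun c hc => ?_
    have := hc.2
    exact (by linarith : 0 < m + 2 * (1 - c)).ne'
  have h1 := riem_zmod hc 0
  have h2 : Tendsto (fun M : ℕ => (∑ j : ZMod (M + 1), cN (j * ((0 : ℕ) : ZMod (M + 1))) *
      (1 / (m + 2 * (1 - cN j)))) / ((M + 1 : ℕ) : ℝ)) atTop (𝓝 (1 / rs m)) := by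
    have h3 : ∀ M : ℕ, (∑ j : ZMod (M + 1), cN (j * ((0 : ℕ) : ZMod (M + 1))) *
      (1 / (m + 2 * (1 - cN j)))) / ((M + 1 : ℕ) : ℝ) = kz (M + 1) 0 m := by
      intro M
      have h4 := sum1_zero (N := M + 1) hm
      simp only [Nat.cast_zero, mul_zero, TM.H764.cN_zero, one_mul]
      rw [h4]
      field_simp
    simp_rw [h3]
    have := kz_tendsto hm 0
    simpa using this
  have h5 := tendsto_nhds_unique h1 h2
  rw [← h5]
  congr 1
  refine intervalIntegral.integral_congr fun θ _ => ?_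
  simp

lemma inv_cont {m : ℝ} (hm : 0 < m) :
    Continuous fun θ : ℝ => 1 / (m + 2 * (1 - Real.cos θ)) := by
  refine continuous_const.div (by fun_prop) fun θ => ?_
  have := Real.cos_le_one θ
  exact (by linarith : 0 < m + 2 * (1 - Real.cos θ)).ne'

/-- `z ^ n / rs ≤ (4 / n) exp (- n √m / 8) / s` -/
lemma zpow_div_rs_le {s m : ℝ} (hm : 0 < m) (hms : m ≤ s) (hs : s ≤ 8) {n : ℕ} (hn : 1 ≤ n) :
    zz s ^ n / rs s ≤ 4 / n * exp (-(n * √m / 8)) * (1 / s) := by
  have hs0 : 0 < s := hm.trans_le hms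
  have hr := rs_pos hs0
  have hq : 0 < √s := Real.sqrt_pos.2 hs0
  have hn0 : (0 : ℝ) < n := by exact_mod_cast hn
  have h1 := zz_pow_le hs0.le hs n
  have h2 := sqrt_le_rs hs0.le
  have h3 : √m ≤ √s := Real.sqrt_le_sqrt hms
  have h4 : exp (-(n * √s / 4)) ≤ exp (-(n * √m / 8)) * (8 / (n * √s)) := by
    have h5 : exp (-(n * √s / 4)) = exp (-(n * √s / 8)) * exp (-(n * √s / 8)) := by
      rw [← Real.exp_add]
      congr 1
      ring
    rw [h5]
    refine mul_le_mul (Real.exp_le_exp.2 ?_) ?_ (Real.exp_pos _).le (Real.exp_pos _).le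
    · have : n * √m ≤ n * √s := mul_le_mul_of_nonneg_left h3 hn0.le
      linarith
    · rw [Real.exp_neg, inv_le_comm₀ (Real.exp_pos _) (by positivity), inv_div]
      have := Real.add_one_le_exp (n * √s / 8)
      linarith
  calc zz s ^ n / rs s ≤ (exp (-(n * √m / 8)) * (8 / (n * √s))) / (2 * √s) :=
        div_le_div₀ (by positivity) (h1.trans h4) (by positivity) h2
    _ = 4 / n * exp (-(n * √m / 8)) * (1 / s) := by
        have h6 : √s * √s = s := Real.mul_self_sqrt hs0.le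
        rw [div_mul_eq_mul_div, ← mul_div_assoc, div_div]
        have h7 : (n : ℝ) * √s * (2 * √s) = 2 * n * s := by linear_combination (2 * (n : ℝ)) * h6
        rw [h7]
        field_simp
        norm_num

/-- decay of the infinite volume kernel in the first variable -/
lemma Gi_decay1 {m : ℝ} (hm : 0 < m) (hm1 : m ≤ 4) {n₁ : ℕ} (hn : 1 ≤ n₁) (n₂ : ℕ) :
    |Gi m n₁ n₂| ≤ 2 / (n₁ * √m) * exp (-(n₁ * √m / 8)) := by
  have hn0 : (0 : ℝ) < n₁ := by exact_mod_cast hn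
  have hq : 0 < √m := Real.sqrt_pos.2 hm
  have h1 : |Gi m n₁ n₂| ≤ 4 / n₁ * exp (-(n₁ * √m / 8)) * (1 / rs m) := by
    rw [← int1 hm]
    unfold Gi
    rw [abs_div, abs_of_pos (show 0 < 2 * π by positivity), ← mul_div_assoc,
      div_le_div_iff_of_pos_right (by positivity), ← intervalIntegral.integral_const_mul,
      ← Real.norm_eq_abs]
    refine intervalIntegral.norm_integral_le_of_norm_le (by positivity)
      (Eventually.of_forall fun θ _ => ?_)
      ((continuous_const.mul (inv_cont hm)).intervalIntegrable _ _)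
    have g1 := Real.cos_le_one θ
    have g2 := Real.neg_one_le_cos θ
    have hs0 : 0 < m + 2 * (1 - Real.cos θ) := by linarith
    rw [norm_mul, Real.norm_eq_abs, Real.norm_eq_abs,
      abs_of_nonneg (div_nonneg (pow_nonneg (zz_pos hs0.le).le _) (rs_nonneg _))]
    have h3 := zpow_div_rs_le hm (s := m + 2 * (1 - Real.cos θ)) (by linarith) (by linarith) hn
    calc |Real.cos (n₂ * θ)| * _ ≤ 1 * _ :=
          mul_le_mul (Real.abs_cos_le_one _) h3
            (div_nonneg (pow_nonneg (zz_pos hs0.le).le _) (rs_nonneg _)) zero_le_one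
      _ = _ := one_mul _
  refine h1.trans ?_
  have h2 := sqrt_le_rs hm.le
  have h3 : 1 / rs m ≤ 1 / (2 * √m) := one_div_le_one_div_of_le (by positivity) h2
  calc 4 / n₁ * exp (-(n₁ * √m / 8)) * (1 / rs m) ≤
        4 / n₁ * exp (-(n₁ * √m / 8)) * (1 / (2 * √m)) :=
        mul_le_mul_of_nonneg_left h3 (by positivity)
    _ = 2 / (n₁ * √m) * exp (-(n₁ * √m / 8)) := by
        field_simp
        norm_num

/-- decay of the infinite volume kernel -/
theorem Gi_decay {m : ℝ} (hm : 0 < m) (hm1 : m ≤ 4) {n₁ n₂ n : ℕ} (hn : 1 ≤ n)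
    (h : n ≤ n₁ ∨ n ≤ n₂) :
    |Gi m n₁ n₂| ≤ 2 / (n * √m) * exp (-(n * √m / 8)) := by
  have hn0 : (0 : ℝ) < n := by exact_mod_cast hn
  have hq : 0 < √m := Real.sqrt_pos.2 hm
  have key : ∀ a b : ℕ, n ≤ a → |Gi m a b| ≤ 2 / (n * √m) * exp (-(n * √m / 8)) := by
    intro a b hab
    have h1 : (n : ℝ) ≤ a := by exact_mod_cast hab
    refine (Gi_decay1 hm hm1 (hn.trans hab) b).trans ?_
    refine mul_le_mul ?_ (Real.exp_le_exp.2 ?_) (Real.exp_pos _).le (by positivity)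
    · refine div_le_div_of_nonneg_left (by norm_num) (by positivity) ?_
      exact mul_le_mul_of_nonneg_right h1 hq.le
    · have := mul_le_mul_of_nonneg_right h1 hq.le
      linarith
  rcases h with h | h
  · exact key _ _ h
  · rw [Gi_symm hm]
    exact key _ _ h

/-! ### torus versus infinite volume -/

/-- the torus correction of one mode, second form -/
lemma kz_sub_le' {s m : ℝ} (hm : 0 < m) (hms : m ≤ s) (hs : s ≤ 8) {n : ℕ} (hn : 2 * n ≤ N)
    (hN : 1 ≤ (N : ℝ) * √m) :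
    |kz N n s - zz s ^ n / rs s| ≤ 80 / N * exp (-((N : ℝ) * √m / 16)) * (1 / s) := by
  have hs0 : 0 < s := hm.trans_le hms
  have hq : 0 < √s := Real.sqrt_pos.2 hs0
  have hNp : (0 : ℝ) < N := by exact_mod_cast NeZero.pos N
  have hsm : √m ≤ √s := Real.sqrt_le_sqrt hms
  have hN' : 1 ≤ (N : ℝ) * √s := hN.trans (mul_le_mul_of_nonneg_left hsm hNp.le)
  have h1 := kz_sub_le (N := N) (s := s) (m := s) hs0 le_rfl hs (n := n) (by omega) hN'
  refine h1.trans ?_
  have h2 : exp (-(((N : ℝ) - n) * √s / 4)) ≤ exp (-((N : ℝ) * √m / 16)) * (16 / (N * √s)) := by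
    have h3 : (n : ℝ) ≤ N / 2 := by
      have : (2 * n : ℝ) ≤ N := by exact_mod_cast hn
      linarith
    have h4 : exp (-(((N : ℝ) - n) * √s / 4)) ≤ exp (-((N : ℝ) * √s / 8)) := by
      refine Real.exp_le_exp.2 ?_
      nlinarith
    have h5 : exp (-((N : ℝ) * √s / 8)) = exp (-((N : ℝ) * √s / 16)) *
        exp (-((N : ℝ) * √s / 16)) := by
      rw [← Real.exp_add]
      congr 1
      ring
    rw [h5] at h4
    refine h4.trans (mul_le_mul (Real.exp_le_exp.2 ?_) ?_ (Real.exp_pos _).le (Real.exp_pos _).le)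
    · have : (N : ℝ) * √m ≤ N * √s := mul_le_mul_of_nonneg_left hsm hNp.le
      linarith
    · rw [Real.exp_neg, inv_le_comm₀ (Real.exp_pos _) (by positivity), inv_div]
      have := Real.add_one_le_exp ((N : ℝ) * √s / 16)
      linarith
  have h6 : 1 / rs s ≤ 1 / (2 * √s) := one_div_le_one_div_of_le (by positivity)
    (sqrt_le_rs hs0.le)
  calc 10 * exp (-(((N : ℝ) - n) * √s / 4)) * (1 / rs s) ≤
        10 * (exp (-((N : ℝ) * √m / 16)) * (16 / (N * √s))) * (1 / (2 * √s)) :=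
        mul_le_mul (by linarith) h6 (div_nonneg zero_le_one (rs_nonneg _)) (by positivity)
    _ = 80 / N * exp (-((N : ℝ) * √m / 16)) * (1 / s) := by
        have h6 : √s * √s = s := Real.mul_self_sqrt hs0.le
        have h7 : (N : ℝ) * √s * (2 * √s) = 2 * N * s := by linear_combination (2 * (N : ℝ)) * h6
        have h8 : 10 * (exp (-((N : ℝ) * √m / 16)) * (16 / (N * √s))) * (1 / (2 * √s)) =
            160 * exp (-((N : ℝ) * √m / 16)) / ((N : ℝ) * √s * (2 * √s)) := by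
          field_simp
          norm_num
        rw [h8, h7]
        field_simp
        norm_num

lemma kz_zero_le {m : ℝ} (hm : 0 < m) (hm1 : m ≤ 8) (hN : 1 ≤ (N : ℝ) * √m) :
    kz N 0 m ≤ 11 / (2 * √m) := by
  have hq : 0 < √m := Real.sqrt_pos.2 hm
  have h1 := kz_sub_le (N := N) (s := m) (m := m) hm le_rfl hm1 (n := 0) (Nat.zero_le _) hN
  rw [pow_zero, abs_le] at h1
  have h2 : 1 / rs m ≤ 1 / (2 * √m) := one_div_le_one_div_of_le (by positivity)
    (sqrt_le_rs hm.le)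
  have h3 : exp (-(((N : ℝ) - (0 : ℕ)) * √m / 4)) ≤ 1 := by
    rw [Real.exp_le_one_iff]
    rw [Nat.cast_zero, sub_zero]
    linarith
  have h0 : 0 ≤ 1 / rs m := div_nonneg zero_le_one (rs_nonneg _)
  have h4 : kz N 0 m ≤ 11 * (1 / rs m) := by nlinarith [h1.2]
  refine h4.trans ((mul_le_mul_of_nonneg_left h2 (by norm_num)).trans (le_of_eq ?_))
  ring

/-- **(GR2')** torus versus infinite volume, no logarithm -/
theorem GK_sub_Gi' {m : ℝ} (hm : 0 < m) (hm1 : m ≤ 4) (hN : 1 ≤ (N : ℝ) * √m) {n₁ n₂ : ℕ}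
    (h1 : 2 * n₁ ≤ N) (h2 : 2 * n₂ ≤ N) :
    |GK N m ((n₁ : ZMod N), (n₂ : ZMod N)) - Gi m n₁ n₂| ≤ 600 * exp (-((N : ℝ) * √m / 16)) := by
  have hNp : (0 : ℝ) < N := by exact_mod_cast NeZero.pos N
  have hq : 0 < √m := Real.sqrt_pos.2 hm
  have hE := Real.exp_pos (-((N : ℝ) * √m / 16))
  -- full torus versus half periodic
  have hA : |GK N m ((n₁ : ZMod N), (n₂ : ZMod N)) - Gh2 N m n₁ n₂| ≤
      80 / N * exp (-((N : ℝ) * √m / 16)) * kz N 0 m := by
    rw [GK_eq_GR, GR_eq N N hm (by omega)]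
    unfold Gh2
    have e2 : 80 / N * exp (-((N : ℝ) * √m / 16)) * kz N 0 m =
        (80 / N * exp (-((N : ℝ) * √m / 16)) * (N * kz N 0 m)) / N := by field_simp
    rw [← sub_div, abs_div, abs_of_pos hNp, e2,
      div_le_div_iff_of_pos_right hNp, ← Finset.sum_sub_distrib, ← sum1_zero hm, Finset.mul_sum]
    refine (Finset.abs_sum_le_sum_abs _ _).trans (Finset.sum_le_sum fun l _ => ?_)
    rw [← mul_sub, abs_mul]
    have g1 := TM.H764.cN_le_one l
    have g2 := TM.H764.neg_one_le_cN l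
    have g3 := kz_sub_le' (N := N) (s := m + 2 * (1 - cN l)) (m := m) hm (by linarith)
      (by linarith) h1 hN
    have g4 : |cN (l * (n₂ : ZMod N))| ≤ 1 := Real.abs_cos_le_one _
    calc |cN (l * (n₂ : ZMod N))| * _ ≤ 1 * _ :=
          mul_le_mul g4 g3 (abs_nonneg _) zero_le_one
      _ = _ := one_mul _
  have hB : |Gh2 N m n₁ n₂ - Gi m n₁ n₂| ≤
      80 / N * exp (-((N : ℝ) * √m / 16)) * (1 / rs m) := by
    rw [Gh2_eq hm n₁ (by omega), Gi_symm hm, ← int1 hm]
    unfold Gi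
    have hc1 : Continuous fun θ : ℝ => Real.cos (n₁ * θ) * kz N n₂ (m + 2 * (1 - Real.cos θ)) := by
      refine (Real.continuous_cos.comp (continuous_const.mul continuous_id)).mul ?_
      exact (kz_cont N n₂ hm).comp_continuous Real.continuous_cos
        fun θ => ⟨Real.neg_one_le_cos θ, Real.cos_le_one θ⟩
    have hc2 : Continuous fun θ : ℝ => Real.cos (n₁ * θ) *
        (zz (m + 2 * (1 - Real.cos θ)) ^ n₂ / rs (m + 2 * (1 - Real.cos θ))) := by
      refine (Real.continuous_cos.comp (continuous_const.mul continuous_id)).mul ?_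
      exact (zr_cont n₂ hm).comp_continuous Real.continuous_cos
        fun θ => ⟨Real.neg_one_le_cos θ, Real.cos_le_one θ⟩
    rw [← sub_div, abs_div, abs_of_pos (show 0 < 2 * π by positivity), ← mul_div_assoc,
      div_le_div_iff_of_pos_right (by positivity),
      ← intervalIntegral.integral_sub (hc1.intervalIntegrable _ _) (hc2.intervalIntegrable _ _),
      ← intervalIntegral.integral_const_mul, ← Real.norm_eq_abs]
    refine intervalIntegral.norm_integral_le_of_norm_le (by positivity)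
      (Eventually.of_forall fun θ _ => ?_)
      ((continuous_const.mul (inv_cont hm)).intervalIntegrable _ _)
    rw [← mul_sub, norm_mul, Real.norm_eq_abs, Real.norm_eq_abs]
    have g1 := Real.cos_le_one θ
    have g2 := Real.neg_one_le_cos θ
    have g3 := kz_sub_le' (N := N) (s := m + 2 * (1 - Real.cos θ)) (m := m) hm (by linarith)
      (by linarith) h2 hN
    calc |Real.cos (n₁ * θ)| * _ ≤ 1 * _ :=
          mul_le_mul (Real.abs_cos_le_one _) g3 (abs_nonneg _) zero_le_one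
      _ = _ := one_mul _
  have h3 : 1 / rs m ≤ 1 / (2 * √m) := one_div_le_one_div_of_le (by positivity)
    (sqrt_le_rs hm.le)
  have h4 := kz_zero_le hm (by linarith) hN
  have e1 : GK N m ((n₁ : ZMod N), (n₂ : ZMod N)) - Gi m n₁ n₂ =
      (GK N m ((n₁ : ZMod N), (n₂ : ZMod N)) - Gh2 N m n₁ n₂) +
        (Gh2 N m n₁ n₂ - Gi m n₁ n₂) := by ring
  rw [e1]
  refine (abs_add_le _ _).trans ((add_le_add hA hB).trans ?_)
  have h5 : 80 / N * exp (-((N : ℝ) * √m / 16)) * kz N 0 m +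
      80 / N * exp (-((N : ℝ) * √m / 16)) * (1 / rs m) ≤
      80 / N * exp (-((N : ℝ) * √m / 16)) * (11 / (2 * √m) + 1 / (2 * √m)) := by
    rw [← mul_add]
    exact mul_le_mul_of_nonneg_left (add_le_add h4 h3) (by positivity)
  refine h5.trans ?_
  have h6 : 80 / N * exp (-((N : ℝ) * √m / 16)) * (11 / (2 * √m) + 1 / (2 * √m)) =
      480 / (N * √m) * exp (-((N : ℝ) * √m / 16)) := by
    field_simp
    norm_num
  rw [h6]
  refine mul_le_mul_of_nonneg_right ?_ hE.le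
  rw [div_le_iff₀ (by positivity)]
  linarith

theorem SN_sub_Im' {m : ℝ} (hm : 0 < m) (hm1 : m ≤ 4) (hN : 1 ≤ (N : ℝ) * √m) :
    |SN N m - Im m| ≤ 600 * exp (-((N : ℝ) * √m / 16)) := by
  have h := GK_sub_Gi' (N := N) hm hm1 hN (n₁ := 0) (n₂ := 0) (Nat.zero_le _) (Nat.zero_le _)
  rw [Gi_zero] at h
  rw [SN_eq]
  simpa using h

/-- **(TB1')** -/
theorem TB1' {m m' : ℝ} (hm : 0 < m) (hmm : m ≤ m') (hm1 : m' ≤ 1) (hN : 1 ≤ (N : ℝ) * √m) :
    |SN N m - SN N m' - Real.log (m' / m) / (4 * π)| ≤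
      √m' / 4 + 1200 * exp (-((N : ℝ) * √m / 16)) := by
  have hm' : 0 < m' := hm.trans_le hmm
  have hs : √m ≤ √m' := Real.sqrt_le_sqrt hmm
  have hN' : 1 ≤ (N : ℝ) * √m' :=
    hN.trans (mul_le_mul_of_nonneg_left hs (Nat.cast_nonneg _))
  have h1 := SN_sub_Im' (N := N) hm (by linarith) hN
  have h2 := SN_sub_Im' (N := N) hm' (by linarith) hN'
  have h3 := Im_sub hm hmm hm1
  have h6 : exp (-((N : ℝ) * √m' / 16)) ≤ exp (-((N : ℝ) * √m / 16)) := by
    refine Real.exp_le_exp.2 ?_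
    have := mul_le_mul_of_nonneg_left hs (Nat.cast_nonneg N (α := ℝ))
    linarith
  have e1 : SN N m - SN N m' - Real.log (m' / m) / (4 * π) =
      (SN N m - Im m) - (SN N m' - Im m') + (Im m - Im m' - Real.log (m' / m) / (4 * π)) := by ring
  rw [e1]
  refine (abs_add_le _ _).trans ?_
  have h9 := (abs_sub (SN N m - Im m) (SN N m' - Im m'))
  linarith

/-! ### the constant -/

/-- `Im m = (1/4π) log (1/m) + c₀ + O(√m)` -/
theorem exists_c0 : ∃ c₀ : ℝ, ∀ m : ℝ, 0 < m → m ≤ 1 →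
    |Im m - Real.log (1 / m) / (4 * π) - c₀| ≤ √m / 4 := by
  set Φ : ℝ → ℝ := fun m => Im m - Real.log (1 / m) / (4 * π) with hΦ
  have hd : ∀ m m' : ℝ, 0 < m → m ≤ m' → m' ≤ 1 → |Φ m - Φ m'| ≤ √m' / 4 := by
    intro m m' hm hmm hm1
    have hm' : 0 < m' := hm.trans_le hmm
    have h := Im_sub hm hmm hm1
    have e : Φ m - Φ m' = Im m - Im m' - Real.log (m' / m) / (4 * π) := by
      simp only [hΦ]
      rw [Real.log_div hm'.ne' hm.ne', one_div, one_div, Real.log_inv, Real.log_inv]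
      ring
    rw [e]
    exact h
  -- the sequence `m = 4 ^ (-n)`
  have hm0 : ∀ n : ℕ, 0 < ((1 / 4 : ℝ)) ^ n := fun n => by positivity
  have hm1 : ∀ n : ℕ, ((1 / 4 : ℝ)) ^ n ≤ 1 := fun n => pow_le_one₀ (by norm_num) (by norm_num)
  have hsq : ∀ n : ℕ, √((1 / 4 : ℝ) ^ n) = (1 / 2 : ℝ) ^ n := by
    intro n
    rw [show ((1 / 4 : ℝ)) ^ n = ((1 / 2 : ℝ) ^ n) ^ 2 by
      rw [← pow_mul, mul_comm, pow_mul]; norm_num, Real.sqrt_sq (by positivity)]
  have hC : CauchySeq fun n : ℕ => Φ ((1 / 4 : ℝ) ^ n) := by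
    refine cauchySeq_of_le_geometric (1 / 2) (1 / 4) (by norm_num) fun n => ?_
    rw [dist_comm, Real.dist_eq]
    refine (hd _ _ (hm0 (n + 1)) ?_ (hm1 n)).trans ?_
    · rw [pow_succ]
      have := hm0 n
      linarith
    · rw [hsq]
      linarith
  obtain ⟨c₀, hc⟩ := cauchySeq_tendsto_of_complete hC
  refine ⟨c₀, fun m hm hmle => ?_⟩
  have h1 : Tendsto (fun n : ℕ => |Φ m - Φ ((1 / 4 : ℝ) ^ n)|) atTop (𝓝 |Φ m - c₀|) :=
    (tendsto_const_nhds.sub hc).abs
  refine le_of_tendsto h1 ?_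
  have h2 : Tendsto (fun n : ℕ => ((1 / 4 : ℝ)) ^ n) atTop (𝓝 0) :=
    tendsto_pow_atTop_nhds_zero_of_lt_one (by norm_num) (by norm_num)
  filter_upwards [h2.eventually_le_const hm] with n hn
  rw [abs_sub_comm]
  exact hd _ _ (hm0 n) hn hmle

end

end Vale.Agent.P159.H474
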