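import Vale.Agent.P159.H474.Green4

/-!
P159, module GREEN (helper474), file 5: one step of the massive potential kernel
`Im m - Gi m n₁ n₂`, uniformly in the mass.

`D1_main`: `|Gi m n 0 - Gi m (n+1) 0 - 1/(2π(n+1))| ≤ C (1/(n+1)² + √m)`.
`D2_main`: `|Gi m n l - Gi m n (l+1) - (1/2π) (l+1/2)/(n²+(l+1/2)²)| ≤ C (1/n² + √m)`, `l ≤ n`.
-/

namespace Vale.Agent.P159.H474

open Finset Real Filter Topology

noncomputable section

/-- `ε(θ) = 2 (1 - cos θ)` -/
def ep (θ : ℝ) : ℝ := 2 * (1 - Real.cos θ)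

lemma ep_nonneg (θ : ℝ) : 0 ≤ ep θ := by
  unfold ep; linarith [Real.cos_le_one θ]

lemma ep_le (θ : ℝ) : ep θ ≤ 4 := by
  unfold ep; linarith [Real.neg_one_le_cos θ]

lemma ep_eq (θ : ℝ) : ep θ = (2 * Real.sin (θ / 2)) ^ 2 := by
  unfold ep
  rw [two_sub_cos]
  ring

lemma continuous_ep : Continuous ep := by unfold ep; fun_prop

lemma sqrt_ep {θ : ℝ} (h0 : 0 ≤ θ) (h1 : θ ≤ π) : √(ep θ) = 2 * Real.sin (θ / 2) := by
  rw [ep_eq, Real.sqrt_sq]
  have := Real.sin_nonneg_of_nonneg_of_le_pi (x := θ / 2) (by linarith) (by linarith [Real.pi_pos])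
  linarith

lemma sqrt_ep_le {θ : ℝ} (h0 : 0 ≤ θ) (h1 : θ ≤ π) : √(ep θ) ≤ θ := by
  rw [sqrt_ep h0 h1]
  have := Real.sin_le (x := θ / 2) (by linarith)
  linarith

lemma le_sqrt_ep {θ : ℝ} (h0 : 0 ≤ θ) (h1 : θ ≤ π) : 2 * θ / π ≤ √(ep θ) := by
  rw [sqrt_ep h0 h1]
  have := Real.mul_le_sin (x := θ / 2) (by linarith) (by linarith)
  have e : 2 * (2 / π * (θ / 2)) = 2 * θ / π := by field_simp
  linarith

lemma sqrt_ep_ge {θ : ℝ} (h0 : 0 ≤ θ) (h1 : θ ≤ π) : θ - θ ^ 2 / 2 ≤ √(ep θ) := by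
  rcases le_or_gt 2 θ with h | h
  · have : θ - θ ^ 2 / 2 ≤ 0 := by nlinarith
    exact this.trans (Real.sqrt_nonneg _)
  · rw [sqrt_ep h0 h1]
    rcases eq_or_lt_of_le h0 with h2 | h2
    · rw [← h2]; simp
    · have := Real.sin_gt_sub_cube (x := θ / 2) (by linarith)
      nlinarith [mul_pos h2 h2, mul_nonneg (mul_pos h2 h2).le (by linarith : 0 ≤ 2 - θ)]

/-- `1 - √ε ≤ z₀ ≤ 1 - √ε + ε / 2` -/
lemma zz_bounds {s : ℝ} (hs : 0 ≤ s) : 1 - √s ≤ zz s ∧ zz s ≤ 1 - √s + s / 2 := by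
  have h1 := one_sub_zz_le hs
  have h2 := sqrt_le_rs hs
  have h3 := zz_eq hs
  constructor <;> linarith

lemma zz_sub_exp {θ : ℝ} (h0 : 0 ≤ θ) (h1 : θ ≤ π) : |zz (ep θ) - exp (-θ)| ≤ θ ^ 2 := by
  obtain ⟨g1, g2⟩ := zz_bounds (ep_nonneg θ)
  have g3 := sqrt_ep_le h0 h1
  have g4 := sqrt_ep_ge h0 h1
  have g5 : ep θ ≤ θ ^ 2 := by
    have := Real.sq_sqrt (ep_nonneg θ)
    have := Real.sqrt_nonneg (ep θ)
    nlinarith
  have g6 : 1 - θ ≤ exp (-θ) := by
    have := Real.add_one_le_exp (-θ)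
    linarith
  have g7 : exp (-θ) ≤ 1 - θ + θ ^ 2 / 2 := by
    have h3 : 1 + θ + θ ^ 2 / 2 ≤ exp θ := Real.quadratic_le_exp_of_nonneg h0
    rw [Real.exp_neg, inv_le_comm₀ (Real.exp_pos _) (by nlinarith)]
    refine le_trans ?_ h3
    rw [inv_le_comm₀ (by nlinarith) (by positivity), ← one_div, div_le_iff₀ (by positivity)]
    nlinarith [mul_nonneg h0 h0, mul_nonneg (mul_nonneg h0 h0) (mul_nonneg h0 h0)]
  rw [abs_le]
  constructor <;> linarith

/-- `0 ≤ z₀ - z_m ≤ √m` -/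
lemma zz_sub_zz {e m : ℝ} (he : 0 ≤ e) (hm : 0 ≤ m) :
    0 ≤ zz e - zz (m + e) ∧ zz e - zz (m + e) ≤ √m := by
  refine ⟨by linarith [zz_anti he (r := m + e) (by linarith)], ?_⟩
  have hme : 0 ≤ m + e := by linarith
  rw [zz_eq he, zz_eq hme]
  have h1 : rs (m + e) ≤ rs e + m + 2 * √m := by
    have h0 := rs_nonneg e
    have hq := Real.sqrt_nonneg m
    unfold rs at h0 ⊢
    rw [Real.sqrt_le_left (by positivity)]
    have h2 : √(e * (e + 4)) ^ 2 = e * (e + 4) := Real.sq_sqrt (by positivity)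
    have h3 : e ≤ √(e * (e + 4)) := by
      rw [Real.le_sqrt he (by positivity)]
      nlinarith
    have h4 : √m ^ 2 = m := Real.sq_sqrt hm
    nlinarith [mul_nonneg h0 hq, mul_nonneg hm hq, mul_le_mul_of_nonneg_left h3 hm]
  linarith

/-- common envelope -/
lemma zz_le_env {θ m : ℝ} (h0 : 0 ≤ θ) (h1 : θ ≤ π) (hm : 0 ≤ m) (hm1 : m ≤ 4) :
    zz (m + ep θ) ≤ exp (-(θ / 8)) := by
  have h2 : zz (m + ep θ) ≤ zz (ep θ) := by linarith [(zz_sub_zz (ep_nonneg θ) hm).1]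
  have h3 := zz_pow_le (ep_nonneg θ) (by linarith [ep_le θ]) 1
  rw [pow_one, Nat.cast_one, one_mul] at h3
  refine h2.trans (h3.trans (Real.exp_le_exp.2 ?_))
  have h4 := le_sqrt_ep h0 h1
  have h5 : θ / 2 ≤ 2 * θ / π := by
    rw [div_le_div_iff₀ (by norm_num) Real.pi_pos]
    nlinarith [Real.pi_le_four]
  linarith

lemma exp_le_env {θ : ℝ} (h0 : 0 ≤ θ) : exp (-θ) ≤ exp (-(θ / 8)) :=
  Real.exp_le_exp.2 (by linarith)

/-- difference of powers -/
lemma pow_sub_pow_le {a b r : ℝ} (ha : 0 ≤ a) (hb : 0 ≤ b) (har : a ≤ r) (hbr : b ≤ r) (k : ℕ) :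
    |a ^ (k + 1) - b ^ (k + 1)| ≤ (k + 1) * |a - b| * r ^ k := by
  have hr : 0 ≤ r := ha.trans har
  induction k with
  | zero => simp
  | succ k ih =>
    have e : a ^ (k + 1 + 1) - b ^ (k + 1 + 1) = a * (a ^ (k + 1) - b ^ (k + 1)) +
        (a - b) * b ^ (k + 1) := by ring
    rw [e]
    refine (abs_add_le _ _).trans ?_
    rw [abs_mul, abs_mul, abs_of_nonneg ha, abs_of_nonneg (pow_nonneg hb _)]
    have h1 : a * |a ^ (k + 1) - b ^ (k + 1)| ≤ r * ((k + 1) * |a - b| * r ^ k) :=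
      mul_le_mul har ih (abs_nonneg _) hr
    have h2 : |a - b| * b ^ (k + 1) ≤ |a - b| * r ^ (k + 1) :=
      mul_le_mul_of_nonneg_left (pow_le_pow_left₀ hb hbr _) (abs_nonneg _)
    refine (add_le_add h1 h2).trans (le_of_eq ?_)
    push_cast
    ring

/-- `|z_m ^ (k+1) - e^{-(k+1)θ}| ≤ (k+1) (√m + θ²) e^{-kθ/8}` -/
lemma zpow_sub_exp {θ m : ℝ} (h0 : 0 ≤ θ) (h1 : θ ≤ π) (hm : 0 ≤ m) (hm1 : m ≤ 4) (k : ℕ) :
    |zz (m + ep θ) ^ (k + 1) - exp (-((k + 1) * θ))| ≤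
      (k + 1) * (√m + θ ^ 2) * exp (-(k * θ / 8)) := by
  have h2 : exp (-((k + 1) * θ)) = exp (-θ) ^ (k + 1) := by
    rw [← Real.exp_nat_mul]
    congr 1
    push_cast
    ring
  have h3 : exp (-(k * θ / 8)) = exp (-(θ / 8)) ^ k := by
    rw [← Real.exp_nat_mul]
    congr 1
    ring
  rw [h2, h3]
  refine (pow_sub_pow_le (zz_pos (by linarith [ep_nonneg θ])).le (Real.exp_pos _).le
    (zz_le_env h0 h1 hm hm1) (exp_le_env h0) k).trans ?_
  refine mul_le_mul_of_nonneg_right (mul_le_mul_of_nonneg_left ?_ (by positivity)) (by positivity)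
  have h4 := zz_sub_exp h0 h1
  obtain ⟨h5, h6⟩ := zz_sub_zz (ep_nonneg θ) hm
  rw [abs_le] at h4 ⊢
  constructor <;> nlinarith [Real.sqrt_nonneg m]

/-- comparison of two masses -/
lemma zpow_sub_zpow {θ m : ℝ} (h0 : 0 ≤ θ) (h1 : θ ≤ π) (hm : 0 ≤ m) (hm1 : m ≤ 4) (k : ℕ) :
    |zz (m + ep θ) ^ (k + 1) - zz (ep θ) ^ (k + 1)| ≤ (k + 1) * √m * exp (-(k * θ / 8)) := by
  have h3 : exp (-(k * θ / 8)) = exp (-(θ / 8)) ^ k := by
    rw [← Real.exp_nat_mul]
    congr 1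
    ring
  rw [h3]
  have hz := zz_le_env h0 h1 le_rfl (m := 0) (by norm_num)
  rw [zero_add] at hz
  refine (pow_sub_pow_le (zz_pos (by linarith [ep_nonneg θ])).le (zz_pos (ep_nonneg θ)).le
    (zz_le_env h0 h1 hm hm1) hz k).trans ?_
  refine mul_le_mul_of_nonneg_right (mul_le_mul_of_nonneg_left ?_ (by positivity)) (by positivity)
  obtain ⟨h5, h6⟩ := zz_sub_zz (ep_nonneg θ) hm
  rw [abs_le]
  constructor <;> linarith [Real.sqrt_nonneg m]

/-! ### elementary integrals -/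

lemma int_exp {κ : ℝ} (hκ : 0 < κ) : ∫ θ in (0 : ℝ)..π, exp (-(κ * θ)) = (1 - exp (-(κ * π))) / κ := by
  have h : ∀ θ ∈ Set.uIcc (0 : ℝ) π, HasDerivAt (fun θ => -(exp (-(κ * θ)) / κ))
      (exp (-(κ * θ))) θ := by
    intro θ _
    have h1 : HasDerivAt (fun θ : ℝ => -(κ * θ)) (-κ) θ := by
      have h2 := ((hasDerivAt_id θ).const_mul (-κ))
      simp only [mul_one, id] at h2
      refine h2.congr_of_eventuallyEq (Eventually.of_forall fun x => ?_)
      show -(κ * x) = -κ * x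
      ring
    refine ((h1.exp).div_const κ).neg.congr_deriv ?_
    field_simp
  rw [intervalIntegral.integral_eq_sub_of_hasDerivAt h
    ((by fun_prop : Continuous fun θ : ℝ => exp (-(κ * θ))).intervalIntegrable _ _)]
  rw [mul_zero, neg_zero, Real.exp_zero]
  ring

lemma int_exp_le {κ : ℝ} (hκ : 0 < κ) : ∫ θ in (0 : ℝ)..π, exp (-(κ * θ)) ≤ 1 / κ := by
  rw [int_exp hκ]
  refine div_le_div_of_nonneg_right ?_ hκ.le
  linarith [Real.exp_pos (-(κ * π))]

/-- `∫ θ ^ j e^{-κθ} ≤ j! (2/κ)^(j+1)` -/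
lemma int_pow_exp_le {κ : ℝ} (hκ : 0 < κ) (j : ℕ) :
    ∫ θ in (0 : ℝ)..π, θ ^ j * exp (-(κ * θ)) ≤ (j.factorial : ℝ) * (2 / κ) ^ (j + 1) := by
  have h1 : ∫ θ in (0 : ℝ)..π, θ ^ j * exp (-(κ * θ)) ≤
      ∫ θ in (0 : ℝ)..π, ((j.factorial : ℝ) * (2 / κ) ^ j) * exp (-(κ / 2 * θ)) := by
    refine intervalIntegral.integral_mono_on Real.pi_pos.le
      ((by fun_prop : Continuous fun θ : ℝ => θ ^ j * exp (-(κ * θ))).intervalIntegrable _ _)
      ((by fun_prop : Continuous fun θ : ℝ => ((j.factorial : ℝ) * (2 / κ) ^ j) *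
        exp (-(κ / 2 * θ))).intervalIntegrable _ _) fun θ hθ => ?_
    have h2 := Real.pow_div_factorial_le_exp (x := κ / 2 * θ) (by nlinarith [hθ.1]) j
    have h3 : exp (-(κ * θ)) = exp (-(κ / 2 * θ)) * exp (-(κ / 2 * θ)) := by
      rw [← Real.exp_add]; congr 1; ring
    rw [h3, ← mul_assoc]
    refine mul_le_mul_of_nonneg_right ?_ (Real.exp_pos _).le
    have h4 : exp (κ / 2 * θ) * exp (-(κ / 2 * θ)) = 1 := by
      rw [← Real.exp_add]; simp
    have hf : (0 : ℝ) < j.factorial := by exact_mod_cast Nat.factorial_pos j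
    have h5 : θ ^ j = (2 / κ) ^ j * (κ / 2 * θ) ^ j := by
      rw [← mul_pow]; congr 1; field_simp
    rw [div_le_iff₀ hf] at h2
    calc θ ^ j * exp (-(κ / 2 * θ)) = (2 / κ) ^ j * ((κ / 2 * θ) ^ j * exp (-(κ / 2 * θ))) := by
          rw [h5]; ring
      _ ≤ (2 / κ) ^ j * ((exp (κ / 2 * θ) * j.factorial) * exp (-(κ / 2 * θ))) :=
          mul_le_mul_of_nonneg_left (mul_le_mul_of_nonneg_right h2 (Real.exp_pos _).le)
            (by positivity)
      _ = (j.factorial : ℝ) * (2 / κ) ^ j := by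
          rw [mul_assoc (exp _), mul_comm (j.factorial : ℝ), ← mul_assoc (exp _), h4]
          ring
  refine h1.trans ?_
  rw [intervalIntegral.integral_const_mul]
  have h2 := int_exp_le (κ := κ / 2) (by positivity)
  calc ((j.factorial : ℝ) * (2 / κ) ^ j) * ∫ θ in (0 : ℝ)..π, exp (-(κ / 2 * θ)) ≤
        ((j.factorial : ℝ) * (2 / κ) ^ j) * (1 / (κ / 2)) :=
        mul_le_mul_of_nonneg_left h2 (by positivity)
    _ = (j.factorial : ℝ) * (2 / κ) ^ (j + 1) := by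
        rw [pow_succ]
        field_simp

lemma half_int {f : ℝ → ℝ} (hf : Continuous f) (hs : ∀ θ, f (2 * π - θ) = f θ) :
    (∫ θ in (0 : ℝ)..(2 * π), f θ) / (2 * π) = (∫ θ in (0 : ℝ)..π, f θ) / π := by
  have h1 : ∫ θ in (0 : ℝ)..(2 * π), f θ = (∫ θ in (0 : ℝ)..π, f θ) + ∫ θ in π..(2 * π), f θ :=
    (intervalIntegral.integral_add_adjacent_intervals (hf.intervalIntegrable _ _)
      (hf.intervalIntegrable _ _)).symm
  have h2 : ∫ θ in π..(2 * π), f θ = ∫ θ in (0 : ℝ)..π, f θ := by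
    have h3 := intervalIntegral.integral_comp_sub_left (a := 0) (b := π) f (2 * π)
    rw [show 2 * π - π = π by ring, sub_zero] at h3
    rw [← h3]
    exact intervalIntegral.integral_congr fun θ _ => hs θ
  rw [h1, h2]
  have := Real.pi_pos
  field_simp
  ring

lemma Gi_cont {m : ℝ} (hm : 0 < m) (n₁ n₂ : ℕ) : Continuous fun θ : ℝ =>
    Real.cos (n₂ * θ) * (zz (m + ep θ) ^ n₁ / rs (m + ep θ)) := by
  refine (Real.continuous_cos.comp (continuous_const.mul continuous_id)).mul ?_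
  refine ((continuous_zz.comp (continuous_const.add continuous_ep)).pow _).div
    (continuous_rs.comp (continuous_const.add continuous_ep)) fun θ => ?_
  exact (rs_pos (by linarith [ep_nonneg θ])).ne'

lemma Gi_half {m : ℝ} (hm : 0 < m) (n₁ n₂ : ℕ) : Gi m n₁ n₂ =
    (∫ θ in (0 : ℝ)..π, Real.cos (n₂ * θ) * (zz (m + ep θ) ^ n₁ / rs (m + ep θ))) / π := by
  rw [← half_int (Gi_cont hm n₁ n₂)]
  · rfl
  · intro θ
    have h1 : Real.cos (n₂ * (2 * π - θ)) = Real.cos (n₂ * θ) := by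
      have : (n₂ : ℝ) * (2 * π - θ) = n₂ * (2 * π) - n₂ * θ := by ring
      rw [this, Real.cos_nat_mul_two_pi_sub]
    have h2 : ep (2 * π - θ) = ep θ := by
      unfold ep
      rw [Real.cos_two_pi_sub]
    rw [h1, h2]

/-! ### the first increment -/

/-- the increment along the axis -/
def D1 (m : ℝ) (n : ℕ) : ℝ :=
  (∫ θ in (0 : ℝ)..π, zz (m + ep θ) ^ (n + 1) / (1 + zz (m + ep θ))) / π

lemma D1_cont {m : ℝ} (hm : 0 ≤ m) (n : ℕ) :
    Continuous fun θ : ℝ => zz (m + ep θ) ^ (n + 1) / (1 + zz (m + ep θ)) := by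
  have hz : Continuous fun θ : ℝ => zz (m + ep θ) :=
    continuous_zz.comp (continuous_const.add continuous_ep)
  refine (hz.pow _).div (continuous_const.add hz) fun θ => ?_
  have := zz_pos (s := m + ep θ) (by linarith [ep_nonneg θ])
  positivity

lemma Gi_D1 {m : ℝ} (hm : 0 < m) (n : ℕ) : Gi m n 0 - Gi m (n + 1) 0 = D1 m n := by
  rw [Gi_half hm, Gi_half hm, ← sub_div, ← intervalIntegral.integral_sub
    ((Gi_cont hm _ _).intervalIntegrable _ _) ((Gi_cont hm _ _).intervalIntegrable _ _)]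
  unfold D1
  congr 1
  refine intervalIntegral.integral_congr fun θ _ => ?_
  have hs : 0 < m + ep θ := by linarith [ep_nonneg θ]
  have hz := zz_pos hs.le
  have hz1 := zz_lt_one hs
  simp only [Nat.cast_zero, zero_mul, Real.cos_zero, one_mul]
  rw [← zz_inv_sub hs.le]
  have h1 : (zz (m + ep θ))⁻¹ - zz (m + ep θ) =
      (1 - zz (m + ep θ)) * (1 + zz (m + ep θ)) / zz (m + ep θ) := by
    field_simp
    ring
  have h2 : 1 - zz (m + ep θ) ≠ 0 := by linarith
  rw [h1]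
  field_simp
  ring

/-- **first increment, main term** -/
theorem D1_main {m : ℝ} (hm : 0 ≤ m) (hm1 : m ≤ 1) (n : ℕ) :
    |D1 m n - 1 / (2 * π * (n + 1))| ≤ 6000 / (n + 1) ^ 2 + 20 * √m := by
  have hpi := Real.pi_pos
  have hq := Real.sqrt_nonneg m
  have hk : (0 : ℝ) < n + 1 := by positivity
  -- pointwise bound
  have hpt : ∀ θ ∈ Set.Icc (0 : ℝ) π,
      |zz (m + ep θ) ^ (n + 1) / (1 + zz (m + ep θ)) - exp (-((n + 1) * θ)) / 2| ≤
      (2 * (n + 1) + 1) * √m * exp (-((n + 1) / 8 * θ)) +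
        (2 * (n + 1)) * (θ ^ 2 * exp (-((n + 1) / 8 * θ))) +
          1 * (θ ^ 1 * exp (-((n + 1) / 8 * θ))) := by
    intro θ hθ
    have hs : 0 ≤ m + ep θ := by linarith [ep_nonneg θ]
    have hz := zz_pos hs
    have hz1 := zz_le_one hs
    set z := zz (m + ep θ) with hzdef
    set E := exp (-((n + 1) * θ)) with hE
    have hE0 : 0 < E := Real.exp_pos _
    have h1 := zpow_sub_exp hθ.1 hθ.2 hm (by linarith) n
    rw [← hzdef, ← hE] at h1
    have e1 : z ^ (n + 1) / (1 + z) - E / 2 = (z ^ (n + 1) - E) / (1 + z) +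
        E * ((1 - z) / (2 * (1 + z))) := by
      field_simp
      ring
    rw [e1]
    have h2 : |(z ^ (n + 1) - E) / (1 + z)| ≤ |z ^ (n + 1) - E| := by
      rw [abs_div, abs_of_pos (show 0 < 1 + z by linarith)]
      exact div_le_self (abs_nonneg _) (by linarith)
    have h3 : |E * ((1 - z) / (2 * (1 + z)))| ≤ E * (√m + θ) := by
      rw [abs_of_nonneg (mul_nonneg hE0.le (div_nonneg (by linarith) (by linarith)))]
      refine mul_le_mul_of_nonneg_left ?_ hE0.le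
      have h4 : 1 - z ≤ √m + θ := by
        have g1 := one_sub_zz_le (ep_nonneg θ)
        have g2 := (zz_sub_zz (ep_nonneg θ) hm).2
        have g3 := sqrt_ep_le hθ.1 hθ.2
        rw [← hzdef] at g2
        linarith
      rw [div_le_iff₀ (by linarith)]
      have : 0 ≤ √m + θ := by linarith [hθ.1]
      nlinarith
    have h5 : exp (-(n * θ / 8)) ≤ 2 * exp (-((n + 1) / 8 * θ)) := by
      have h6 : exp (-(n * θ / 8)) = exp (θ / 8) * exp (-((n + 1) / 8 * θ)) := by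
        rw [← Real.exp_add]
        congr 1
        ring
      rw [h6]
      refine mul_le_mul_of_nonneg_right ?_ (Real.exp_pos _).le
      have h7 : θ / 8 ≤ 1 / 2 := by linarith [hθ.2, Real.pi_le_four]
      have h8 : exp (θ / 8) ≤ exp (1 / 2) := Real.exp_le_exp.2 h7
      have h9 : exp (1 / 2 : ℝ) ≤ 2 := by
        have h10 : exp (1 / 2 : ℝ) * exp (1 / 2 : ℝ) = exp 1 := by
          rw [← Real.exp_add]; norm_num
        have h11 := Real.exp_one_lt_d9
        nlinarith [Real.exp_pos (1 / 2 : ℝ)]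
      linarith
    have h6 : E ≤ exp (-((n + 1) / 8 * θ)) := by
      refine Real.exp_le_exp.2 ?_
      have : 0 ≤ (n + 1) * θ := mul_nonneg hk.le hθ.1
      linarith
    refine (abs_add_le _ _).trans ((add_le_add (h2.trans h1) h3).trans ?_)
    have hX : 0 ≤ exp (-((n + 1) / 8 * θ)) := (Real.exp_pos _).le
    have h7 : (n + 1) * (√m + θ ^ 2) * exp (-(n * θ / 8)) ≤
        (n + 1) * (√m + θ ^ 2) * (2 * exp (-((n + 1) / 8 * θ))) :=
      mul_le_mul_of_nonneg_left h5 (by positivity)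
    have h8 : E * (√m + θ) ≤ exp (-((n + 1) / 8 * θ)) * (√m + θ) :=
      mul_le_mul_of_nonneg_right h6 (by linarith [hθ.1])
    nlinarith
  -- integrate
  have hmain : |∫ θ in (0 : ℝ)..π, (zz (m + ep θ) ^ (n + 1) / (1 + zz (m + ep θ)) -
      exp (-((n + 1) * θ)) / 2)| ≤ (2 * (n + 1) + 1) * √m * (16 / (n + 1)) +
        (2 * (n + 1)) * (2 * (16 / (n + 1)) ^ 3) + 1 * (1 * (16 / (n + 1)) ^ 2) := by
    have hc1 := D1_cont hm n
    have hc2 : Continuous fun θ : ℝ => exp (-((n + 1) * θ)) / 2 := by fun_prop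
    rw [← Real.norm_eq_abs]
    refine (intervalIntegral.norm_integral_le_of_norm_le hpi.le
      (g := fun θ : ℝ => (2 * (n + 1) + 1) * √m * exp (-((n + 1) / 8 * θ)) +
        (2 * (n + 1)) * (θ ^ 2 * exp (-((n + 1) / 8 * θ))) +
          1 * (θ ^ 1 * exp (-((n + 1) / 8 * θ))))
      (Eventually.of_forall fun θ hθ => ?_)
      ((by fun_prop : Continuous _).intervalIntegrable _ _)).trans ?_
    · rw [Real.norm_eq_abs]
      exact hpt θ ⟨hθ.1.le, hθ.2⟩
    · rw [intervalIntegral.integral_add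
          ((by fun_prop : Continuous _).intervalIntegrable _ _)
          ((by fun_prop : Continuous _).intervalIntegrable _ _),
        intervalIntegral.integral_add
          ((by fun_prop : Continuous _).intervalIntegrable _ _)
          ((by fun_prop : Continuous _).intervalIntegrable _ _),
        intervalIntegral.integral_const_mul, intervalIntegral.integral_const_mul,
        intervalIntegral.integral_const_mul]
      have hκ : (0 : ℝ) < (n + 1) / 8 := by positivity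
      have i0 := int_exp_le hκ
      have i1 := int_pow_exp_le hκ 1
      have i2 := int_pow_exp_le hκ 2
      have e0 : 1 / (((n : ℝ) + 1) / 8) ≤ 16 / (n + 1) := by
        rw [one_div, inv_div]
        exact div_le_div_of_nonneg_right (by norm_num) hk.le
      have e1 : 2 / (((n : ℝ) + 1) / 8) = 16 / (n + 1) := by
        field_simp
        norm_num
      rw [e1] at i1 i2
      have f1 : ((Nat.factorial 1 : ℕ) : ℝ) = 1 := by norm_num [Nat.factorial]
      have f2 : ((Nat.factorial 2 : ℕ) : ℝ) = 2 := by norm_num [Nat.factorial]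
      rw [f1] at i1
      rw [f2] at i2
      refine add_le_add (add_le_add ?_ ?_) ?_
      · exact mul_le_mul_of_nonneg_left (i0.trans e0) (by positivity)
      · exact mul_le_mul_of_nonneg_left i2 (by positivity)
      · exact mul_le_mul_of_nonneg_left i1 (by positivity)
  -- the explicit part
  have hexp : (∫ θ in (0 : ℝ)..π, exp (-((n + 1) * θ)) / 2) =
      (1 - exp (-((n + 1) * π))) / (2 * (n + 1)) := by
    rw [intervalIntegral.integral_div, int_exp hk]
    field_simp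
  have hsplit : D1 m n - 1 / (2 * π * (n + 1)) =
      (∫ θ in (0 : ℝ)..π, (zz (m + ep θ) ^ (n + 1) / (1 + zz (m + ep θ)) -
      exp (-((n + 1) * θ)) / 2)) / π - exp (-((n + 1) * π)) / (2 * π * (n + 1)) := by
    unfold D1
    rw [intervalIntegral.integral_sub ((D1_cont hm n).intervalIntegrable _ _)
      ((by fun_prop : Continuous fun θ : ℝ => exp (-((n + 1) * θ)) / 2).intervalIntegrable _ _),
      hexp]
    field_simp
    ring
  rw [hsplit]
  have hr : |exp (-((n + 1) * π)) / (2 * π * (n + 1))| ≤ 1 / (n + 1) ^ 2 := by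
    rw [abs_of_pos (by positivity)]
    have h1 : exp (-((n + 1) * π)) ≤ 1 / ((n + 1) * π) := by
      rw [Real.exp_neg, ← one_div]
      refine one_div_le_one_div_of_le (by positivity) ?_
      have := Real.add_one_le_exp ((n + 1) * π)
      linarith
    rw [div_le_div_iff₀ (by positivity) (by positivity)]
    have h2 : exp (-((n + 1) * π)) * (n + 1) ^ 2 ≤ 1 / ((n + 1) * π) * (n + 1) ^ 2 :=
      mul_le_mul_of_nonneg_right h1 (by positivity)
    refine h2.trans ?_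
    have h3 : 1 / ((n + 1) * π) * (n + 1) ^ 2 = (n + 1) / π := by
      field_simp
    rw [h3, div_le_iff₀ hpi]
    nlinarith [Real.pi_gt_three, mul_pos hk hpi]
  refine (abs_sub _ _).trans ?_
  have h1 : |(∫ θ in (0 : ℝ)..π, (zz (m + ep θ) ^ (n + 1) / (1 + zz (m + ep θ)) -
      exp (-((n + 1) * θ)) / 2)) / π| ≤ ((2 * (n + 1) + 1) * √m * (16 / (n + 1)) +
        (2 * (n + 1)) * (2 * (16 / (n + 1)) ^ 3) + 1 * (1 * (16 / (n + 1)) ^ 2)) / 3 := by
    rw [abs_div, abs_of_pos hpi]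
    exact div_le_div₀ (by positivity) hmain (by norm_num) Real.pi_gt_three.le
  refine (add_le_add h1 hr).trans ?_
  have h2 : (2 * ((n : ℝ) + 1) + 1) * √m * (16 / (n + 1)) ≤ 60 * √m := by
    have : (2 * ((n : ℝ) + 1) + 1) * (16 / (n + 1)) ≤ 60 := by
      rw [mul_div_assoc', div_le_iff₀ hk]
      have : (0 : ℝ) ≤ n := Nat.cast_nonneg n
      nlinarith
    nlinarith
  have h3 : (2 * ((n : ℝ) + 1)) * (2 * (16 / (n + 1)) ^ 3) = 16384 / (n + 1) ^ 2 := by
    field_simp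
    norm_num
  have h4 : (1 : ℝ) * (1 * (16 / ((n : ℝ) + 1)) ^ 2) = 256 / (n + 1) ^ 2 := by
    rw [div_pow]
    norm_num
  rw [h3, h4]
  have h5 : (0 : ℝ) < 1 / ((n : ℝ) + 1) ^ 2 := by positivity
  have e5 : ∀ c : ℝ, c / ((n : ℝ) + 1) ^ 2 = c * (1 / (n + 1) ^ 2) := fun c => by ring
  rw [e5 16384, e5 256, e5 6000]
  linarith

end

end Vale.Agent.P159.H474
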