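import Vale.Agent.P159.H474.Green5

/-!
P159, module GREEN (helper474), file 6: the second increment, and the potential kernel.

`PK`: there are `c_a, C` with
`|Im m - Gi m n L - (1/4π) log (n² + L²) - c_a| ≤ C (1/n + n √m)` for `1 ≤ n`, `L ≤ n`, `0 < m ≤ 1`.
-/

namespace Vale.Agent.P159.H474

open Finset Real Filter Topology

noncomputable section

lemma exp_half_le : exp (1 / 2 : ℝ) ≤ 2 := by
  have h10 : exp (1 / 2 : ℝ) * exp (1 / 2 : ℝ) = exp 1 := by
    rw [← Real.exp_add]; norm_num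
  have h11 := Real.exp_one_lt_d9
  nlinarith [Real.exp_pos (1 / 2 : ℝ)]

lemma exp_shift_le {θ : ℝ} (hθ : θ ≤ π) (k : ℕ) :
    exp (-(k * θ / 8)) ≤ 2 * exp (-(((k : ℝ) + 1) / 8 * θ)) := by
  have h6 : exp (-(k * θ / 8)) = exp (θ / 8) * exp (-(((k : ℝ) + 1) / 8 * θ)) := by
    rw [← Real.exp_add]
    congr 1
    ring
  rw [h6]
  refine mul_le_mul_of_nonneg_right ?_ (Real.exp_pos _).le
  have h7 : θ / 8 ≤ 1 / 2 := by linarith [Real.pi_le_four]
  exact (Real.exp_le_exp.2 h7).trans exp_half_le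

lemma int_exp_le' (k : ℕ) :
    ∫ θ in (0 : ℝ)..π, exp (-(((k : ℝ) + 1) / 8 * θ)) ≤ 8 / (k + 1) := by
  have h := int_exp_le (κ := ((k : ℝ) + 1) / 8) (by positivity)
  refine h.trans (le_of_eq ?_)
  rw [one_div, inv_div]

lemma int_pow1_le' (k : ℕ) :
    ∫ θ in (0 : ℝ)..π, θ * exp (-(((k : ℝ) + 1) / 8 * θ)) ≤ 256 / (k + 1) ^ 2 := by
  have h := int_pow_exp_le (κ := ((k : ℝ) + 1) / 8) (by positivity) 1
  simp only [pow_one] at h
  refine h.trans (le_of_eq ?_)
  have f1 : ((Nat.factorial 1 : ℕ) : ℝ) = 1 := by norm_num [Nat.factorial]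
  have e : 2 / (((k : ℝ) + 1) / 8) = 16 / (k + 1) := by
    field_simp
    norm_num
  rw [f1, e, div_pow]
  norm_num

lemma int_pow2_le' (k : ℕ) :
    ∫ θ in (0 : ℝ)..π, θ ^ 2 * exp (-(((k : ℝ) + 1) / 8 * θ)) ≤ 8192 / (k + 1) ^ 3 := by
  have h := int_pow_exp_le (κ := ((k : ℝ) + 1) / 8) (by positivity) 2
  refine h.trans (le_of_eq ?_)
  have f1 : ((Nat.factorial 2 : ℕ) : ℝ) = 2 := by norm_num [Nat.factorial]
  have e : 2 / (((k : ℝ) + 1) / 8) = 16 / (k + 1) := by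
    field_simp
    norm_num
  rw [f1, e, div_pow]
  field_simp
  ring

/-- **first increment, dependence on the mass** -/
theorem D1_mass {m : ℝ} (hm : 0 ≤ m) (hm1 : m ≤ 1) (n : ℕ) : |D1 m n - D1 0 n| ≤ 16 * √m := by
  have hpi := Real.pi_pos
  have hq := Real.sqrt_nonneg m
  have hk : (0 : ℝ) < (n : ℝ) + 1 := by positivity
  have hpt : ∀ θ ∈ Set.Icc (0 : ℝ) π,
      |zz (m + ep θ) ^ (n + 1) / (1 + zz (m + ep θ)) -
        zz (0 + ep θ) ^ (n + 1) / (1 + zz (0 + ep θ))| ≤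
      (4 * (n + 1)) * √m * exp (-(((n : ℝ) + 1) / 8 * θ)) := by
    intro θ hθ
    rw [zero_add]
    have hs : 0 ≤ m + ep θ := by linarith [ep_nonneg θ]
    have hz := zz_pos hs
    have hz0 := zz_pos (ep_nonneg θ)
    have h1 := zpow_sub_zpow hθ.1 hθ.2 hm (by linarith) n
    have h2 := zz_sub_zz (ep_nonneg θ) hm
    have h4 : zz (ep θ) ^ (n + 1) ≤ exp (-(n * θ / 8)) := by
      have g1 := zz_le_env hθ.1 hθ.2 le_rfl (m := 0) (by norm_num)
      rw [zero_add] at g1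
      calc zz (ep θ) ^ (n + 1) = zz (ep θ) ^ n * zz (ep θ) := pow_succ _ _
        _ ≤ exp (-(θ / 8)) ^ n * 1 := mul_le_mul (pow_le_pow_left₀ hz0.le g1 n)
            (zz_le_one (ep_nonneg θ)) hz0.le (by positivity)
        _ = exp (-(n * θ / 8)) := by
            rw [mul_one, ← Real.exp_nat_mul]
            congr 1
            ring
    set z := zz (m + ep θ) with hzdef
    set y := zz (ep θ) with hydef
    have e1 : z ^ (n + 1) / (1 + z) - y ^ (n + 1) / (1 + y) =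
        (z ^ (n + 1) - y ^ (n + 1)) / (1 + z) + y ^ (n + 1) * ((y - z) / ((1 + z) * (1 + y))) := by
      field_simp
      ring
    rw [e1]
    have g1 : |(z ^ (n + 1) - y ^ (n + 1)) / (1 + z)| ≤ (n + 1) * √m * exp (-(n * θ / 8)) := by
      rw [abs_div, abs_of_pos (show 0 < 1 + z by linarith)]
      exact (div_le_self (abs_nonneg _) (by linarith)).trans h1
    have g2 : |y ^ (n + 1) * ((y - z) / ((1 + z) * (1 + y)))| ≤ exp (-(n * θ / 8)) * √m := by
      rw [abs_of_nonneg (mul_nonneg (by positivity) (div_nonneg h2.1 (by positivity)))]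
      refine mul_le_mul h4 ?_ (div_nonneg h2.1 (by positivity)) (Real.exp_pos _).le
      refine (div_le_self h2.1 ?_).trans h2.2
      nlinarith [mul_pos hz hz0]
    have g3 := exp_shift_le hθ.2 n
    refine (abs_add_le _ _).trans ((add_le_add g1 g2).trans ?_)
    have hX := (Real.exp_pos (-(((n : ℝ) + 1) / 8 * θ))).le
    have hn0 : (0 : ℝ) ≤ n := Nat.cast_nonneg n
    calc (n + 1) * √m * exp (-(n * θ / 8)) + exp (-(n * θ / 8)) * √m =
          (n + 2) * √m * exp (-(n * θ / 8)) := by ring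
      _ ≤ (2 * (n + 1)) * √m * (2 * exp (-(((n : ℝ) + 1) / 8 * θ))) := by
          refine mul_le_mul ?_ g3 (Real.exp_pos _).le (by positivity)
          exact mul_le_mul_of_nonneg_right (by linarith) hq
      _ = _ := by ring
  unfold D1
  rw [← sub_div, ← intervalIntegral.integral_sub ((D1_cont hm n).intervalIntegrable _ _)
    ((D1_cont le_rfl n).intervalIntegrable _ _), abs_div, abs_of_pos hpi, div_le_iff₀ hpi,
    ← Real.norm_eq_abs]
  refine (intervalIntegral.norm_integral_le_of_norm_le hpi.le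
    (g := fun θ : ℝ => (4 * (n + 1)) * √m * exp (-(((n : ℝ) + 1) / 8 * θ)))
    (Eventually.of_forall fun θ hθ => ?_)
    ((by fun_prop : Continuous _).intervalIntegrable _ _)).trans ?_
  · rw [Real.norm_eq_abs]
    exact hpt θ ⟨hθ.1.le, hθ.2⟩
  · rw [intervalIntegral.integral_const_mul]
    refine (mul_le_mul_of_nonneg_left (int_exp_le' n) (by positivity)).trans ?_
    have : 4 * ((n : ℝ) + 1) * √m * (8 / (n + 1)) = 32 * √m := by
      field_simp
      ring
    rw [this]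
    nlinarith [Real.pi_gt_three]

/-! ### the second increment -/

/-- the weight of the second increment -/
lemma q_bounds {θ m : ℝ} (h0 : 0 ≤ θ) (h1 : θ ≤ π) (hm : 0 < m) :
    0 ≤ 1 / 2 - √(ep θ) / rs (m + ep θ) ∧
      1 / 2 - √(ep θ) / rs (m + ep θ) ≤ m / 2 * (1 / (m + ep θ)) + (√m + θ) / 4 := by
  have he := ep_nonneg θ
  have hs : 0 < m + ep θ := by linarith
  have hr := rs_pos hs
  have hq : 0 < √(m + ep θ) := Real.sqrt_pos.2 hs
  have hqe := Real.sqrt_nonneg (ep θ)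
  have hle : √(ep θ) ≤ √(m + ep θ) := Real.sqrt_le_sqrt (by linarith)
  have hsq := sqrt_le_rs hs.le
  have e1 : 1 / 2 - √(ep θ) / rs (m + ep θ) = (rs (m + ep θ) - 2 * √(ep θ)) /
      (2 * rs (m + ep θ)) := by
    field_simp
  rw [e1]
  refine ⟨div_nonneg (by linarith) (by positivity), ?_⟩
  have hrle : rs (m + ep θ) ≤ 2 * √(m + ep θ) + (m + ep θ) := by
    have := one_sub_zz_le hs.le
    unfold rs
    rw [Real.sqrt_le_left (by positivity)]
    have h2 := Real.sq_sqrt hs.le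
    nlinarith [mul_nonneg hs.le hq.le]
  have hdiff : √(m + ep θ) - √(ep θ) ≤ m / √(m + ep θ) := by
    rw [le_div_iff₀ hq]
    have h2 := Real.sq_sqrt hs.le
    have h3 := Real.sq_sqrt he
    nlinarith
  have hsm : √(m + ep θ) ≤ √m + θ := by
    have h2 := sqrt_ep_le h0 h1
    have h3 : √(m + ep θ) ≤ √m + √(ep θ) := by
      rw [Real.sqrt_le_left (by positivity)]
      have := Real.sq_sqrt hm.le
      have := Real.sq_sqrt he
      nlinarith [mul_nonneg (Real.sqrt_nonneg m) hqe]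
    linarith
  calc (rs (m + ep θ) - 2 * √(ep θ)) / (2 * rs (m + ep θ)) ≤
        (2 * (m / √(m + ep θ)) + (m + ep θ)) / (2 * (2 * √(m + ep θ))) :=
        div_le_div₀ (by positivity) (by linarith) (by positivity) (by linarith)
    _ = m / 2 * (1 / (m + ep θ)) + √(m + ep θ) / 4 := by
        have h2 : √(m + ep θ) * √(m + ep θ) = m + ep θ := Real.mul_self_sqrt hs.le
        have h3 : (m + ep θ) / (2 * (2 * √(m + ep θ))) = √(m + ep θ) / 4 := by
          rw [div_eq_div_iff (by positivity) (by norm_num)]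
          linear_combination -4 * h2
        have h4 : 2 * (m / √(m + ep θ)) / (2 * (2 * √(m + ep θ))) =
            m / 2 * (1 / (m + ep θ)) := by
          have h5 : 2 * (m / √(m + ep θ)) / (2 * (2 * √(m + ep θ))) =
              m / 2 * (1 / (√(m + ep θ) * √(m + ep θ))) := by
            field_simp
          rw [h5, h2]
        rw [add_div, h3, h4]
    _ ≤ _ := by linarith

/-- the second increment as an integral -/
lemma Gi_D2 {m : ℝ} (hm : 0 < m) (n l : ℕ) : Gi m n l - Gi m n (l + 1) =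
    (∫ θ in (0 : ℝ)..π, Real.sin ((l + 1 / 2) * θ) *
      (zz (m + ep θ) ^ n * (√(ep θ) / rs (m + ep θ)))) / π := by
  rw [Gi_half hm, Gi_half hm, ← sub_div, ← intervalIntegral.integral_sub
    ((Gi_cont hm _ _).intervalIntegrable _ _) ((Gi_cont hm _ _).intervalIntegrable _ _)]
  congr 1
  refine intervalIntegral.integral_congr fun θ hθ => ?_
  rw [Set.uIcc_of_le Real.pi_pos.le] at hθ
  rw [sqrt_ep hθ.1 hθ.2]
  have h1 : Real.cos (l * θ) - Real.cos (((l + 1 : ℕ) : ℝ) * θ) =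
      2 * Real.sin ((l + 1 / 2) * θ) * Real.sin (θ / 2) := by
    rw [Real.cos_sub_cos]
    have e1 : ((l : ℝ) * θ + ((l + 1 : ℕ) : ℝ) * θ) / 2 = (l + 1 / 2) * θ := by
      push_cast; ring
    have e2 : ((l : ℝ) * θ - ((l + 1 : ℕ) : ℝ) * θ) / 2 = -(θ / 2) := by
      push_cast; ring
    rw [e1, e2, Real.sin_neg]
    ring
  rw [← sub_mul, h1]
  ring

lemma int_sin_exp {b κ : ℝ} (hκ : 0 < κ) :
    ∫ θ in (0 : ℝ)..π, Real.sin (b * θ) * exp (-(κ * θ)) =
      (b - exp (-(κ * π)) * (b * Real.cos (b * π) + κ * Real.sin (b * π))) / (κ ^ 2 + b ^ 2) := by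
  have hd : (0 : ℝ) < κ ^ 2 + b ^ 2 := by positivity
  have h : ∀ θ ∈ Set.uIcc (0 : ℝ) π, HasDerivAt (fun θ => -(exp (-(κ * θ)) *
      (b * Real.cos (b * θ) + κ * Real.sin (b * θ))) / (κ ^ 2 + b ^ 2))
      (Real.sin (b * θ) * exp (-(κ * θ))) θ := by
    intro θ _
    have h1 : HasDerivAt (fun θ : ℝ => -(κ * θ)) (-κ) θ := by
      have h2 := ((hasDerivAt_id θ).const_mul (-κ))
      simp only [mul_one, id] at h2
      refine h2.congr_of_eventuallyEq (Eventually.of_forall fun x => ?_)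
      show -(κ * x) = -κ * x
      ring
    have h2 : HasDerivAt (fun θ : ℝ => b * θ) b θ := by
      have := (hasDerivAt_id θ).const_mul b
      simpa using this
    have h3 := (h1.exp).mul (((h2.cos).const_mul b).add ((h2.sin).const_mul κ))
    have h4 := (h3.neg).div_const (κ ^ 2 + b ^ 2)
    refine h4.congr_deriv ?_
    simp only [Pi.add_apply]
    field_simp
    ring
  rw [intervalIntegral.integral_eq_sub_of_hasDerivAt h
    ((by fun_prop : Continuous fun θ : ℝ => Real.sin (b * θ) *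
      exp (-(κ * θ))).intervalIntegrable _ _)]
  simp only [mul_zero, neg_zero, Real.exp_zero, Real.cos_zero, Real.sin_zero]
  ring

/-- the integrand of the second increment without the sine -/
def F2 (m : ℝ) (k : ℕ) (θ : ℝ) : ℝ := zz (m + ep θ) ^ (k + 1) * (√(ep θ) / rs (m + ep θ))

lemma F2_cont {m : ℝ} (hm : 0 < m) (k : ℕ) : Continuous (F2 m k) := by
  unfold F2
  have hz : Continuous fun θ : ℝ => zz (m + ep θ) :=
    continuous_zz.comp (continuous_const.add continuous_ep)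
  refine (hz.pow _).mul ((Real.continuous_sqrt.comp continuous_ep).div
    (continuous_rs.comp (continuous_const.add continuous_ep)) fun θ => ?_)
  exact (rs_pos (by linarith [ep_nonneg θ])).ne'

/-- envelope -/
def X2 (k : ℕ) (θ : ℝ) : ℝ := exp (-(((k : ℝ) + 1) / 8 * θ))

lemma X2_cont (k : ℕ) : Continuous (X2 k) := by unfold X2; fun_prop

lemma F2_pt {m θ : ℝ} (hm : 0 < m) (hm1 : m ≤ 1) (k : ℕ) (h0 : 0 ≤ θ) (h1' : θ ≤ π) :
    |F2 m k θ - exp (-((k + 1) * θ)) / 2| ≤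
      ((2 * (k + 1) + 1) * √m) * X2 k θ + (2 * (k + 1)) * (θ ^ 2 * X2 k θ) +
          θ * X2 k θ + m / 2 * (1 / (m + ep θ)) := by
  have hk : (0 : ℝ) < (k : ℝ) + 1 := by positivity
  have hs : 0 < m + ep θ := by linarith [ep_nonneg θ]
  have hz := zz_pos hs.le
  have hz1 := zz_le_one hs.le
  have h1 := zpow_sub_exp h0 h1' hm.le (by linarith) k
  obtain ⟨q0, q1⟩ := q_bounds h0 h1' hm
  have hr := rs_pos hs
  have hqn : 0 ≤ √(ep θ) / rs (m + ep θ) := by positivity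
  unfold F2
  set q := √(ep θ) / rs (m + ep θ) with hqdef
  set z := zz (m + ep θ) with hzdef
  set E := exp (-((k + 1) * θ)) with hE
  have hE0 : 0 < E := Real.exp_pos _
  have e1 : z ^ (k + 1) * q - E / 2 = (z ^ (k + 1) - E) * q - E * (1 / 2 - q) := by ring
  rw [e1]
  have g1 : |(z ^ (k + 1) - E) * q| ≤ (k + 1) * (√m + θ ^ 2) * exp (-(k * θ / 8)) := by
    rw [abs_mul, abs_of_nonneg hqn]
    calc |z ^ (k + 1) - E| * q ≤ |z ^ (k + 1) - E| * 1 :=
          mul_le_mul_of_nonneg_left (by linarith) (abs_nonneg _)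
      _ ≤ _ := by rw [mul_one]; exact h1
  have hX : 0 < X2 k θ := Real.exp_pos _
  have hq := Real.sqrt_nonneg m
  have hkθ : 0 ≤ ((k : ℝ) + 1) * θ := mul_nonneg hk.le h0
  have hE1 : E ≤ 1 := by
    rw [hE, Real.exp_le_one_iff]
    linarith
  have hE2 : E ≤ X2 k θ := Real.exp_le_exp.2 (by linarith)
  have g2 : |E * (1 / 2 - q)| ≤ m / 2 * (1 / (m + ep θ)) + (√m + θ) * X2 k θ := by
    rw [abs_of_nonneg (mul_nonneg hE0.le q0)]
    have hA : 0 ≤ m / 2 * (1 / (m + ep θ)) := by positivity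
    have hB : 0 ≤ (√m + θ) / 4 := by linarith
    have h5 : E * (1 / 2 - q) ≤ E * (m / 2 * (1 / (m + ep θ)) + (√m + θ) / 4) :=
      mul_le_mul_of_nonneg_left q1 hE0.le
    have h6 : E * (m / 2 * (1 / (m + ep θ))) ≤ 1 * (m / 2 * (1 / (m + ep θ))) :=
      mul_le_mul_of_nonneg_right hE1 hA
    have h7 : E * ((√m + θ) / 4) ≤ X2 k θ * ((√m + θ) / 4) := mul_le_mul_of_nonneg_right hE2 hB
    have h8 : 0 ≤ X2 k θ * ((√m + θ) / 4) := mul_nonneg hX.le hB
    linarith
  have g3 : exp (-(k * θ / 8)) ≤ 2 * X2 k θ := exp_shift_le h1' k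
  refine (abs_sub _ _).trans ((add_le_add g1 g2).trans ?_)
  have g4 : (k + 1) * (√m + θ ^ 2) * exp (-(k * θ / 8)) ≤
      (k + 1) * (√m + θ ^ 2) * (2 * X2 k θ) :=
    mul_le_mul_of_nonneg_left g3 (by positivity)
  linarith

lemma int_inv_ep {m : ℝ} (hm : 0 < m) : ∫ θ in (0 : ℝ)..π, 1 / (m + ep θ) = π / rs m := by
  have h1 := int1 hm
  have h2 := half_int (f := fun θ : ℝ => 1 / (m + 2 * (1 - Real.cos θ))) (inv_cont hm)
    (fun θ => by simp only [Real.cos_two_pi_sub])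
  rw [h1] at h2
  have h3 : ∫ θ in (0 : ℝ)..π, 1 / (m + ep θ) =
      ∫ θ in (0 : ℝ)..π, 1 / (m + 2 * (1 - Real.cos θ)) := rfl
  have hpi := Real.pi_pos
  rw [h3]
  rw [eq_div_iff hpi.ne'] at h2
  rw [← h2]
  ring

lemma m_div_rs_le {m : ℝ} (hm : 0 < m) : m / 2 * (π / rs m) ≤ √m := by
  have hpi := Real.pi_pos
  have g1 := sqrt_le_rs hm.le
  have g2 : 0 < √m := Real.sqrt_pos.2 hm
  have g3 : √m * √m = m := Real.mul_self_sqrt hm.le
  have hr := rs_pos hm
  have e : m / 2 * (π / rs m) = (m * π) / (2 * rs m) := by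
    field_simp
  rw [e, div_le_iff₀ (by positivity)]
  have g4 : m * π ≤ 4 * (√m * √m) := by
    rw [g3]
    nlinarith [Real.pi_le_four]
  nlinarith

lemma F2_int {m : ℝ} (hm : 0 < m) (hm1 : m ≤ 1) (k : ℕ) (b : ℝ) :
    |∫ θ in (0 : ℝ)..π, Real.sin (b * θ) * (F2 m k θ - exp (-((k + 1) * θ)) / 2)| ≤
      25 * √m + 16640 * (1 / ((k : ℝ) + 1) ^ 2) := by
  have hpi := Real.pi_pos
  have hk0 : (0 : ℝ) ≤ k := Nat.cast_nonneg k
  have hk : (0 : ℝ) < (k : ℝ) + 1 := by positivity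
  have hq := Real.sqrt_nonneg m
  have hX := X2_cont k
  have c0 : Continuous fun θ : ℝ => ((2 * ((k : ℝ) + 1) + 1) * √m) * X2 k θ := by fun_prop
  have c1 : Continuous fun θ : ℝ => (2 * ((k : ℝ) + 1)) * (θ ^ 2 * X2 k θ) := by fun_prop
  have c2 : Continuous fun θ : ℝ => θ * X2 k θ := by fun_prop
  have c3 : Continuous fun θ : ℝ => m / 2 * (1 / (m + ep θ)) := continuous_const.mul (inv_cont hm)
  have c01 : Continuous fun θ : ℝ => ((2 * ((k : ℝ) + 1) + 1) * √m) * X2 k θ +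
    (2 * ((k : ℝ) + 1)) * (θ ^ 2 * X2 k θ) := by fun_prop
  have c012 : Continuous fun θ : ℝ => ((2 * ((k : ℝ) + 1) + 1) * √m) * X2 k θ +
    (2 * ((k : ℝ) + 1)) * (θ ^ 2 * X2 k θ) + θ * X2 k θ := by fun_prop
  have hb : |∫ θ in (0 : ℝ)..π, Real.sin (b * θ) * (F2 m k θ - exp (-((k + 1) * θ)) / 2)| ≤
      ∫ θ in (0 : ℝ)..π, (((2 * ((k : ℝ) + 1) + 1) * √m) * X2 k θ +
        (2 * ((k : ℝ) + 1)) * (θ ^ 2 * X2 k θ) + θ * X2 k θ + m / 2 * (1 / (m + ep θ))) := by
    rw [← Real.norm_eq_abs]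
    refine intervalIntegral.norm_integral_le_of_norm_le hpi.le
      (Eventually.of_forall fun θ hθ => ?_)
      ((((c0.add c1).add c2).add c3).intervalIntegrable _ _)
    rw [norm_mul, Real.norm_eq_abs, Real.norm_eq_abs]
    refine (mul_le_mul (Real.abs_sin_le_one _) (F2_pt hm hm1 k hθ.1.le hθ.2) (abs_nonneg _)
      zero_le_one).trans (le_of_eq (one_mul _))
  refine hb.trans ?_
  rw [intervalIntegral.integral_add (c012.intervalIntegrable _ _)
      (c3.intervalIntegrable _ _),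
    intervalIntegral.integral_add (c01.intervalIntegrable _ _)
      (c2.intervalIntegrable _ _),
    intervalIntegral.integral_add (c0.intervalIntegrable _ _) (c1.intervalIntegrable _ _),
    intervalIntegral.integral_const_mul, intervalIntegral.integral_const_mul,
    intervalIntegral.integral_const_mul, int_inv_ep hm]
  have i0 : ∫ θ in (0 : ℝ)..π, X2 k θ ≤ 8 / (k + 1) := int_exp_le' k
  have i1 : ∫ θ in (0 : ℝ)..π, θ * X2 k θ ≤ 256 / (k + 1) ^ 2 := int_pow1_le' k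
  have i2 : ∫ θ in (0 : ℝ)..π, θ ^ 2 * X2 k θ ≤ 8192 / (k + 1) ^ 3 := int_pow2_le' k
  have j0 := mul_le_mul_of_nonneg_left i0 (show 0 ≤ (2 * ((k : ℝ) + 1) + 1) * √m by positivity)
  have j2 := mul_le_mul_of_nonneg_left i2 (show 0 ≤ 2 * ((k : ℝ) + 1) by positivity)
  have h2 : (2 * ((k : ℝ) + 1) + 1) * √m * (8 / (k + 1)) ≤ 24 * √m := by
    have : (2 * ((k : ℝ) + 1) + 1) * (8 / (k + 1)) ≤ 24 := by
      rw [mul_div_assoc', div_le_iff₀ hk]
      nlinarith
    nlinarith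
  have h3 : (2 * ((k : ℝ) + 1)) * (8192 / (k + 1) ^ 3) = 16384 * (1 / (k + 1) ^ 2) := by
    field_simp
    norm_num
  have h4 : (256 : ℝ) / ((k : ℝ) + 1) ^ 2 = 256 * (1 / (k + 1) ^ 2) := by ring
  have h5 := m_div_rs_le hm
  linarith

/-- the explicit remainder -/
lemma expl_rem {b : ℝ} {k : ℕ} (hb0 : 0 < b) (hbk : b ≤ k + 3 / 2) :
    |exp (-((k + 1) * π)) * (b * Real.cos (b * π) + (k + 1) * Real.sin (b * π)) /
        (((k : ℝ) + 1) ^ 2 + b ^ 2) / (2 * π)| ≤ 1 / ((k : ℝ) + 1) ^ 2 := by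
  have hpi := Real.pi_pos
  have hk0 : (0 : ℝ) ≤ k := Nat.cast_nonneg k
  have hk : (0 : ℝ) < (k : ℝ) + 1 := by positivity
  rw [abs_div, abs_div, abs_mul, abs_of_pos (Real.exp_pos _),
    abs_of_pos (show 0 < ((k : ℝ) + 1) ^ 2 + b ^ 2 by positivity),
    abs_of_pos (show 0 < 2 * π by positivity)]
  have h1 : |b * Real.cos (b * π) + (k + 1) * Real.sin (b * π)| ≤ 3 * (k + 1) := by
    refine (abs_add_le _ _).trans ?_
    rw [abs_mul, abs_mul, abs_of_pos hb0, abs_of_pos hk]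
    have g1 := Real.abs_cos_le_one (b * π)
    have g2 := Real.abs_sin_le_one (b * π)
    have g3 : b * |Real.cos (b * π)| ≤ b * 1 := mul_le_mul_of_nonneg_left g1 hb0.le
    have g4 : ((k : ℝ) + 1) * |Real.sin (b * π)| ≤ (k + 1) * 1 :=
      mul_le_mul_of_nonneg_left g2 hk.le
    linarith
  have h2 : exp (-(((k : ℝ) + 1) * π)) ≤ 1 / ((k + 1) * π) := by
    rw [Real.exp_neg, ← one_div]
    refine one_div_le_one_div_of_le (by positivity) ?_
    have := Real.add_one_le_exp (((k : ℝ) + 1) * π)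
    linarith
  have h3 : exp (-(((k : ℝ) + 1) * π)) * |b * Real.cos (b * π) + (k + 1) * Real.sin (b * π)| ≤ 1 := by
    calc exp (-(((k : ℝ) + 1) * π)) * |b * Real.cos (b * π) + (k + 1) * Real.sin (b * π)| ≤
          1 / ((k + 1) * π) * (3 * (k + 1)) :=
          mul_le_mul h2 h1 (abs_nonneg _) (by positivity)
      _ = 3 / π := by field_simp
      _ ≤ 1 := by rw [div_le_one hpi]; exact Real.pi_gt_three.le
  have h4 : exp (-(((k : ℝ) + 1) * π)) * |b * Real.cos (b * π) + (k + 1) * Real.sin (b * π)| /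
      ((k + 1) ^ 2 + b ^ 2) ≤ 1 / ((k : ℝ) + 1) ^ 2 :=
    div_le_div₀ zero_le_one h3 (by positivity) (by nlinarith [sq_nonneg b])
  refine (div_le_self (by positivity) ?_).trans h4
  linarith [Real.pi_gt_three]

lemma D2_split {m : ℝ} (hm : 0 < m) (k l : ℕ) {b : ℝ} (hb : b = (l : ℝ) + 1 / 2) :
    Gi m (k + 1) l - Gi m (k + 1) (l + 1) - b / (((k : ℝ) + 1) ^ 2 + b ^ 2) / (2 * π) =
      (∫ θ in (0 : ℝ)..π, Real.sin (b * θ) * (F2 m k θ - exp (-((k + 1) * θ)) / 2)) / π -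
        exp (-((k + 1) * π)) * (b * Real.cos (b * π) + (k + 1) * Real.sin (b * π)) /
        (((k : ℝ) + 1) ^ 2 + b ^ 2) / (2 * π) := by
  have hpi := Real.pi_pos
  have hk : (0 : ℝ) < (k : ℝ) + 1 := by positivity
  have hS : Continuous fun θ : ℝ => Real.sin (b * θ) := by fun_prop
  have hEc : Continuous fun θ : ℝ => exp (-(((k : ℝ) + 1) * θ)) / 2 := by fun_prop
  have hexpl : (∫ θ in (0 : ℝ)..π, Real.sin (b * θ) * (exp (-((k + 1) * θ)) / 2)) =
      (b - exp (-((k + 1) * π)) * (b * Real.cos (b * π) + (k + 1) * Real.sin (b * π))) /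
        ((k + 1) ^ 2 + b ^ 2) / 2 := by
    rw [← int_sin_exp (b := b) hk, ← intervalIntegral.integral_div]
    refine intervalIntegral.integral_congr fun θ _ => ?_
    ring
  have h1 : (∫ θ in (0 : ℝ)..π, Real.sin (b * θ) * (F2 m k θ - exp (-((k + 1) * θ)) / 2)) =
      (∫ θ in (0 : ℝ)..π, Real.sin (b * θ) * F2 m k θ) -
        ∫ θ in (0 : ℝ)..π, Real.sin (b * θ) * (exp (-((k + 1) * θ)) / 2) := by
    have h := intervalIntegral.integral_sub (μ := MeasureTheory.volume) (a := 0) (b := π)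
      (f := fun θ => Real.sin (b * θ) * F2 m k θ)
      (g := fun θ => Real.sin (b * θ) * (exp (-((k + 1) * θ)) / 2))
      ((hS.mul (F2_cont hm k)).intervalIntegrable _ _) ((hS.mul hEc).intervalIntegrable _ _)
    rw [← h]
    refine intervalIntegral.integral_congr fun θ _ => ?_
    ring
  have h2 : Gi m (k + 1) l - Gi m (k + 1) (l + 1) =
      (∫ θ in (0 : ℝ)..π, Real.sin (b * θ) * F2 m k θ) / π := by
    rw [Gi_D2 hm, hb]
    rfl
  rw [h1, hexpl, h2]
  have hd : ((k : ℝ) + 1) ^ 2 + b ^ 2 ≠ 0 := by positivity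
  field_simp
  ring

/-- **second increment, main term** -/
theorem D2_main {m : ℝ} (hm : 0 < m) (hm1 : m ≤ 1) {n l : ℕ} (hn : 1 ≤ n) (hl : l ≤ n) :
    |Gi m n l - Gi m n (l + 1) - (l + 1 / 2) / ((n : ℝ) ^ 2 + (l + 1 / 2) ^ 2) / (2 * π)| ≤
      6000 / (n : ℝ) ^ 2 + 20 * √m := by
  obtain ⟨k, rfl⟩ : ∃ k, n = k + 1 := ⟨n - 1, by omega⟩
  have hpi := Real.pi_pos
  have hq := Real.sqrt_nonneg m
  have hcast : ((k + 1 : ℕ) : ℝ) = (k : ℝ) + 1 := by push_cast; ring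
  have hb0 : (0 : ℝ) < (l : ℝ) + 1 / 2 := by positivity
  have hbk : (l : ℝ) + 1 / 2 ≤ k + 3 / 2 := by
    have : (l : ℝ) ≤ k + 1 := by exact_mod_cast hl
    linarith
  rw [hcast, D2_split hm k l rfl]
  refine (abs_sub _ _).trans ?_
  have h1 : |(∫ θ in (0 : ℝ)..π, Real.sin (((l : ℝ) + 1 / 2) * θ) *
      (F2 m k θ - exp (-((k + 1) * θ)) / 2)) / π| ≤
      (25 * √m + 16640 * (1 / ((k : ℝ) + 1) ^ 2)) / 3 := by
    rw [abs_div, abs_of_pos hpi]
    exact div_le_div₀ (by positivity) (F2_int hm hm1 k _) (by norm_num) Real.pi_gt_three.le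
  refine (add_le_add h1 (expl_rem hb0 hbk)).trans ?_
  have h6 : (0 : ℝ) < 1 / ((k : ℝ) + 1) ^ 2 := by positivity
  have e5 : (6000 : ℝ) / ((k : ℝ) + 1) ^ 2 = 6000 * (1 / (k + 1) ^ 2) := by ring
  rw [e5]
  linarith

end

end Vale.Agent.P159.H474
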