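import Vale.Agent.P159.H474.Green6

/-!
P159, module GREEN (helper474), file 7: the massive potential kernel.

`PK`: there are `c_a, C` with
`|Im m - Gi m n L - (1/4π) log (n² + L²) - c_a| ≤ C (1/n + n √m)` for `1 ≤ n`, `L ≤ n`, `0 < m ≤ 1`.
`GiLog`: `|Gi m n L - (1/4π) log (1/(m (n² + L²))) - c| ≤ C (1/n + n √m)`.
-/

namespace Vale.Agent.P159.H474

open Finset Real Filter Topology

noncomputable section

/-- sequences with increments `≤ C / (n (n+1))` converge with rate `C / n` -/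
lemma conv_rate {s : ℕ → ℝ} {C : ℝ} (hC : 0 ≤ C)
    (h : ∀ n : ℕ, 1 ≤ n → |s (n + 1) - s n| ≤ C * (1 / n - 1 / ((n : ℝ) + 1))) :
    ∃ c : ℝ, ∀ n : ℕ, 1 ≤ n → |s n - c| ≤ C / n := by
  have h1 : ∀ n : ℕ, 1 ≤ n → ∀ j : ℕ, |s (n + j) - s n| ≤ C * (1 / n - 1 / ((n : ℝ) + j)) := by
    intro n hn j
    induction j with
    | zero => simp
    | succ j ih =>
      have e : s (n + (j + 1)) - s n = (s (n + j + 1) - s (n + j)) + (s (n + j) - s n) := by
        rw [← add_assoc]; ring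
      rw [e]
      have h2 := h (n + j) (by omega)
      push_cast at h2 ⊢
      refine (abs_add_le _ _).trans ((add_le_add h2 ih).trans (le_of_eq ?_))
      rw [← mul_add, ← add_assoc]
      ring
  have hb : ∀ n : ℕ, 1 ≤ n → ∀ j : ℕ, |s (n + j) - s n| ≤ C / n := by
    intro n hn j
    refine (h1 n hn j).trans ?_
    rw [div_eq_mul_one_div C]
    refine mul_le_mul_of_nonneg_left ?_ hC
    have : (0 : ℝ) ≤ 1 / ((n : ℝ) + j) := by positivity
    linarith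
  have hcau : CauchySeq s := by
    rw [Metric.cauchySeq_iff']
    intro ε hε
    obtain ⟨n0, hn0⟩ := exists_nat_gt (C / ε)
    refine ⟨n0 + 1, fun n hn => ?_⟩
    obtain ⟨j, rfl⟩ := Nat.exists_eq_add_of_le hn
    rw [Real.dist_eq]
    refine (hb (n0 + 1) (by omega) j).trans_lt ?_
    rw [div_lt_iff₀ (by positivity)]
    rw [div_lt_iff₀ hε] at hn0
    push_cast
    nlinarith
  obtain ⟨c, hc⟩ := cauchySeq_tendsto_of_complete hcau
  refine ⟨c, fun n hn => ?_⟩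
  have h2 : Tendsto (fun j : ℕ => |s (n + j) - s n|) atTop (𝓝 |c - s n|) := by
    have h3 : Tendsto (fun j : ℕ => s (n + j)) atTop (𝓝 c) := by
      have := hc.comp (tendsto_add_atTop_nat n)
      refine this.congr fun j => ?_
      simp only [Function.comp]
      rw [add_comm]
    exact (h3.sub_const _).abs
  rw [abs_sub_comm]
  exact le_of_tendsto h2 (Eventually.of_forall fun j => hb n hn j)

lemma log_step {n : ℕ} (hn : 1 ≤ n) :
    1 / ((n : ℝ) + 1) ≤ Real.log ((n : ℝ) + 1) - Real.log n ∧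
      Real.log ((n : ℝ) + 1) - Real.log n ≤ 1 / n := by
  have hn0 : (0 : ℝ) < n := by exact_mod_cast hn
  constructor
  · have h1 := Real.log_le_sub_one_of_pos (show 0 < (n : ℝ) / (n + 1) by positivity)
    rw [Real.log_div hn0.ne' (by positivity)] at h1
    have h2 : (n : ℝ) / (n + 1) - 1 = -(1 / (n + 1)) := by
      field_simp
      ring
    linarith
  · rw [← Real.log_div (by positivity) hn0.ne']
    have h1 := Real.log_le_sub_one_of_pos (show 0 < ((n : ℝ) + 1) / n by positivity)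
    have h2 : ((n : ℝ) + 1) / n - 1 = 1 / n := by
      field_simp
      ring
    linarith

/-- the massless axis kernel -/
theorem axis0 : ∃ c : ℝ, ∀ n : ℕ, 1 ≤ n →
    |∑ k ∈ range n, D1 0 k - Real.log n / (2 * π) - c| ≤ 13000 / n := by
  have hpi := Real.pi_pos
  refine conv_rate (s := fun n : ℕ => ∑ k ∈ range n, D1 0 k - Real.log n / (2 * π))
    (by norm_num) fun n hn => ?_
  have hn0 : (0 : ℝ) < n := by exact_mod_cast hn
  have hn1 : (1 : ℝ) ≤ n := by exact_mod_cast hn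
  have e : (∑ k ∈ range (n + 1), D1 0 k - Real.log ((n + 1 : ℕ) : ℝ) / (2 * π)) -
      (∑ k ∈ range n, D1 0 k - Real.log (n : ℝ) / (2 * π)) =
      (D1 0 n - 1 / (2 * π * (n + 1))) +
        (1 / ((n : ℝ) + 1) - (Real.log ((n : ℝ) + 1) - Real.log n)) / (2 * π) := by
    rw [Finset.sum_range_succ]
    push_cast
    field_simp
    ring
  rw [e]
  have h1 := D1_main le_rfl zero_le_one n
  rw [Real.sqrt_zero, mul_zero, add_zero] at h1
  obtain ⟨h2, h3⟩ := log_step hn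
  have h4 : |(1 / ((n : ℝ) + 1) - (Real.log ((n : ℝ) + 1) - Real.log n)) / (2 * π)| ≤
      1 / n - 1 / ((n : ℝ) + 1) := by
    rw [abs_div, abs_of_pos (show 0 < 2 * π by positivity)]
    refine (div_le_self (abs_nonneg _) (by linarith [Real.pi_gt_three])).trans ?_
    rw [abs_le]
    constructor <;> linarith
  have h5 : 6000 / ((n : ℝ) + 1) ^ 2 ≤ 6000 * (1 / n - 1 / ((n : ℝ) + 1)) := by
    have : 1 / (n : ℝ) - 1 / ((n : ℝ) + 1) = 1 / (n * (n + 1)) := by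
      field_simp
      ring
    rw [this, mul_one_div]
    exact div_le_div_of_nonneg_left (by norm_num) (by positivity) (by nlinarith)
  have h6 : 0 ≤ 1 / (n : ℝ) - 1 / ((n : ℝ) + 1) := by
    have := one_div_le_one_div_of_le hn0 (show (n : ℝ) ≤ n + 1 by linarith)
    linarith
  refine (abs_add_le _ _).trans ((add_le_add h1 h4).trans ?_)
  nlinarith

lemma Gi_axis {m : ℝ} (hm : 0 < m) (n : ℕ) : Im m - Gi m n 0 = ∑ k ∈ range n, D1 m k := by
  induction n with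
  | zero => rw [Gi_zero]; simp
  | succ n ih =>
    rw [Finset.sum_range_succ, ← ih, ← Gi_D1 hm]
    ring

lemma axis_mass {m : ℝ} (hm : 0 ≤ m) (hm1 : m ≤ 1) (n : ℕ) :
    |∑ k ∈ range n, D1 m k - ∑ k ∈ range n, D1 0 k| ≤ 16 * (n * √m) := by
  rw [← Finset.sum_sub_distrib]
  refine (Finset.abs_sum_le_sum_abs _ _).trans ?_
  refine (Finset.sum_le_sum fun k _ => D1_mass hm hm1 k).trans (le_of_eq ?_)
  rw [Finset.sum_const, Finset.card_range, nsmul_eq_mul]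
  ring

/-- one step of the logarithm in the second direction -/
lemma log2_step {n : ℕ} (hn : 1 ≤ n) (l : ℕ) :
    |((l : ℝ) + 1 / 2) / ((n : ℝ) ^ 2 + (l + 1 / 2) ^ 2) -
      (Real.log ((n : ℝ) ^ 2 + ((l : ℝ) + 1) ^ 2) - Real.log ((n : ℝ) ^ 2 + (l : ℝ) ^ 2)) / 2| ≤
      1 / (n : ℝ) ^ 2 := by
  have hn0 : (0 : ℝ) < n := by exact_mod_cast hn
  have hpos : ∀ t : ℝ, (0 : ℝ) < (n : ℝ) ^ 2 + t ^ 2 := fun t => by positivity
  -- Lipschitz bound of `f t = t / (n² + t²)`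
  have hL : ∀ s t : ℝ, |s / ((n : ℝ) ^ 2 + s ^ 2) - t / ((n : ℝ) ^ 2 + t ^ 2)| ≤
      |s - t| / (n : ℝ) ^ 2 := by
    intro s t
    have e : s / ((n : ℝ) ^ 2 + s ^ 2) - t / ((n : ℝ) ^ 2 + t ^ 2) =
        (s - t) * (((n : ℝ) ^ 2 - s * t) / (((n : ℝ) ^ 2 + s ^ 2) * ((n : ℝ) ^ 2 + t ^ 2))) := by
      have := (hpos s).ne'
      have := (hpos t).ne'
      field_simp
      ring
    rw [e, abs_mul, div_eq_mul_one_div (|s - t|)]
    refine mul_le_mul_of_nonneg_left ?_ (abs_nonneg _)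
    rw [abs_div, abs_of_pos (mul_pos (hpos s) (hpos t)), div_le_div_iff₀
      (mul_pos (hpos s) (hpos t)) (by positivity), one_mul]
    have h1 : |(n : ℝ) ^ 2 - s * t| ≤ (n : ℝ) ^ 2 + (s ^ 2 + t ^ 2) / 2 := by
      rw [abs_le]
      constructor <;> nlinarith [sq_nonneg (s - t), sq_nonneg (s + t)]
    have h2 : |(n : ℝ) ^ 2 - s * t| * (n : ℝ) ^ 2 ≤
        ((n : ℝ) ^ 2 + (s ^ 2 + t ^ 2) / 2) * (n : ℝ) ^ 2 :=
      mul_le_mul_of_nonneg_right h1 (by positivity)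
    nlinarith [mul_nonneg (sq_nonneg s) (sq_nonneg t), mul_nonneg (sq_nonneg (n : ℝ)) (sq_nonneg s),
      mul_nonneg (sq_nonneg (n : ℝ)) (sq_nonneg t)]
  have hd : ∀ t : ℝ, HasDerivAt (fun t : ℝ => Real.log ((n : ℝ) ^ 2 + t ^ 2) / 2)
      (t / ((n : ℝ) ^ 2 + t ^ 2)) t := by
    intro t
    have h1 : HasDerivAt (fun t : ℝ => (n : ℝ) ^ 2 + t ^ 2) (2 * t) t := by
      have := ((hasDerivAt_id t).pow 2).const_add ((n : ℝ) ^ 2)
      simpa using this
    refine ((h1.log (hpos t).ne').div_const 2).congr_deriv ?_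
    field_simp
  obtain ⟨ξ, hξ, he⟩ := exists_hasDerivAt_eq_slope
    (fun t : ℝ => Real.log ((n : ℝ) ^ 2 + t ^ 2) / 2) (fun t => t / ((n : ℝ) ^ 2 + t ^ 2))
    (show (l : ℝ) < l + 1 by linarith)
    (fun t _ => (hd t).continuousAt.continuousWithinAt) (fun t _ => hd t)
  have e2 : (Real.log ((n : ℝ) ^ 2 + ((l : ℝ) + 1) ^ 2) - Real.log ((n : ℝ) ^ 2 + (l : ℝ) ^ 2)) / 2 =
      ξ / ((n : ℝ) ^ 2 + ξ ^ 2) := by
    rw [he]
    simp only [add_sub_cancel_left, div_one]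
    ring
  rw [e2]
  refine (hL _ _).trans (div_le_div_of_nonneg_right ?_ (by positivity))
  rw [abs_le]
  constructor <;> linarith [hξ.1, hξ.2]

lemma Gi_second {m : ℝ} (hm : 0 < m) (hm1 : m ≤ 1) {n : ℕ} (hn : 1 ≤ n) (L : ℕ) (hL : L ≤ n) :
    |Gi m n 0 - Gi m n L - (Real.log ((n : ℝ) ^ 2 + (L : ℝ) ^ 2) - Real.log ((n : ℝ) ^ 2)) /
      (4 * π)| ≤ L * (6001 / (n : ℝ) ^ 2 + 20 * √m) := by
  have hpi := Real.pi_pos
  have hn0 : (0 : ℝ) < n := by exact_mod_cast hn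
  induction L with
  | zero => simp
  | succ L ih =>
    have h0 := ih (by omega)
    have h1 := D2_main hm hm1 hn (show L ≤ n by omega)
    have h2 := log2_step hn L
    have e : Gi m n 0 - Gi m n (L + 1) - (Real.log ((n : ℝ) ^ 2 + ((L + 1 : ℕ) : ℝ) ^ 2) -
        Real.log ((n : ℝ) ^ 2)) / (4 * π) =
        (Gi m n 0 - Gi m n L - (Real.log ((n : ℝ) ^ 2 + (L : ℝ) ^ 2) - Real.log ((n : ℝ) ^ 2)) /
          (4 * π)) +
        (Gi m n L - Gi m n (L + 1) -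
          ((L : ℝ) + 1 / 2) / ((n : ℝ) ^ 2 + (L + 1 / 2) ^ 2) / (2 * π)) +
        (((L : ℝ) + 1 / 2) / ((n : ℝ) ^ 2 + (L + 1 / 2) ^ 2) -
          (Real.log ((n : ℝ) ^ 2 + ((L : ℝ) + 1) ^ 2) - Real.log ((n : ℝ) ^ 2 + (L : ℝ) ^ 2)) / 2) /
            (2 * π) := by
      push_cast
      field_simp
      ring
    rw [e]
    have h3 : |(((L : ℝ) + 1 / 2) / ((n : ℝ) ^ 2 + (L + 1 / 2) ^ 2) -
          (Real.log ((n : ℝ) ^ 2 + ((L : ℝ) + 1) ^ 2) - Real.log ((n : ℝ) ^ 2 + (L : ℝ) ^ 2)) / 2) /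
            (2 * π)| ≤ 1 / (n : ℝ) ^ 2 := by
      rw [abs_div, abs_of_pos (show 0 < 2 * π by positivity)]
      exact (div_le_self (abs_nonneg _) (by linarith [Real.pi_gt_three])).trans h2
    refine (abs_add_three _ _ _).trans ((add_le_add (add_le_add h0 h1) h3).trans (le_of_eq ?_))
    push_cast
    ring

/-- **(PK)** the massive potential kernel -/
theorem PK : ∃ ca : ℝ, ∀ m : ℝ, 0 < m → m ≤ 1 → ∀ n L : ℕ, 1 ≤ n → L ≤ n →
    |Im m - Gi m n L - Real.log ((n : ℝ) ^ 2 + (L : ℝ) ^ 2) / (4 * π) - ca| ≤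
      20000 / n + 36 * (n * √m) := by
  obtain ⟨ca, hca⟩ := axis0
  refine ⟨ca, fun m hm hm1 n L hn hL => ?_⟩
  have hpi := Real.pi_pos
  have hn0 : (0 : ℝ) < n := by exact_mod_cast hn
  have hq := Real.sqrt_nonneg m
  have h1 := hca n hn
  have h2 := axis_mass hm.le hm1 n
  rw [← Gi_axis hm] at h2
  have h3 := Gi_second hm hm1 hn L hL
  have hLn : (L : ℝ) ≤ n := by exact_mod_cast hL
  have h4 : (L : ℝ) * (6001 / (n : ℝ) ^ 2 + 20 * √m) ≤ 6001 / n + 20 * (n * √m) := by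
    have : (n : ℝ) * (6001 / (n : ℝ) ^ 2 + 20 * √m) = 6001 / n + 20 * (n * √m) := by
      field_simp
    rw [← this]
    exact mul_le_mul_of_nonneg_right hLn (by positivity)
  have e : Im m - Gi m n L - Real.log ((n : ℝ) ^ 2 + (L : ℝ) ^ 2) / (4 * π) - ca =
      (Im m - Gi m n 0 - ∑ k ∈ range n, D1 0 k) +
      (∑ k ∈ range n, D1 0 k - Real.log n / (2 * π) - ca) +
      (Gi m n 0 - Gi m n L - (Real.log ((n : ℝ) ^ 2 + (L : ℝ) ^ 2) - Real.log ((n : ℝ) ^ 2)) /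
        (4 * π)) := by
    rw [Real.log_pow]
    push_cast
    field_simp
    ring
  rw [e]
  refine (abs_add_three _ _ _).trans ((add_le_add (add_le_add h2 h1) (h3.trans h4)).trans ?_)
  have h5 : 13000 / (n : ℝ) + 6001 / n ≤ 20000 / n := by
    rw [← add_div]
    exact div_le_div_of_nonneg_right (by norm_num) hn0.le
  linarith

/-- **the kernel itself** -/
theorem GiLog : ∃ c : ℝ, ∀ m : ℝ, 0 < m → m ≤ 1 → ∀ n L : ℕ, 1 ≤ n → L ≤ n →
    |Gi m n L - Real.log (1 / (m * ((n : ℝ) ^ 2 + (L : ℝ) ^ 2))) / (4 * π) - c| ≤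
      20000 / n + 37 * (n * √m) := by
  obtain ⟨ca, hca⟩ := PK
  obtain ⟨c₀, hc⟩ := exists_c0
  refine ⟨c₀ - ca, fun m hm hm1 n L hn hL => ?_⟩
  have h1 := hca m hm hm1 n L hn hL
  have h2 := hc m hm hm1
  have hpi := Real.pi_pos
  have hn0 : (0 : ℝ) < n := by exact_mod_cast hn
  have hn1 : (1 : ℝ) ≤ n := by exact_mod_cast hn
  have hq := Real.sqrt_nonneg m
  have hp : (0 : ℝ) < (n : ℝ) ^ 2 + (L : ℝ) ^ 2 := by positivity
  have e : Gi m n L - Real.log (1 / (m * ((n : ℝ) ^ 2 + (L : ℝ) ^ 2))) / (4 * π) - (c₀ - ca) =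
      (Im m - Real.log (1 / m) / (4 * π) - c₀) -
      (Im m - Gi m n L - Real.log ((n : ℝ) ^ 2 + (L : ℝ) ^ 2) / (4 * π) - ca) := by
    rw [one_div, one_div, Real.log_inv, Real.log_inv, Real.log_mul hm.ne' hp.ne']
    field_simp
    ring
  rw [e]
  refine (abs_sub _ _).trans ((add_le_add h2 h1).trans ?_)
  have : √m ≤ n * √m := by nlinarith
  linarith

end

end Vale.Agent.P159.H474
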