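import Vale.Agent.P159.H474.Green7

/-!
P159, module GREEN (helper474), file 8: (TB2) in the letters of `TM/H764`.

`nx x` = sup norm, `sx x` = square of the Euclidean norm of the representative of least absolute
value.  `GK_log`, `GK_decay`: the torus kernel.  `DD2 N m m' x = N⁻² ∑_k (1 - cos kx)
(1/(m+λ) - 1/(m'+λ))`; `TB2a`, `TB2b`: the two forms of 813.
-/

namespace Vale.Agent.P159.H474

open Finset Real Filter Topology
open Vale.Agent.P159.TM.H764 (cN sN EE dt)

noncomputable section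

variable {N : ℕ} [NeZero N]

/-- sup norm of the representative of least absolute value -/
def nx (x : ZMod N × ZMod N) : ℕ := max x.1.valMinAbs.natAbs x.2.valMinAbs.natAbs

/-- square of its Euclidean norm -/
def sx (x : ZMod N × ZMod N) : ℝ := (x.1.valMinAbs : ℝ) ^ 2 + (x.2.valMinAbs : ℝ) ^ 2

lemma sx_nonneg (x : ZMod N × ZMod N) : 0 ≤ sx x := by unfold sx; positivity

lemma sx_eq (x : ZMod N × ZMod N) :
    sx x = (x.1.valMinAbs.natAbs : ℝ) ^ 2 + (x.2.valMinAbs.natAbs : ℝ) ^ 2 := by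
  unfold sx
  rw [Nat.cast_natAbs, Nat.cast_natAbs]
  push_cast
  rw [sq_abs, sq_abs]

lemma nx_sq_le (x : ZMod N × ZMod N) : (nx x : ℝ) ^ 2 ≤ sx x ∧ sx x ≤ 2 * (nx x : ℝ) ^ 2 := by
  rw [sx_eq]
  unfold nx
  rcases le_total x.1.valMinAbs.natAbs x.2.valMinAbs.natAbs with h | h
  · rw [max_eq_right h]
    have : (x.1.valMinAbs.natAbs : ℝ) ≤ x.2.valMinAbs.natAbs := by exact_mod_cast h
    have h0 : (0 : ℝ) ≤ x.1.valMinAbs.natAbs := Nat.cast_nonneg _
    constructor <;> nlinarith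
  · rw [max_eq_left h]
    have : (x.2.valMinAbs.natAbs : ℝ) ≤ x.1.valMinAbs.natAbs := by exact_mod_cast h
    have h0 : (0 : ℝ) ≤ x.2.valMinAbs.natAbs := Nat.cast_nonneg _
    constructor <;> nlinarith

lemma nx_le (x : ZMod N × ZMod N) : 2 * x.1.valMinAbs.natAbs ≤ N ∧ 2 * x.2.valMinAbs.natAbs ≤ N := by
  have h1 := ZMod.natAbs_valMinAbs_le x.1
  have h2 := ZMod.natAbs_valMinAbs_le x.2
  omega

lemma nx_pos {x : ZMod N × ZMod N} (hx : x ≠ 0) : 1 ≤ nx x := by
  unfold nx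
  by_contra h
  push Not at h
  have h1 : x.1.valMinAbs.natAbs = 0 := by omega
  have h2 : x.2.valMinAbs.natAbs = 0 := by omega
  rw [Int.natAbs_eq_zero, ZMod.valMinAbs_eq_zero] at h1 h2
  exact hx (Prod.ext h1 h2)

/-! ### symmetries of the kernel -/

lemma GK_neg1 (m : ℝ) (x : ZMod N × ZMod N) : GK N m (-x.1, x.2) = GK N m x := by
  unfold GK
  congr 1
  rw [← Equiv.sum_comp (TM.H764.refl1 (N := N))]
  refine Finset.sum_congr rfl fun k _ => ?_
  rw [TM.H764.refl1_apply]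
  unfold dt EE
  simp only [neg_mul_neg, TM.H764.cN_neg]

lemma GK_swap (m : ℝ) (x : ZMod N × ZMod N) : GK N m (x.2, x.1) = GK N m x := by
  unfold GK
  congr 1
  rw [← Equiv.sum_comp (Equiv.prodComm _ _)]
  refine Finset.sum_congr rfl fun k _ => ?_
  simp only [Equiv.prodComm_apply, Prod.swap]
  unfold dt EE
  simp only
  rw [add_comm (k.2 * x.2), add_comm (2 * (1 - cN k.2))]

lemma GK_neg2 (m : ℝ) (x : ZMod N × ZMod N) : GK N m (x.1, -x.2) = GK N m x := by
  rw [← GK_swap m (x.1, -x.2), ← GK_swap m x]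
  exact GK_neg1 m (x.2, x.1)

lemma eq_or_neg (a : ZMod N) : a = ((a.valMinAbs.natAbs : ℕ) : ZMod N) ∨
    a = -((a.valMinAbs.natAbs : ℕ) : ZMod N) := by
  have h := ZMod.coe_valMinAbs a
  have h0 : ((a.valMinAbs.natAbs : ℕ) : ZMod N) = (((a.valMinAbs.natAbs : ℕ) : ℤ) : ZMod N) :=
    (Int.cast_natCast _).symm
  rcases Int.natAbs_eq a.valMinAbs with h1 | h1
  · left
    rw [h0, ← h1]
    exact h.symm
  · right
    rw [h0, ← Int.cast_neg, ← h1]
    exact h.symm

lemma GK_abs (m : ℝ) (x : ZMod N × ZMod N) :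
    GK N m x = GK N m (((x.1.valMinAbs.natAbs : ℕ) : ZMod N), ((x.2.valMinAbs.natAbs : ℕ) : ZMod N)) := by
  set a := ((x.1.valMinAbs.natAbs : ℕ) : ZMod N) with ha
  set b := ((x.2.valMinAbs.natAbs : ℕ) : ZMod N) with hb
  have e : x = (x.1, x.2) := rfl
  rcases eq_or_neg x.1 with h1 | h1 <;> rcases eq_or_neg x.2 with h2 | h2
  · rw [e, h1, h2]
  · rw [e, h1, h2, ← ha, ← hb]
    exact GK_neg2 m (a, b)
  · rw [e, h1, h2, ← ha, ← hb]
    exact GK_neg1 m (a, b)
  · rw [e, h1, h2, ← ha, ← hb]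
    exact (GK_neg1 m (a, -b)).trans (GK_neg2 m (a, b))

/-! ### the kernel on the torus -/

/-- **decay** -/
theorem GK_decay {m : ℝ} (hm : 0 < m) (hm1 : m ≤ 4) (hN : 1 ≤ (N : ℝ) * √m) {x : ZMod N × ZMod N}
    (hx : x ≠ 0) :
    |GK N m x| ≤ 2 / (nx x * √m) * exp (-(nx x * √m / 8)) + 600 * exp (-((N : ℝ) * √m / 16)) := by
  rw [GK_abs]
  have h1 := GK_sub_Gi' (N := N) hm hm1 hN (nx_le x).1 (nx_le x).2
  have h2 := Gi_decay hm hm1 (n₁ := x.1.valMinAbs.natAbs) (n₂ := x.2.valMinAbs.natAbs)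
    (n := nx x) (nx_pos hx) (by unfold nx; exact (le_max_iff.1 le_rfl))
  have h3 := abs_sub_abs_le_abs_sub (GK N m (((x.1.valMinAbs.natAbs : ℕ) : ZMod N),
    ((x.2.valMinAbs.natAbs : ℕ) : ZMod N))) (Gi m x.1.valMinAbs.natAbs x.2.valMinAbs.natAbs)
  linarith

/-- **logarithm**, `nx x √m` small -/
theorem GK_log : ∃ c : ℝ, ∀ (N : ℕ) [NeZero N] (m : ℝ), 0 < m → m ≤ 1 → 1 ≤ (N : ℝ) * √m →
    ∀ x : ZMod N × ZMod N, x ≠ 0 →
    |GK N m x - Real.log (1 / (m * sx x)) / (4 * π) - c| ≤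
      20000 / nx x + 37 * (nx x * √m) + 600 * exp (-((N : ℝ) * √m / 16)) := by
  obtain ⟨c, hc⟩ := GiLog
  refine ⟨c, fun N _ m hm hm1 hN x hx => ?_⟩
  rw [GK_abs, sx_eq]
  have h1 := GK_sub_Gi' (N := N) hm (by linarith) hN (nx_le x).1 (nx_le x).2
  have h0 := nx_pos hx
  have h2 : |Gi m x.1.valMinAbs.natAbs x.2.valMinAbs.natAbs -
      Real.log (1 / (m * ((x.1.valMinAbs.natAbs : ℝ) ^ 2 + (x.2.valMinAbs.natAbs : ℝ) ^ 2))) /
        (4 * π) - c| ≤ 20000 / nx x + 37 * (nx x * √m) := by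
    unfold nx at h0 ⊢
    rcases le_total x.1.valMinAbs.natAbs x.2.valMinAbs.natAbs with h | h
    · rw [max_eq_right h] at h0 ⊢
      rw [Gi_symm hm, add_comm ((x.1.valMinAbs.natAbs : ℝ) ^ 2)]
      exact hc m hm hm1 _ _ h0 h
    · rw [max_eq_left h] at h0 ⊢
      exact hc m hm hm1 _ _ h0 h
  have e : ∀ G g l : ℝ, G - l - c = (G - g) + (g - l - c) := fun G g l => by ring
  rw [e _ (Gi m x.1.valMinAbs.natAbs x.2.valMinAbs.natAbs)]
  refine (abs_add_le _ _).trans ?_
  linarith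

/-- the difference of the potential kernels of two masses -/
def DD2 (N : ℕ) [NeZero N] (m m' : ℝ) (x : ZMod N × ZMod N) : ℝ :=
  (∑ k : ZMod N × ZMod N, (1 - cN (dt k x)) * (1 / (m + EE k) - 1 / (m' + EE k))) / (N : ℝ) ^ 2

lemma DD2_eq (m m' : ℝ) (x : ZMod N × ZMod N) :
    DD2 N m m' x = (SN N m - SN N m') - (GK N m x - GK N m' x) := by
  unfold DD2 SN GK
  rw [← sub_div, ← sub_div, ← sub_div]
  congr 1
  rw [← Finset.sum_sub_distrib, ← Finset.sum_sub_distrib, ← Finset.sum_sub_distrib]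
  refine Finset.sum_congr rfl fun k _ => ?_
  ring

lemma DD2_zero (m m' : ℝ) : DD2 N m m' 0 = 0 := by
  unfold DD2
  have h : ∀ k : ZMod N × ZMod N, dt k 0 = 0 := fun k => by simp [dt]
  simp [h, TM.H764.cN_zero]

/-- error terms of (TB2) (a) -/
lemma TB2a_err {B n a a' : ℝ} (hB1 : 1 ≤ B) (hn0 : 0 < n) (ha' : 0 < a') (ha'1 : a' ≤ 1)
    (haB : a' ≤ 1 / √B) (jn : B ≤ 2 * n * a') (hna : n * a ≤ 1 / B) :
    20000 / n + 37 * (n * a) + a' / 4 + 2 / (n * a') ≤ 60000 * (1 / √B) := by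
  have hB0 : 0 < B := by linarith
  have hsB : 1 ≤ √B := by
    rw [Real.le_sqrt zero_le_one hB0.le]; linarith
  have hsBB : √B ≤ B := by
    rw [Real.sqrt_le_left hB0.le]; nlinarith
  have jn2 : B ≤ 2 * n := by nlinarith
  have j2 : 20000 / n ≤ 40000 * (1 / √B) := by
    rw [mul_one_div, div_le_div_iff₀ hn0 (by linarith)]
    nlinarith
  have j3 : n * a ≤ 1 / √B := hna.trans (one_div_le_one_div_of_le (by linarith) hsBB)
  have j4 : 2 / (n * a') ≤ 4 * (1 / √B) := by
    rw [mul_one_div, div_le_div_iff₀ (by positivity) (by linarith)]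
    nlinarith
  have hS : (0 : ℝ) < 1 / √B := by positivity
  linarith

/-- (TB2) (a), quantitative -/
theorem TB2a_pt {c : ℝ} (hc : ∀ (N : ℕ) [NeZero N] (m : ℝ), 0 < m → m ≤ 1 → 1 ≤ (N : ℝ) * √m →
    ∀ x : ZMod N × ZMod N, x ≠ 0 →
    |GK N m x - Real.log (1 / (m * sx x)) / (4 * π) - c| ≤
      20000 / nx x + 37 * (nx x * √m) + 600 * exp (-((N : ℝ) * √m / 16)))
    {B m m' : ℝ} (hB1 : 1 ≤ B) {x : ZMod N × ZMod N} (hm : 0 < m) (hmm : m ≤ m')
    (hm'B : m' ≤ 1 / B) (hxB : B ≤ √(sx x) * √m') (hxm : √(sx x) * √m ≤ 1 / B)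
    (hNB : B ≤ (N : ℝ) * √m) :
    |DD2 N m m' x - (Real.log (m' * sx x) + -(4 * π * c)) / (4 * π)| ≤
      60000 * (1 / √B) + 3000 * exp (-(B / 16)) := by
  have hpi := Real.pi_pos
  have hB0 : 0 < B := by linarith
  have hm' : 0 < m' := hm.trans_le hmm
  have hBi : 1 / B ≤ 1 := by rw [div_le_one hB0]; exact hB1
  have hm'1 : m' ≤ 1 := hm'B.trans hBi
  have hm1 : m ≤ 1 := hmm.trans hm'1
  have hq : 0 < √m := Real.sqrt_pos.2 hm
  have hq' : 0 < √m' := Real.sqrt_pos.2 hm'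
  have hqq : √m ≤ √m' := Real.sqrt_le_sqrt hmm
  have hNN : (N : ℝ) * √m ≤ N * √m' := mul_le_mul_of_nonneg_left hqq (Nat.cast_nonneg _)
  have hN : 1 ≤ (N : ℝ) * √m := hB1.trans hNB
  have hx : x ≠ 0 := by
    intro h
    rw [h] at hxB
    have : sx (0 : ZMod N × ZMod N) = 0 := by unfold sx; simp
    rw [this, Real.sqrt_zero, zero_mul] at hxB
    linarith
  have hn1 := nx_pos hx
  have hn0 : (0 : ℝ) < nx x := by exact_mod_cast hn1
  obtain ⟨g1, g2⟩ := nx_sq_le x
  have hsx0 : 0 < sx x := lt_of_lt_of_le (by positivity) g1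
  have hs1 : (nx x : ℝ) ≤ √(sx x) := by
    rw [Real.le_sqrt hn0.le hsx0.le]; exact g1
  have hs2 : √(sx x) ≤ 2 * nx x := by
    rw [Real.sqrt_le_left (by positivity)]
    nlinarith
  have i1 := TB1' (N := N) hm hmm hm'1 hN
  have i2 := hc N m hm hm1 hN x hx
  have i3 := GK_decay (N := N) hm' (by linarith) (hN.trans hNN) hx
  have e : DD2 N m m' x - (Real.log (m' * sx x) + -(4 * π * c)) / (4 * π) =
      (SN N m - SN N m' - Real.log (m' / m) / (4 * π)) -
      (GK N m x - Real.log (1 / (m * sx x)) / (4 * π) - c) + GK N m' x := by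
    rw [DD2_eq, Real.log_div hm'.ne' hm.ne', one_div, Real.log_inv,
      Real.log_mul hm'.ne' hsx0.ne', Real.log_mul hm.ne' hsx0.ne']
    field_simp
    ring
  rw [e]
  have j1 : √m' ≤ 1 / √B := by
    rw [show (1 : ℝ) / √B = √(1 / B) by rw [Real.sqrt_div' _ hB0.le, Real.sqrt_one]]
    exact Real.sqrt_le_sqrt hm'B
  have jn : B ≤ 2 * nx x * √m' := hxB.trans (mul_le_mul_of_nonneg_right hs2 hq'.le)
  have jm : √m' ≤ 1 := by rw [Real.sqrt_le_left (by norm_num)]; linarith
  have j3 : (nx x : ℝ) * √m ≤ 1 / B := (mul_le_mul_of_nonneg_right hs1 hq.le).trans hxm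
  have jE := TB2a_err hB1 hn0 hq' jm j1 jn j3
  have j4 : 2 / (nx x * √m') * exp (-(nx x * √m' / 8)) ≤ 2 / (nx x * √m') := by
    have h1 : exp (-(nx x * √m' / 8)) ≤ 1 := by
      rw [Real.exp_le_one_iff]
      have : 0 ≤ nx x * √m' := by positivity
      linarith
    exact mul_le_of_le_one_right (by positivity) h1
  have j5 : exp (-((N : ℝ) * √m / 16)) ≤ exp (-(B / 16)) := Real.exp_le_exp.2 (by linarith)
  have j6 : exp (-((N : ℝ) * √m' / 16)) ≤ exp (-(B / 16)) := Real.exp_le_exp.2 (by linarith)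
  have hE := (Real.exp_pos (-(B / 16))).le
  refine (abs_add_le _ _).trans ?_
  have h9 := abs_sub (SN N m - SN N m' - Real.log (m' / m) / (4 * π))
    (GK N m x - Real.log (1 / (m * sx x)) / (4 * π) - c)
  linarith

/-- **(TB2) (a)** -/
theorem TB2a : ∃ cs : ℝ, ∀ ε : ℝ, 0 < ε → ∃ B : ℝ, 1 ≤ B ∧ ∀ (N : ℕ) [NeZero N] (m m' : ℝ)
    (x : ZMod N × ZMod N), 0 < m → m ≤ m' → m' ≤ 1 / B → B ≤ √(sx x) * √m' →
    √(sx x) * √m ≤ 1 / B → B ≤ (N : ℝ) * √m →
    |DD2 N m m' x - (Real.log (m' * sx x) + cs) / (4 * π)| ≤ ε := by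
  obtain ⟨c, hc⟩ := GK_log
  refine ⟨-(4 * π * c), fun ε hε => ?_⟩
  have t1 : Tendsto (fun B : ℝ => 60000 * (1 / √B) + 3000 * exp (-(B / 16))) atTop
      (𝓝 (60000 * 0 + 3000 * 0)) := by
    refine Tendsto.add (Tendsto.const_mul _ ?_) (Tendsto.const_mul _ ?_)
    · exact Real.tendsto_sqrt_atTop.const_div_atTop 1
    · have h1 : Tendsto (fun B : ℝ => B / 16) atTop atTop :=
        tendsto_id.atTop_div_const (by norm_num)
      exact Real.tendsto_exp_neg_atTop_nhds_zero.comp h1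
  rw [mul_zero, mul_zero, add_zero] at t1
  obtain ⟨B, hB1, hB2⟩ := ((eventually_ge_atTop (1 : ℝ)).and (t1.eventually_le_const hε)).exists
  exact ⟨B, hB1, fun N _ m m' x hm hmm hm'B hxB hxm hNB =>
    (TB2a_pt hc hB1 hm hmm hm'B hxB hxm hNB).trans hB2⟩

/-- **(TB2) (b)** -/
theorem TB2b : ∃ C : ℝ, ∀ (N : ℕ) [NeZero N] (m m' : ℝ) (x : ZMod N × ZMod N), 0 < m → m ≤ m' →
    m' ≤ 1 → 1 ≤ (N : ℝ) * √m →
    |DD2 N m m' x - Real.log (1 + min (m' * sx x) (m' / m)) / (4 * π)| ≤ C := by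
  obtain ⟨c, hc⟩ := GK_log
  refine ⟨60000 + 2 * |c|, fun N _ m m' x hm hmm hm'1 hN => ?_⟩
  have hc0 := abs_nonneg c
  have hpi := Real.pi_pos
  have hpi3 := Real.pi_gt_three
  have hm' : 0 < m' := hm.trans_le hmm
  have hm1 : m ≤ 1 := hmm.trans hm'1
  have hq : 0 < √m := Real.sqrt_pos.2 hm
  have hq' : 0 < √m' := Real.sqrt_pos.2 hm'
  have hqq : √m ≤ √m' := Real.sqrt_le_sqrt hmm
  have hN' : 1 ≤ (N : ℝ) * √m' :=
    hN.trans (mul_le_mul_of_nonneg_left hqq (Nat.cast_nonneg _))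
  by_cases hx : x = 0
  · rw [hx, DD2_zero]
    have : sx (0 : ZMod N × ZMod N) = 0 := by unfold sx; simp
    rw [this, mul_zero, min_eq_left (by positivity), add_zero, Real.log_one]
    simp only [zero_div, sub_zero, abs_zero]
    positivity
  have hn1 := nx_pos hx
  have hn0 : (0 : ℝ) < nx x := by exact_mod_cast hn1
  have hn1' : (1 : ℝ) ≤ nx x := by exact_mod_cast hn1
  obtain ⟨g1, g2⟩ := nx_sq_le x
  have hsx0 : 0 < sx x := lt_of_lt_of_le (by positivity) g1
  have i1 := TB1' (N := N) hm hmm hm'1 hN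
  have hexp : ∀ t : ℝ, 0 ≤ t → exp (-t) ≤ 1 := fun t ht => by
    rw [Real.exp_le_one_iff]; linarith
  have hN0 : (0 : ℝ) ≤ N := Nat.cast_nonneg N
  have i1' : |SN N m - SN N m' - Real.log (m' / m) / (4 * π)| ≤ 1201 := by
    have h1 : √m' ≤ 1 := by rw [Real.sqrt_le_left (by norm_num)]; linarith
    have h2 := hexp ((N : ℝ) * √m / 16) (by positivity)
    linarith
  -- size of the kernels
  have kd : ∀ μ : ℝ, 0 < μ → μ ≤ 1 → 1 ≤ (N : ℝ) * √μ → 1 ≤ nx x * √μ → |GK N μ x| ≤ 602 := by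
    intro μ hμ hμ1 hNμ hnμ
    have h1 := GK_decay (N := N) hμ (by linarith) hNμ hx
    have h2 := hexp ((N : ℝ) * √μ / 16) (by positivity)
    have h3 := hexp (nx x * √μ / 8) (by positivity)
    have h4 : 2 / (nx x * √μ) ≤ 2 := div_le_self (by norm_num) hnμ
    have h5 : 2 / (nx x * √μ) * exp (-(nx x * √μ / 8)) ≤ 2 * 1 :=
      mul_le_mul h4 h3 (Real.exp_pos _).le (by norm_num)
    linarith
  have kl : ∀ μ : ℝ, 0 < μ → μ ≤ 1 → 1 ≤ (N : ℝ) * √μ → nx x * √μ ≤ 1 →
      |GK N μ x - Real.log (1 / (μ * sx x)) / (4 * π)| ≤ 20637 + |c| := by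
    intro μ hμ hμ1 hNμ hnμ
    have h1 := hc N μ hμ hμ1 hNμ x hx
    have h2 := hexp ((N : ℝ) * √μ / 16) (by positivity)
    have h3 : 20000 / (nx x : ℝ) ≤ 20000 := div_le_self (by norm_num) hn1'
    have h4 := abs_sub_abs_le_abs_sub (GK N μ x - Real.log (1 / (μ * sx x)) / (4 * π)) c
    linarith
  have hmin0 : 0 < min (m' * sx x) (m' / m) := lt_min (by positivity) (by positivity)
  have l2 : Real.log 2 ≤ 1 := by
    have := Real.log_two_lt_d9
    linarith
  have h4pi : 0 < 4 * π := by positivity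
  rw [DD2_eq]
  rcases le_total 1 (nx x * √m) with hA | hA
  · -- far: both kernels bounded
    have hA' : 1 ≤ nx x * √m' := hA.trans (mul_le_mul_of_nonneg_left hqq hn0.le)
    have k1 := kd m hm hm1 hN hA
    have k2 := kd m' hm' hm'1 hN' hA'
    have hsm : 1 ≤ sx x * m := by
      have h1 : (nx x * √m) ^ 2 = (nx x : ℝ) ^ 2 * m := by
        rw [mul_pow, Real.sq_sqrt hm.le]
      nlinarith
    have hmin : min (m' * sx x) (m' / m) = m' / m := by
      refine min_eq_right ?_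
      rw [div_le_iff₀ hm]
      nlinarith
    rw [hmin]
    have hr1 : 1 ≤ m' / m := by rw [le_div_iff₀ hm]; linarith
    have b1 : Real.log (m' / m) ≤ Real.log (1 + m' / m) :=
      Real.log_le_log (by positivity) (by linarith)
    have b2 : Real.log (1 + m' / m) ≤ Real.log 2 + Real.log (m' / m) := by
      rw [← Real.log_mul (by norm_num) (by positivity)]
      exact Real.log_le_log (by positivity) (by linarith)
    have b3 : |(Real.log (m' / m) - Real.log (1 + m' / m)) / (4 * π)| ≤ 1 := by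
      rw [abs_div, abs_of_pos h4pi, div_le_one h4pi, abs_le]
      constructor <;> linarith
    have e : SN N m - SN N m' - (GK N m x - GK N m' x) - Real.log (1 + m' / m) / (4 * π) =
        (SN N m - SN N m' - Real.log (m' / m) / (4 * π)) - (GK N m x - GK N m' x) +
          (Real.log (m' / m) - Real.log (1 + m' / m)) / (4 * π) := by ring
    rw [e]
    refine (abs_add_le _ _).trans ?_
    have h8 := abs_sub (SN N m - SN N m' - Real.log (m' / m) / (4 * π)) (GK N m x - GK N m' x)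
    have h9 := abs_sub (GK N m x) (GK N m' x)
    linarith
  · have k1 := kl m hm hm1 hN hA
    rcases le_total 1 (nx x * √m') with hB | hB
    · -- intermediate
      have k2 := kd m' hm' hm'1 hN' hB
      have hs1 : 1 ≤ m' * sx x := by
        have h1 : (nx x * √m') ^ 2 = (nx x : ℝ) ^ 2 * m' := by
          rw [mul_pow, Real.sq_sqrt hm'.le]
        nlinarith
      have hs2 : sx x * m ≤ 2 := by
        have h1 : (nx x * √m) ^ 2 = (nx x : ℝ) ^ 2 * m := by
          rw [mul_pow, Real.sq_sqrt hm.le]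
        have h2 : (nx x * √m) ^ 2 ≤ 1 := pow_le_one₀ (by positivity) hA
        nlinarith
      have hmin1 : m' * sx x / 2 ≤ min (m' * sx x) (m' / m) := by
        refine le_min (by linarith) ?_
        rw [le_div_iff₀ hm]
        nlinarith
      have b1 : Real.log (m' * sx x) - Real.log 2 ≤ Real.log (1 + min (m' * sx x) (m' / m)) := by
        rw [← Real.log_div (by positivity) (by norm_num)]
        exact Real.log_le_log (by positivity) (by linarith)
      have b2 : Real.log (1 + min (m' * sx x) (m' / m)) ≤ Real.log 2 + Real.log (m' * sx x) := by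
        rw [← Real.log_mul (by norm_num) (by positivity)]
        refine Real.log_le_log (by positivity) ?_
        have := min_le_left (m' * sx x) (m' / m)
        linarith
      have b3 : |(Real.log (m' * sx x) - Real.log (1 + min (m' * sx x) (m' / m))) / (4 * π)| ≤ 1 := by
        rw [abs_div, abs_of_pos h4pi, div_le_one h4pi, abs_le]
        constructor <;> linarith
      have e : SN N m - SN N m' - (GK N m x - GK N m' x) -
          Real.log (1 + min (m' * sx x) (m' / m)) / (4 * π) =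
          (SN N m - SN N m' - Real.log (m' / m) / (4 * π)) -
            (GK N m x - Real.log (1 / (m * sx x)) / (4 * π)) + GK N m' x +
          (Real.log (m' * sx x) - Real.log (1 + min (m' * sx x) (m' / m))) / (4 * π) := by
        have h1 : Real.log (m' / m) = Real.log (m' * sx x) + Real.log (1 / (m * sx x)) := by
          rw [Real.log_div hm'.ne' hm.ne', one_div, Real.log_inv,
            Real.log_mul hm'.ne' hsx0.ne', Real.log_mul hm.ne' hsx0.ne']
          ring
        rw [h1]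
        ring
      rw [e]
      refine (abs_add_three _ _ _).trans ?_
      have h8 := abs_sub (SN N m - SN N m' - Real.log (m' / m) / (4 * π))
        (GK N m x - Real.log (1 / (m * sx x)) / (4 * π))
      linarith
    · -- near
      have k2 := kl m' hm' hm'1 hN' hB
      have hs2 : sx x * m' ≤ 2 := by
        have h1 : (nx x * √m') ^ 2 = (nx x : ℝ) ^ 2 * m' := by
          rw [mul_pow, Real.sq_sqrt hm'.le]
        have h2 : (nx x * √m') ^ 2 ≤ 1 := pow_le_one₀ (by positivity) hB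
        nlinarith
      have b0 : 0 ≤ Real.log (1 + min (m' * sx x) (m' / m)) := Real.log_nonneg (by linarith)
      have b1 : Real.log (1 + min (m' * sx x) (m' / m)) ≤ 2 := by
        have h1 := Real.log_le_sub_one_of_pos (show 0 < 1 + min (m' * sx x) (m' / m) by linarith)
        have := min_le_left (m' * sx x) (m' / m)
        linarith
      have b3 : |Real.log (1 + min (m' * sx x) (m' / m)) / (4 * π)| ≤ 1 := by
        rw [abs_div, abs_of_pos h4pi, div_le_one h4pi, abs_of_nonneg b0]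
        linarith
      have e : SN N m - SN N m' - (GK N m x - GK N m' x) -
          Real.log (1 + min (m' * sx x) (m' / m)) / (4 * π) =
          (SN N m - SN N m' - Real.log (m' / m) / (4 * π)) -
            (GK N m x - Real.log (1 / (m * sx x)) / (4 * π)) +
            (GK N m' x - Real.log (1 / (m' * sx x)) / (4 * π)) -
          Real.log (1 + min (m' * sx x) (m' / m)) / (4 * π) := by
        have h1 : Real.log (m' / m) = Real.log (1 / (m * sx x)) - Real.log (1 / (m' * sx x)) := by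
          rw [Real.log_div hm'.ne' hm.ne', one_div, Real.log_inv, one_div, Real.log_inv,
            Real.log_mul hm'.ne' hsx0.ne', Real.log_mul hm.ne' hsx0.ne']
          ring
        rw [h1]
        ring
      rw [e]
      refine (abs_sub _ _).trans ?_
      refine (add_le_add_left (abs_add_le _ _) _).trans ?_
      have h8 := abs_sub (SN N m - SN N m' - Real.log (m' / m) / (4 * π))
        (GK N m x - Real.log (1 / (m * sx x)) / (4 * π))
      linarith

end

end Vale.Agent.P159.H474
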