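import Vale.Agent.P159.H963.Chess1

/-!
P159 / RK (helper474): near rank one kernels and four-term decoupling. Kernels with values in the
extended nonnegative reals (letters of H963.Chess1). `Zab A P B Q = tr (A P B Q)` is the partition
function of a cyclic system made of two slabs `A`, `B` (arbitrary: cores, sources, ...) and two
strips `P`, `Q`. If `P` and `Q` are nearly of rank one in the Hilbert-Schmidt sense, then
`Z(A,B) Z(A',B') = Z(A,B') Z(A',B)` up to a small error.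
-/

namespace Vale.Agent.P159.H474

open Vale.Agent.P159.H963 Vale.Agent.P159.H963.Chess
open scoped ENNReal

noncomputable section

variable {S : Type*}

/-- transposed kernel -/
def tp (A : S → S → ℝ≥0∞) : S → S → ℝ≥0∞ := fun s s' => A s' s

/-- absolute difference -/
def ad (x y : ℝ≥0∞) : ℝ≥0∞ := (x - y) + (y - x)

lemma ad_comm (x y : ℝ≥0∞) : ad x y = ad y x := add_comm _ _

lemma le_add_ad (x y : ℝ≥0∞) : x ≤ y + ad x y := by
  have h : x ≤ y + (x - y) := le_add_tsub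
  exact h.trans (add_le_add le_rfl le_self_add)

lemma ad_sq_add (x y : ℝ≥0∞) : ad x y ^ 2 + 2 * (x * y) = x ^ 2 + y ^ 2 := by
  unfold ad
  rcases le_total x y with h | h
  · obtain ⟨d, rfl⟩ := exists_add_of_le h
    rw [tsub_eq_zero_of_le h, zero_add]
    by_cases hx : x = ∞
    · subst hx
      simp
    · rw [ENNReal.add_sub_cancel_left hx]
      ring
  · obtain ⟨d, rfl⟩ := exists_add_of_le h
    rw [tsub_eq_zero_of_le h, add_zero]
    by_cases hy : y = ∞
    · subst hy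
      simp
    · rw [ENNReal.add_sub_cancel_left hy]
      ring

/-- tensor square type kernel on pairs -/
def tn (A A' : S → S → ℝ≥0∞) : S × S → S × S → ℝ≥0∞ := fun p q => A p.1 q.1 * A' p.2 q.2

/-- exchanged tensor kernel -/
def tx (A : S → S → ℝ≥0∞) : S × S → S × S → ℝ≥0∞ := fun p q => A p.1 q.2 * A p.2 q.1

/-- the exchange defect -/
def df (A : S → S → ℝ≥0∞) : S × S → S × S → ℝ≥0∞ := fun p q => ad (tn A A p q) (tx A p q)

lemma tsum_pair_mul {α β : Type*} (f : α → ℝ≥0∞) (g : β → ℝ≥0∞) :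
    ∑' p : α × β, f p.1 * g p.2 = (∑' a, f a) * ∑' b, g b := by
  rw [ENNReal.tsum_prod' (f := fun p : α × β => f p.1 * g p.2)]
  simp only [ENNReal.tsum_mul_left, ENNReal.tsum_mul_right]

lemma hs_tn (A A' : S → S → ℝ≥0∞) : hs (tn A A') = hs A * hs A' := by
  unfold hs tn
  simp only [mul_pow]
  have h1 : ∀ p : S × S, ∑' q : S × S, A p.1 q.1 ^ 2 * A' p.2 q.2 ^ 2 =
      (∑' a, A p.1 a ^ 2) * ∑' b, A' p.2 b ^ 2 := fun p =>
    tsum_pair_mul (fun a => A p.1 a ^ 2) fun b => A' p.2 b ^ 2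
  simp only [h1]
  exact tsum_pair_mul (fun a => ∑' a', A a a' ^ 2) fun b => ∑' b', A' b b' ^ 2

lemma hs_tx (A : S → S → ℝ≥0∞) : hs (tx A) = hs A * hs A := by
  rw [← hs_tn A A]
  unfold hs
  refine tsum_congr fun p => ?_
  rw [← (Equiv.prodComm S S).tsum_eq]
  rfl

lemma tr_cmp_tn (A A' B B' : S → S → ℝ≥0∞) :
    Chess.cmp (tn A A') (tn B B') = tn (Chess.cmp A B) (Chess.cmp A' B') := by
  funext p q
  unfold Chess.cmp tn
  have h : ∀ s : S × S, A p.1 s.1 * A' p.2 s.2 * (B s.1 q.1 * B' s.2 q.2) =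
      (A p.1 s.1 * B s.1 q.1) * (A' p.2 s.2 * B' s.2 q.2) := fun s => by ring
  simp only [h]
  exact tsum_pair_mul (fun a => A p.1 a * B a q.1) fun b => A' p.2 b * B' b q.2

lemma tr_tn (A A' : S → S → ℝ≥0∞) : tr (tn A A') = tr A * tr A' := by
  unfold tr tn
  exact tsum_pair_mul (fun a => A a a) fun b => A' b b

/-- partition function of the cyclic system `A P B Q` -/
def Zab (A P B Q : S → S → ℝ≥0∞) : ℝ≥0∞ := tr (Chess.cmp (Chess.cmp (Chess.cmp A P) B) Q)

lemma Zab_mul (A A' P B B' Q : S → S → ℝ≥0∞) :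
    Zab A P B Q * Zab A' P B' Q = Zab (tn A A') (tn P P) (tn B B') (tn Q Q) := by
  unfold Zab
  rw [tr_cmp_tn, tr_cmp_tn, tr_cmp_tn, tr_tn]

lemma tsum_sw (f : S × S → ℝ≥0∞) : ∑' p : S × S, f p.swap = ∑' p : S × S, f p :=
  (Equiv.prodComm S S).tsum_eq f

/-- exchanging in both strips exchanges the slabs `B` and `B'` -/
lemma Zab_exchange (A A' P B B' Q : S → S → ℝ≥0∞) :
    Zab (tn A A') (tx P) (tn B B') (tx Q) = Zab A P B' Q * Zab A' P B Q := by
  rw [Zab_mul]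
  unfold Zab tr
  refine tsum_congr fun p => ?_
  unfold Chess.cmp
  -- sum over `p₃` (before `Q`) and `p₂` (before `B`) swapped
  have e1 : ∀ (p q : S × S), ∑' r : S × S, (∑' u : S × S, tn A A' p u * tx P u r) * tn B B' r q =
      ∑' r : S × S, (∑' u : S × S, tn A A' p u * tn P P u r) * tn B' B r q.swap := by
    intro p q
    rw [← tsum_sw]
    refine tsum_congr fun r => ?_
    have h1 : tn B B' r.swap q = tn B' B r q.swap := by
      unfold tn
      simp only [Prod.fst_swap, Prod.snd_swap]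
      ring
    rw [h1]
    rfl
  rw [← tsum_sw]
  refine tsum_congr fun q => ?_
  rw [e1 p q.swap, Prod.swap_swap]
  have h2 : tx Q q.swap p = tn Q Q q p := by
    unfold tn tx
    simp only [Prod.fst_swap, Prod.snd_swap]
    ring
  rw [h2]

/-- exchange defect of a kernel, `Σ |K(a,b)K(a',b') - K(a,b')K(a',b)|²` -/
def dl (K : S → S → ℝ≥0∞) : ℝ≥0∞ := hs (df K)

lemma Zab_mono {S : Type*} {A P P' B Q Q' : S → S → ℝ≥0∞} (hP : ∀ s s', P s s' ≤ P' s s')
    (hQ : ∀ s s', Q s s' ≤ Q' s s') : Zab A P B Q ≤ Zab A P' B Q' := by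
  unfold Zab tr Chess.cmp
  refine ENNReal.tsum_le_tsum fun s => ENNReal.tsum_le_tsum fun s₁ => mul_le_mul' ?_ (hQ _ _)
  refine ENNReal.tsum_le_tsum fun s₂ => mul_le_mul' ?_ le_rfl
  exact ENNReal.tsum_le_tsum fun s₃ => mul_le_mul' le_rfl (hP _ _)

lemma Zab_add_left {S : Type*} (A P P' B Q : S → S → ℝ≥0∞) :
    Zab A (fun s s' => P s s' + P' s s') B Q = Zab A P B Q + Zab A P' B Q := by
  unfold Zab tr Chess.cmp
  simp only [mul_add, add_mul, ENNReal.tsum_add]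

lemma Zab_add_right {S : Type*} (A P B Q Q' : S → S → ℝ≥0∞) :
    Zab A P B (fun s s' => Q s s' + Q' s s') = Zab A P B Q + Zab A P B Q' := by
  unfold Zab tr Chess.cmp
  simp only [mul_add, ENNReal.tsum_add]

/-- Hilbert-Schmidt bound for the cyclic system -/
lemma Zab_le {S : Type*} (A P B Q : S → S → ℝ≥0∞) :
    Zab A P B Q ≤ (hs A * hs P * hs B * hs Q) ^ (1 / 2 : ℝ) := by
  unfold Zab
  refine (tr_cmp _ _).trans ?_
  rw [← ENNReal.mul_rpow_of_nonneg _ _ (by norm_num)]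
  refine ENNReal.rpow_le_rpow (mul_le_mul' ?_ le_rfl) (by norm_num)
  exact (hs_cmp _ _).trans (mul_le_mul' (hs_cmp _ _) le_rfl)

/-- **four-term decoupling**: exchange of the slabs `B`, `B'` between two copies -/
theorem four_term (A A' P B B' Q : S → S → ℝ≥0∞) :
    Zab A P B Q * Zab A' P B' Q ≤ Zab A P B' Q * Zab A' P B Q +
      (hs A * hs A' * (hs B * hs B')) ^ (1 / 2 : ℝ) *
        (dl P ^ (1 / 2 : ℝ) * hs Q + hs P * dl Q ^ (1 / 2 : ℝ)) := by
  rw [Zab_mul, ← Zab_exchange]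
  have h1 : Zab (tn A A') (tn P P) (tn B B') (tn Q Q) ≤
      Zab (tn A A') (fun p q => tx P p q + df P p q) (tn B B') (tn Q Q) :=
    Zab_mono (fun p q => le_add_ad _ _) fun _ _ => le_rfl
  rw [Zab_add_left] at h1
  have h2 : Zab (tn A A') (tx P) (tn B B') (tn Q Q) ≤
      Zab (tn A A') (tx P) (tn B B') (fun p q => tx Q p q + df Q p q) :=
    Zab_mono (fun _ _ => le_rfl) fun p q => le_add_ad _ _
  rw [Zab_add_right] at h2
  have h3 := Zab_le (tn A A') (df P) (tn B B') (tn Q Q)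
  have h4 := Zab_le (tn A A') (tx P) (tn B B') (df Q)
  rw [hs_tn, hs_tn, hs_tn] at h3
  rw [hs_tn, hs_tn, hs_tx] at h4
  have e3 : (hs A * hs A' * hs (df P) * (hs B * hs B') * (hs Q * hs Q)) ^ (1 / 2 : ℝ) =
      (hs A * hs A' * (hs B * hs B')) ^ (1 / 2 : ℝ) * (dl P ^ (1 / 2 : ℝ) * hs Q) := by
    have : hs A * hs A' * hs (df P) * (hs B * hs B') * (hs Q * hs Q) =
        (hs A * hs A' * (hs B * hs B')) * (dl P * (hs Q * hs Q)) := by
      unfold dl; ring
    rw [this, ENNReal.mul_rpow_of_nonneg (hs A * hs A' * (hs B * hs B')) _ (by norm_num),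
      ENNReal.mul_rpow_of_nonneg (dl P) _ (by norm_num),
      ENNReal.mul_rpow_of_nonneg (hs Q) _ (by norm_num), half_mul_half]
  have e4 : (hs A * hs A' * (hs P * hs P) * (hs B * hs B') * hs (df Q)) ^ (1 / 2 : ℝ) =
      (hs A * hs A' * (hs B * hs B')) ^ (1 / 2 : ℝ) * (hs P * dl Q ^ (1 / 2 : ℝ)) := by
    have : hs A * hs A' * (hs P * hs P) * (hs B * hs B') * hs (df Q) =
        (hs A * hs A' * (hs B * hs B')) * ((hs P * hs P) * dl Q) := by
      unfold dl; ring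
    rw [this, ENNReal.mul_rpow_of_nonneg (hs A * hs A' * (hs B * hs B')) _ (by norm_num),
      ENNReal.mul_rpow_of_nonneg (hs P * hs P) _ (by norm_num),
      ENNReal.mul_rpow_of_nonneg (hs P) _ (by norm_num), half_mul_half]
  rw [e3] at h3
  rw [e4] at h4
  calc _ ≤ _ := h1
    _ ≤ (Zab (tn A A') (tx P) (tn B B') (tx Q) + Zab (tn A A') (tx P) (tn B B') (df Q)) +
        Zab (tn A A') (df P) (tn B B') (tn Q Q) := add_le_add h2 le_rfl
    _ ≤ (Zab (tn A A') (tx P) (tn B B') (tx Q) +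
        (hs A * hs A' * (hs B * hs B')) ^ (1 / 2 : ℝ) * (hs P * dl Q ^ (1 / 2 : ℝ))) +
        (hs A * hs A' * (hs B * hs B')) ^ (1 / 2 : ℝ) * (dl P ^ (1 / 2 : ℝ) * hs Q) :=
        add_le_add (add_le_add le_rfl h4) h3
    _ = _ := by rw [mul_add]; ring

/-- `Tr (K Kᵗ K Kᵗ)` -/
def q4 (K : S → S → ℝ≥0∞) : ℝ≥0∞ := hs (Chess.cmp K (tp K))

/-- the defect through the traces: `dl K + 2 Tr((K Kᵗ)²) = 2 (Tr K Kᵗ)²` -/
theorem dl_add (K : S → S → ℝ≥0∞) : dl K + 2 * q4 K = 2 * hs K ^ 2 := by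
  have h1 : dl K + 2 * ∑' p : S × S, ∑' q : S × S, tn K K p q * tx K p q =
      hs (tn K K) + hs (tx K) := by
    unfold dl hs
    rw [← ENNReal.tsum_mul_left, ← ENNReal.tsum_add, ← ENNReal.tsum_add]
    refine tsum_congr fun p => ?_
    rw [← ENNReal.tsum_mul_left, ← ENNReal.tsum_add, ← ENNReal.tsum_add]
    refine tsum_congr fun q => ?_
    exact ad_sq_add _ _
  have h2 : ∑' p : S × S, ∑' q : S × S, tn K K p q * tx K p q = q4 K := by
    unfold q4 hs Chess.cmp tp tn tx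
    rw [ENNReal.tsum_prod' (f := fun p : S × S => ∑' q : S × S,
      K p.1 q.1 * K p.2 q.2 * (K p.1 q.2 * K p.2 q.1))]
    refine tsum_congr fun a => tsum_congr fun a' => ?_
    have e : ∀ q : S × S, K a q.1 * K a' q.2 * (K a q.2 * K a' q.1) =
        (K a q.1 * K a' q.1) * (K a q.2 * K a' q.2) := fun q => by ring
    simp only [e]
    rw [tsum_pair_mul (fun b => K a b * K a' b) fun b => K a b * K a' b, sq]
  rw [h2, hs_tn, hs_tx] at h1
  rw [h1]
  ring

/-- if `Tr((K Kᵗ)²) ≥ (1-ε)(Tr K Kᵗ)²` then the defect is at most `2 ε (Tr K Kᵗ)²` -/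
theorem dl_le {K : S → S → ℝ≥0∞} {ε : ℝ≥0∞} (hK : hs K ≠ ∞)
    (h : hs K ^ 2 ≤ q4 K + ε * hs K ^ 2) : dl K ≤ 2 * ε * hs K ^ 2 := by
  have h1 := dl_add K
  have hq : q4 K ≠ ∞ := by
    have h2 : q4 K ≤ hs K * hs (tp K) := hs_cmp _ _
    have h3 : hs (tp K) = hs K := by
      unfold hs tp
      rw [ENNReal.tsum_comm]
    rw [h3] at h2
    exact ne_top_of_le_ne_top (ENNReal.mul_ne_top hK hK) h2
  have h4 : dl K + 2 * q4 K ≤ 2 * ε * hs K ^ 2 + 2 * q4 K := by
    rw [h1]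
    calc 2 * hs K ^ 2 ≤ 2 * (q4 K + ε * hs K ^ 2) := mul_le_mul' le_rfl h
      _ = _ := by ring
  exact (ENNReal.add_le_add_iff_right (ENNReal.mul_ne_top (by norm_num) hq)).1 h4

end

end Vale.Agent.P159.H474
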